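import Vale.Agent.Lib.P021V.Defs

/-!
# P021: explicit positive formula for `muB`
-/

namespace Vale.Agent.P021

theorem muB_odd (j : ℕ) (H : ℤ) : muB (2 * j + 1) H = 0 := by
  induction j generalizing H with
  | zero => rfl
  | succ j ih =>
    have h : muB (2 * (j + 1) + 1) H = 8 * muB (2 * j + 1) H + muB (2 * j + 1) (H - 1) := rfl
    rw [h, ih, ih]
    norm_num

/-- `(1 - 2 X)⁻¹` as a unit. -/
private noncomputable def mubV : (PowerSeries ℤ)ˣ :=
  Units.map ((PowerSeries.rescale (2 : ℤ) : PowerSeries ℤ →+* PowerSeries ℤ) :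
    PowerSeries ℤ →* PowerSeries ℤ) (PowerSeries.invOneSubPow ℤ 1)

private lemma mubV_inv : ((mubV⁻¹ : (PowerSeries ℤ)ˣ) : PowerSeries ℤ) =
    1 - 2 * PowerSeries.X := by
  have h1 : ((mubV⁻¹ : (PowerSeries ℤ)ˣ) : PowerSeries ℤ) =
      PowerSeries.rescale (2 : ℤ) (PowerSeries.invOneSubPow ℤ 1).inv := rfl
  rw [h1, PowerSeries.invOneSubPow_inv_eq_one_sub_pow, pow_one, map_sub, map_one,
    PowerSeries.rescale_X]
  rfl

private lemma mubV_pow (d : ℕ) : mubV ^ d =
    Units.map ((PowerSeries.rescale (2 : ℤ) : PowerSeries ℤ →+* PowerSeries ℤ) :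
      PowerSeries ℤ →* PowerSeries ℤ) (PowerSeries.invOneSubPow ℤ d) := by
  induction d with
  | zero => rw [pow_zero, PowerSeries.invOneSubPow_zero, map_one]
  | succ d ih =>
    rw [pow_succ, ih, mubV, ← map_mul, ← PowerSeries.invOneSubPow_add]

/-- the generating series -/
private noncomputable def mubS (j : ℕ) (H : ℤ) : PowerSeries ℤ :=
  (1 + 2 * PowerSeries.X) ^ (2 * j) * ((mubV ^ (2 * H) : (PowerSeries ℤ)ˣ) : PowerSeries ℤ)

private lemma mubS_succ (j : ℕ) (H : ℤ) :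
    mubS (j + 1) H = mubS j (H - 1) + 8 * (mubS j H * PowerSeries.X) := by
  have h1 : mubV ^ (2 * (H - 1)) = mubV ^ (2 * H) * (mubV⁻¹) ^ 2 := by
    have : 2 * (H - 1) = 2 * H + (-2) := by ring
    rw [this, zpow_add, zpow_neg, inv_pow]
    rfl
  unfold mubS
  rw [h1, Units.val_mul, Units.val_pow_eq_pow_val, mubV_inv]
  have h2 : 2 * (j + 1) = 2 * j + 2 := by ring
  rw [h2, pow_add]
  ring

/-- the coefficient -/
private noncomputable def mubF (j : ℕ) (H : ℤ) : ℤ :=
  if H ≤ j then PowerSeries.coeff (j - H).toNat (mubS j H) else 0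

private lemma mubF_succ (j : ℕ) (H : ℤ) : mubF (j + 1) H = 8 * mubF j H + mubF j (H - 1) := by
  unfold mubF
  rcases lt_trichotomy H ((j : ℤ) + 1) with h | h | h
  · have h1 : H ≤ ((j + 1 : ℕ) : ℤ) := by push_cast; omega
    have h2 : H ≤ (j : ℤ) := by omega
    have h3 : H - 1 ≤ (j : ℤ) := by omega
    rw [if_pos h1, if_pos h2, if_pos h3]
    obtain ⟨n, hn⟩ : ∃ n : ℕ, (n : ℤ) = j - H := ⟨(j - H).toNat, by omega⟩
    have e1 : (((j + 1 : ℕ) : ℤ) - H).toNat = n + 1 := by omega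
    have e2 : ((j : ℤ) - H).toNat = n := by omega
    have e3 : ((j : ℤ) - (H - 1)).toNat = n + 1 := by omega
    rw [e1, e2, e3, mubS_succ, map_add]
    have e4 : (8 : PowerSeries ℤ) = PowerSeries.C (8 : ℤ) := rfl
    rw [e4, PowerSeries.coeff_C_mul, PowerSeries.coeff_succ_mul_X]
    ring
  · have h1 : H ≤ ((j + 1 : ℕ) : ℤ) := by push_cast; omega
    have h2 : ¬ H ≤ (j : ℤ) := by omega
    have h3 : H - 1 ≤ (j : ℤ) := by omega
    rw [if_pos h1, if_neg h2, if_pos h3]
    have e1 : (((j + 1 : ℕ) : ℤ) - H).toNat = 0 := by omega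
    have e3 : ((j : ℤ) - (H - 1)).toNat = 0 := by omega
    rw [e1, e3, mubS_succ, map_add]
    have e4 : (8 : PowerSeries ℤ) = PowerSeries.C (8 : ℤ) := rfl
    rw [e4, PowerSeries.coeff_C_mul, PowerSeries.coeff_zero_mul_X]
    ring
  · have h1 : ¬ H ≤ ((j + 1 : ℕ) : ℤ) := by push_cast; omega
    have h2 : ¬ H ≤ (j : ℤ) := by omega
    have h3 : ¬ H - 1 ≤ (j : ℤ) := by omega
    rw [if_neg h1, if_neg h2, if_neg h3]
    ring

private lemma mub_coeff_pow (d r : ℕ) :
    PowerSeries.coeff r ((1 + 2 * PowerSeries.X : PowerSeries ℤ) ^ d) = (d.choose r * 2 ^ r : ℕ) := by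
  have h1 : (1 + 2 * PowerSeries.X : PowerSeries ℤ) ^ d =
      PowerSeries.rescale (2 : ℤ) ((((1 + Polynomial.X : Polynomial ℤ) ^ d : Polynomial ℤ)) :
        PowerSeries ℤ) := by
    rw [Polynomial.coe_pow, Polynomial.coe_add, Polynomial.coe_one, Polynomial.coe_X, map_pow,
      map_add, map_one, PowerSeries.rescale_X]
    rfl
  rw [h1, PowerSeries.coeff_rescale, Polynomial.coeff_coe, Polynomial.coeff_one_add_X_pow]
  push_cast
  ring

private lemma mub_coeff_neg (n : ℕ) :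
    PowerSeries.coeff n ((1 - 2 * PowerSeries.X : PowerSeries ℤ) ^ (2 * n)) =
      (-2) ^ n * ((2 * n).choose n : ℤ) := by
  have h1 : (1 - 2 * PowerSeries.X : PowerSeries ℤ) ^ (2 * n) =
      PowerSeries.rescale (-2 : ℤ) ((((1 + Polynomial.X : Polynomial ℤ) ^ (2 * n) :
        Polynomial ℤ)) : PowerSeries ℤ) := by
    rw [Polynomial.coe_pow, Polynomial.coe_add, Polynomial.coe_one, Polynomial.coe_X, map_pow,
      map_add, map_one, PowerSeries.rescale_X, map_neg, neg_mul, ← sub_eq_add_neg]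
    rfl
  rw [h1, PowerSeries.coeff_rescale, Polynomial.coeff_coe, Polynomial.coeff_one_add_X_pow]

private lemma mub_eq (j : ℕ) (H : ℤ) : muB (2 * j) H = mubF j H := by
  induction j generalizing H with
  | zero =>
    have h0 : muB (2 * 0) H = epsSeq (-H) := rfl
    rw [h0]
    unfold mubF
    rcases le_or_gt H 0 with h | h
    · rw [if_pos (by simpa using h)]
      obtain ⟨n, hn⟩ : ∃ n : ℕ, (n : ℤ) = -H := ⟨(-H).toNat, by omega⟩
      rw [← hn, epsSeq_natCast]
      have e1 : (((0 : ℕ) : ℤ) - H).toNat = n := by omega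
      rw [e1]
      unfold mubS
      have e2 : mubV ^ (2 * H) = (mubV⁻¹) ^ (2 * n) := by
        have : 2 * H = -((2 * n : ℕ) : ℤ) := by push_cast; omega
        rw [this, zpow_neg, zpow_natCast, inv_pow]
      rw [e2, mul_zero, pow_zero, one_mul, Units.val_pow_eq_pow_val, mubV_inv, mub_coeff_neg,
        Nat.centralBinom]
    · rw [if_neg (by simpa using h)]
      obtain ⟨n, hn⟩ : ∃ n : ℕ, -H = -((n : ℤ) + 1) := ⟨(H - 1).toNat, by omega⟩
      rw [hn, epsSeq_neg_succ]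
  | succ j ih =>
    have h : muB (2 * (j + 1)) H = 8 * muB (2 * j) H + muB (2 * j) (H - 1) := rfl
    rw [h, ih, ih, mubF_succ]

theorem muB_even (j H : ℕ) (hH : 1 ≤ H) : muB (2 * j) (H : ℤ) =
    if H ≤ j then ((∑ r ∈ Finset.range (j - H + 1), (2 * j).choose r * 2 ^ r *
      ((2 * H - 1 + (j - H - r)).choose (j - H - r) * 2 ^ (j - H - r)) : ℕ) : ℤ) else 0 := by
  rw [mub_eq]
  unfold mubF
  by_cases h : H ≤ j
  · rw [if_pos h, if_pos (by exact_mod_cast h)]
    have e1 : ((j : ℤ) - (H : ℤ)).toNat = j - H := by omega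
    rw [e1]
    unfold mubS
    have e2 : mubV ^ (2 * (H : ℤ)) = mubV ^ (2 * H) := by
      have : 2 * (H : ℤ) = ((2 * H : ℕ) : ℤ) := by push_cast; ring
      rw [this, zpow_natCast]
    rw [e2, mubV_pow, PowerSeries.coeff_mul,
      Finset.Nat.sum_antidiagonal_eq_sum_range_succ (fun a b => PowerSeries.coeff a
        ((1 + 2 * PowerSeries.X : PowerSeries ℤ) ^ (2 * j)) * PowerSeries.coeff b
        ((Units.map ((PowerSeries.rescale (2 : ℤ) : PowerSeries ℤ →+* PowerSeries ℤ) :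
      PowerSeries ℤ →* PowerSeries ℤ) (PowerSeries.invOneSubPow ℤ (2 * H)) : (PowerSeries ℤ)ˣ) :
        PowerSeries ℤ))]
    push_cast
    refine Finset.sum_congr rfl fun r hr => ?_
    rw [mub_coeff_pow]
    have e3 : ((Units.map ((PowerSeries.rescale (2 : ℤ) : PowerSeries ℤ →+* PowerSeries ℤ) :
      PowerSeries ℤ →* PowerSeries ℤ) (PowerSeries.invOneSubPow ℤ (2 * H)) : (PowerSeries ℤ)ˣ) :
        PowerSeries ℤ) = PowerSeries.rescale (2 : ℤ)
          (PowerSeries.invOneSubPow ℤ (2 * H)).val := rfl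
    rw [e3, PowerSeries.invOneSubPow_val_eq_mk_sub_one_add_choose_of_pos ℤ (2 * H) (by omega),
      PowerSeries.coeff_rescale, PowerSeries.coeff_mk]
    have e4 : (2 * H - 1 + (j - H - r)).choose (2 * H - 1) =
        (2 * H - 1 + (j - H - r)).choose (j - H - r) := by
      rw [Nat.choose_symm_add]
    rw [e4]
    push_cast
    ring
  · rw [if_neg h, if_neg (by exact_mod_cast h)]

end Vale.Agent.P021
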