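import Vale.Agent.Lib.P021V.Euler
import Vale.Agent.Lib.P021V.MuB

/-!
# P021: lower bound for the coefficient `BK (5 l)`
-/

namespace Vale.Agent.P021

open Polynomial Filter Topology

/-! ### the entropy bound for binomial coefficients -/

private theorem blow_step_up (n k j : ℕ) (hk : k ≤ n) (hj : j < k) :
    n.choose j * k ^ j * (n - k) ^ (n - j) ≤
      n.choose (j + 1) * k ^ (j + 1) * (n - k) ^ (n - (j + 1)) := by
  have h1 := Nat.choose_succ_right_eq n j
  have h2 : n - j = (n - (j + 1)) + 1 := by omega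
  refine Nat.le_of_mul_le_mul_left ?_ (Nat.succ_pos j)
  calc (j + 1) * (n.choose j * k ^ j * (n - k) ^ (n - j))
      = ((j + 1) * (n - k)) * (n.choose j * k ^ j * (n - k) ^ (n - (j + 1))) := by
        rw [h2, pow_succ]; ring
    _ ≤ (k * (n - j)) * (n.choose j * k ^ j * (n - k) ^ (n - (j + 1))) := by
        refine Nat.mul_le_mul_right _ ?_
        exact Nat.mul_le_mul (by omega) (by omega)
    _ = (n.choose j * (n - j)) * (k ^ (j + 1) * (n - k) ^ (n - (j + 1))) := by
        rw [pow_succ]; ring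
    _ = (j + 1) * (n.choose (j + 1) * k ^ (j + 1) * (n - k) ^ (n - (j + 1))) := by
        rw [← h1]; ring

private theorem blow_step_down (n k j : ℕ) (hkj : k ≤ j) (hj : j < n) :
    n.choose (j + 1) * k ^ (j + 1) * (n - k) ^ (n - (j + 1)) ≤
      n.choose j * k ^ j * (n - k) ^ (n - j) := by
  have h1 := Nat.choose_succ_right_eq n j
  have h2 : n - j = (n - (j + 1)) + 1 := by omega
  refine Nat.le_of_mul_le_mul_left ?_ (Nat.succ_pos j)
  calc (j + 1) * (n.choose (j + 1) * k ^ (j + 1) * (n - k) ^ (n - (j + 1)))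
      = (n.choose j * (n - j)) * (k ^ (j + 1) * (n - k) ^ (n - (j + 1))) := by
        rw [← h1]; ring
    _ = (k * (n - j)) * (n.choose j * k ^ j * (n - k) ^ (n - (j + 1))) := by
        rw [pow_succ]; ring
    _ ≤ ((j + 1) * (n - k)) * (n.choose j * k ^ j * (n - k) ^ (n - (j + 1))) := by
        refine Nat.mul_le_mul_right _ ?_
        exact Nat.mul_le_mul (by omega) (by omega)
    _ = (j + 1) * (n.choose j * k ^ j * (n - k) ^ (n - j)) := by
        rw [h2, pow_succ]; ring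

private theorem blow_peak (n k j : ℕ) (hk : k ≤ n) (hj : j ≤ n) :
    n.choose j * k ^ j * (n - k) ^ (n - j) ≤ n.choose k * k ^ k * (n - k) ^ (n - k) := by
  rcases le_total j k with h | h
  · have key : ∀ d, d ≤ k → n.choose (k - d) * k ^ (k - d) * (n - k) ^ (n - (k - d)) ≤
        n.choose k * k ^ k * (n - k) ^ (n - k) := by
      intro d
      induction d with
      | zero => intro _; simp
      | succ d ih =>
        intro hd
        have := blow_step_up n k (k - (d + 1)) hk (by omega)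
        have e : k - (d + 1) + 1 = k - d := by omega
        rw [e] at this
        exact this.trans (ih (by omega))
    have := key (k - j) (by omega)
    have e : k - (k - j) = j := by omega
    rwa [e] at this
  · induction j, h using Nat.le_induction with
    | base => exact le_refl _
    | succ j hkj ih =>
      exact (blow_step_down n k j hkj (by omega)).trans (ih (by omega))

private theorem blow_entropy (n k : ℕ) (hk : k ≤ n) :
    n ^ n ≤ (n + 1) * (n.choose k * k ^ k * (n - k) ^ (n - k)) := by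
  have h1 : n ^ n = ∑ j ∈ Finset.range (n + 1), k ^ j * (n - k) ^ (n - j) * n.choose j := by
    have h := add_pow k (n - k) n
    rw [Nat.add_sub_cancel' hk] at h
    exact_mod_cast h
  rw [h1]
  calc ∑ j ∈ Finset.range (n + 1), k ^ j * (n - k) ^ (n - j) * n.choose j
      ≤ ∑ _j ∈ Finset.range (n + 1), n.choose k * k ^ k * (n - k) ^ (n - k) := by
        refine Finset.sum_le_sum fun j hj => ?_
        have := blow_peak n k j hk (by simpa [Nat.lt_succ_iff] using Finset.mem_range.mp hj)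
        calc k ^ j * (n - k) ^ (n - j) * n.choose j = n.choose j * k ^ j * (n - k) ^ (n - j) := by
              ring
          _ ≤ _ := this
    _ = (n + 1) * (n.choose k * k ^ k * (n - k) ^ (n - k)) := by simp

private theorem blow_choose (A B l : ℕ) (hB : B ≤ A) (hl : 1 ≤ l) :
    (A ^ A) ^ l ≤ (A * l + 1) * ((A * l).choose (B * l) * (B ^ B * (A - B) ^ (A - B)) ^ l) := by
  have h := blow_entropy (A * l) (B * l) (Nat.mul_le_mul_right l hB)
  have e : A * l - B * l = (A - B) * l := by rw [Nat.sub_mul]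
  rw [e] at h
  have hl' : 0 < l ^ (A * l) := by positivity
  refine Nat.le_of_mul_le_mul_left ?_ hl'
  have e2 : l ^ (A * l) = l ^ (B * l) * l ^ ((A - B) * l) := by
    rw [← pow_add, ← Nat.add_mul, Nat.add_sub_cancel' hB]
  calc l ^ (A * l) * (A ^ A) ^ l = (A * l) ^ (A * l) := by
        rw [mul_pow, ← pow_mul]; ring
    _ ≤ (A * l + 1) * ((A * l).choose (B * l) * (B * l) ^ (B * l) *
          ((A - B) * l) ^ ((A - B) * l)) := h
    _ = l ^ (A * l) * ((A * l + 1) * ((A * l).choose (B * l) *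
          (B ^ B * (A - B) ^ (A - B)) ^ l)) := by
        rw [e2, mul_pow B l, mul_pow (A - B) l, mul_pow (B ^ B), ← pow_mul, ← pow_mul]
        ring

/-! ### signs of the coefficients -/

private theorem blow_coeff_PZ (a b j : ℕ) :
    (PZ a b).coeff j = (-1) ^ (a + b + j) *
      ((((X + C 2) ^ a * (X + C 3) ^ b : ℕ[X]).coeff j : ℕ) : ℤ) := by
  rw [PZ, coeff_mul, coeff_mul]
  push_cast
  rw [Finset.mul_sum]
  refine Finset.sum_congr rfl fun x hx => ?_
  obtain ⟨p, q⟩ := x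
  have hpq : p + q = j := by simpa using hx
  have c2 : (X - C 2 : ℤ[X]) = X + C (-2) := by simp [sub_eq_add_neg]
  have c3 : (X - C 3 : ℤ[X]) = X + C (-3) := by simp [sub_eq_add_neg]
  rw [c2, c3]
  dsimp only
  rw [coeff_X_add_C_pow, coeff_X_add_C_pow, coeff_X_add_C_pow, coeff_X_add_C_pow]
  by_cases hp : p ≤ a
  · by_cases hq : q ≤ b
    · have e : a + b + j = (a - p) + (b - q) + 2 * j := by omega
      rw [e, pow_add, pow_add, pow_mul, neg_one_sq, one_pow, mul_one, neg_pow (2 : ℤ),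
        neg_pow (3 : ℤ)]
      push_cast
      ring
    · rw [Nat.choose_eq_zero_of_lt (by omega : b < q)]
      simp
  · rw [Nat.choose_eq_zero_of_lt (by omega : a < p)]
    simp

private theorem blow_PZ_mul (a b a' b' : ℕ) : PZ a b * PZ a' b' = PZ (a + a') (b + b') := by
  unfold PZ
  rw [pow_add, pow_add]
  ring

private theorem blow_NK_coeff (k m : ℕ) :
    (NK k).coeff (2 * m) = ((∑ i ∈ Finset.range (16 * k + 1),
      (26 * k).choose i * (26 * k).choose (16 * k - i) *
        ((X + C 2) ^ (6 * k + (26 * k - i)) *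
          (X + C 3) ^ (36 * k + (26 * k - (16 * k - i))) : ℕ[X]).coeff (2 * m) : ℕ) : ℤ) := by
  rw [NK, NV, hasseDeriv_PZ, Finset.mul_sum, finsetSum_coeff]
  push_cast
  refine Finset.sum_congr rfl fun i hi => ?_
  have hi' : i ≤ 16 * k := by simpa [Nat.lt_succ_iff] using Finset.mem_range.mp hi
  rw [mul_left_comm, blow_PZ_mul, coeff_C_mul, blow_coeff_PZ]
  have e : 6 * k + (26 * k - i) + (36 * k + (26 * k - (16 * k - i))) + 2 * m =
      2 * (39 * k + m) := by omega
  rw [e, pow_mul, neg_one_sq, one_pow, one_mul]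

private theorem blow_LB_map (p : ℤ[X]) (H : ℤ) :
    LB H (p.map (Int.castRingHom ℚ)) =
      ((∑ j ∈ Finset.range (p.natDegree + 1), p.coeff j * muB j H : ℤ) : ℚ) := by
  rw [LB, Polynomial.lsum_apply]
  rw [Polynomial.sum_over_range' _ _ (p.natDegree + 1)
    (Nat.lt_succ_of_le (natDegree_map_le))]
  · push_cast
    refine Finset.sum_congr rfl fun j _ => ?_
    simp [coeff_map]
  · intro j
    simp

/-- `BK k` is at least each single term. -/
private theorem blow_term (k m i p q r : ℕ) (hk : 1 ≤ k) (hi : i ≤ 16 * k)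
    (hpq : p + q = 2 * m) (hm : 13 * k ≤ m) (hr : r ≤ m - 13 * k) :
    (((26 * k).choose i * (26 * k).choose (16 * k - i) *
      ((2 ^ (6 * k + (26 * k - i) - p) * (6 * k + (26 * k - i)).choose p) *
        (3 ^ (36 * k + (26 * k - (16 * k - i)) - q) *
          (36 * k + (26 * k - (16 * k - i))).choose q)) *
      ((2 * m).choose r * 2 ^ r * ((2 * (13 * k) - 1 + (m - 13 * k - r)).choose (m - 13 * k - r) *
        2 ^ (m - 13 * k - r))) : ℕ) : ℚ) ≤ BK k := by
  rw [BK, blow_LB_map]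
  have hpos : ∀ j, 0 ≤ (NK k).coeff j * muB j ((13 * k : ℕ) : ℤ) := by
    intro j
    rcases Nat.even_or_odd' j with ⟨n, rfl | rfl⟩
    · rw [blow_NK_coeff, muB_even n (13 * k) (by omega)]
      refine mul_nonneg (Int.natCast_nonneg _) ?_
      split_ifs
      · exact Int.natCast_nonneg _
      · exact le_refl _
    · rw [muB_odd, mul_zero]
  have hT : (((26 * k).choose i * (26 * k).choose (16 * k - i) *
      ((2 ^ (6 * k + (26 * k - i) - p) * (6 * k + (26 * k - i)).choose p) *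
        (3 ^ (36 * k + (26 * k - (16 * k - i)) - q) *
          (36 * k + (26 * k - (16 * k - i))).choose q)) *
      ((2 * m).choose r * 2 ^ r * ((2 * (13 * k) - 1 + (m - 13 * k - r)).choose (m - 13 * k - r) *
        2 ^ (m - 13 * k - r))) : ℕ) : ℤ) ≤ (NK k).coeff (2 * m) * muB (2 * m) ((13 * k : ℕ) : ℤ) := by
    rw [blow_NK_coeff, muB_even m (13 * k) (by omega), if_pos hm, ← Nat.cast_mul]
    refine Int.ofNat_le.mpr ?_
    refine Nat.mul_le_mul ?_ ?_
    · have h1 : ((26 * k).choose i * (26 * k).choose (16 * k - i) *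
          ((2 ^ (6 * k + (26 * k - i) - p) * (6 * k + (26 * k - i)).choose p) *
          (3 ^ (36 * k + (26 * k - (16 * k - i)) - q) *
          (36 * k + (26 * k - (16 * k - i))).choose q))) ≤
          (26 * k).choose i * (26 * k).choose (16 * k - i) *
        ((X + C 2) ^ (6 * k + (26 * k - i)) *
          (X + C 3) ^ (36 * k + (26 * k - (16 * k - i))) : ℕ[X]).coeff (2 * m) := by
        refine Nat.mul_le_mul_left _ ?_
        rw [coeff_mul]
        have := Finset.single_le_sum (f := fun x : ℕ × ℕ =>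
          ((X + C 2) ^ (6 * k + (26 * k - i)) : ℕ[X]).coeff x.1 *
          ((X + C 3) ^ (36 * k + (26 * k - (16 * k - i))) : ℕ[X]).coeff x.2)
          (s := Finset.HasAntidiagonal.antidiagonal (2 * m)) (fun _ _ => Nat.zero_le _)
          (a := (p, q)) (by simpa using hpq)
        refine le_trans (le_of_eq ?_) this
        dsimp only
        rw [coeff_X_add_C_pow, coeff_X_add_C_pow, Nat.cast_id, Nat.cast_id]
      refine h1.trans ?_
      exact Finset.single_le_sum (f := fun i => (26 * k).choose i * (26 * k).choose (16 * k - i) *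
        ((X + C 2) ^ (6 * k + (26 * k - i)) *
          (X + C 3) ^ (36 * k + (26 * k - (16 * k - i))) : ℕ[X]).coeff (2 * m))
        (fun _ _ => Nat.zero_le _) (Finset.mem_range.mpr (by omega))
    · exact Finset.single_le_sum (f := fun r => (2 * m).choose r * 2 ^ r *
        ((2 * (13 * k) - 1 + (m - 13 * k - r)).choose (m - 13 * k - r) *
          2 ^ (m - 13 * k - r))) (fun _ _ => Nat.zero_le _) (Finset.mem_range.mpr (by omega))
  have hle : (NK k).coeff (2 * m) * muB (2 * m) ((13 * k : ℕ) : ℤ) ≤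
      ∑ j ∈ Finset.range ((NK k).natDegree + 1), (NK k).coeff j * muB j ((13 * k : ℕ) : ℤ) := by
    by_cases hd : 2 * m ≤ (NK k).natDegree
    · exact Finset.single_le_sum (f := fun j => (NK k).coeff j * muB j ((13 * k : ℕ) : ℤ))
        (fun j _ => hpos j) (Finset.mem_range.mpr (by omega))
    · rw [coeff_eq_zero_of_natDegree_lt (by omega), zero_mul]
      exact Finset.sum_nonneg fun j _ => hpos j
  exact_mod_cast hT.trans hle

/-! ### the numerical part -/

private theorem blow_num1 :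
    (27182818286 ^ 255) ^ 3 * (1345 * ((42 ^ 42 * 88 ^ 88) * (38 ^ 38 * 92 ^ 92) *
      (80 ^ 80 * 38 ^ 38) * (158 ^ 158 * 114 ^ 114) * (31 ^ 31 * 207 ^ 207) *
      (23 ^ 23 * 130 ^ 130))) ≤
    1000 * ((10 ^ 255) ^ 3) ^ 10 * (130 ^ 130 * 130 ^ 130 * 118 ^ 118 * (272 ^ 136) ^ 2 *
      238 ^ 238 * 153 ^ 153 * (2 ^ 92 * 3 ^ 114)) := by
  norm_num

private theorem blow_num2 : Real.exp (29 / 100) ≤ 1338 / 1000 := by
  have h1 : Real.exp (29 / 100) ^ 100 = Real.exp 1 ^ 29 := by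
    rw [← Real.exp_nat_mul, ← Real.exp_nat_mul]
    norm_num
  have h2 : Real.exp 1 ^ 29 ≤ (27182818286 / 10000000000) ^ 29 := by
    have := Real.exp_one_lt_d9
    exact pow_le_pow_left₀ (Real.exp_pos 1).le (by linarith) 29
  have h3 : ((27182818286 / 10000000000 : ℝ)) ^ 29 ≤ (1338 / 1000) ^ 100 := by norm_num
  exact le_of_pow_le_pow_left₀ (by norm_num) (by norm_num) (h1.trans_le (h2.trans h3))

/-- the numerator -/
private abbrev blowN : ℕ := 130 ^ 130 * 130 ^ 130 * 118 ^ 118 * (272 ^ 136) ^ 2 *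
      238 ^ 238 * 153 ^ 153 * (2 ^ 92 * 3 ^ 114)

/-- the denominator -/
private abbrev blowD : ℕ := (42 ^ 42 * 88 ^ 88) * (38 ^ 38 * 92 ^ 92) *
      (80 ^ 80 * 38 ^ 38) * (158 ^ 158 * 114 ^ 114) * (31 ^ 31 * 207 ^ 207) *
      (23 ^ 23 * 130 ^ 130)

private theorem blow_pow_aux (a t : ℝ) :
    (a / t ^ 10) ^ 765 = (a ^ 255) ^ 3 / ((t ^ 255) ^ 3) ^ 10 := by
  have e1 : (a ^ 255) ^ 3 = a ^ 765 := by rw [← pow_mul]
  have e2 : ((t ^ 255) ^ 3) ^ 10 = (t ^ 10) ^ 765 := by rw [← pow_mul, ← pow_mul, ← pow_mul]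
  rw [div_pow, e1, e2]

private theorem blow_num3 :
    (1005 / 1000 : ℝ) * Real.exp (76529 / 100) * (blowD : ℝ) ≤ (blowN : ℝ) := by
  have h1 : Real.exp (76529 / 100) = Real.exp 1 ^ 765 * Real.exp (29 / 100) := by
    rw [← Real.exp_nat_mul, ← Real.exp_add]
    norm_num
  have h2 : Real.exp 1 ^ 765 ≤ (27182818286 / 10000000000) ^ 765 := by
    have := Real.exp_one_lt_d9
    exact pow_le_pow_left₀ (Real.exp_pos 1).le (by linarith) 765
  have h3 : ((27182818286 / 10000000000 : ℝ)) ^ 765 =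
      (27182818286 ^ 255) ^ 3 / ((10 ^ 255) ^ 3) ^ 10 := by
    rw [show (10000000000 : ℝ) = 10 ^ 10 by norm_num]
    exact blow_pow_aux _ _
  have key : ((27182818286 ^ 255) ^ 3 * (1345 * (blowD : ℝ))) ≤
      1000 * ((10 ^ 255) ^ 3) ^ 10 * (blowN : ℝ) := by
    have := blow_num1
    exact_mod_cast this
  have hD : (0 : ℝ) ≤ (blowD : ℝ) := Nat.cast_nonneg _
  have hP : (0 : ℝ) < ((10 ^ 255) ^ 3) ^ 10 := by positivity
  generalize (blowD : ℝ) = D at *
  generalize (blowN : ℝ) = N at *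
  generalize ((10 : ℝ) ^ 255) ^ 3 = P at *
  generalize ((27182818286 : ℝ) ^ 255) ^ 3 = Q at *
  have h4 : (1005 / 1000 : ℝ) * Real.exp (76529 / 100) ≤ 1345 / 1000 * (Q / P ^ 10) := by
    rw [h1]
    have h5 : Real.exp 1 ^ 765 * Real.exp (29 / 100) ≤ (Q / P ^ 10) * (1338 / 1000) := by
      refine mul_le_mul (h2.trans h3.le) blow_num2 (Real.exp_pos _).le ?_
      rw [← h3]
      positivity
    have h6 : (0 : ℝ) ≤ Q / P ^ 10 := by
      rw [← h3]
      positivity
    nlinarith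
  calc (1005 / 1000 : ℝ) * Real.exp (76529 / 100) * D
      ≤ 1345 / 1000 * (Q / P ^ 10) * D := mul_le_mul_of_nonneg_right h4 hD
    _ = (Q * (1345 * D)) / (1000 * P ^ 10) := by
        field_simp
    _ ≤ N := by
        rw [div_le_iff₀ (by positivity)]
        linarith

/-- the main term -/
private def blowT (l : ℕ) : ℕ :=
  (130 * l).choose (42 * l) * (130 * l).choose (38 * l) *
      ((2 ^ (38 * l) * (118 * l).choose (80 * l)) *
        (3 ^ (114 * l) * (272 * l).choose (158 * l))) *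
      ((238 * l).choose (31 * l) * 2 ^ (31 * l) * ((153 * l - 1).choose (23 * l) *
        2 ^ (23 * l)))

private theorem blow_T_le (l : ℕ) (hl : 1 ≤ l) : ((blowT l : ℕ) : ℚ) ≤ BK (5 * l) := by
  have h := blow_term (5 * l) (119 * l) (42 * l) (80 * l) (158 * l) (31 * l) (by omega)
    (by omega) (by omega) (by omega) (by omega)
  have e1 : 26 * (5 * l) = 130 * l := by omega
  have e2 : 16 * (5 * l) - 42 * l = 38 * l := by omega
  have e3 : 6 * (5 * l) + (130 * l - 42 * l) = 118 * l := by omega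
  have e4 : 118 * l - 80 * l = 38 * l := by omega
  have e5 : 36 * (5 * l) + (130 * l - 38 * l) = 272 * l := by omega
  have e6 : 272 * l - 158 * l = 114 * l := by omega
  have e7 : 2 * (119 * l) = 238 * l := by omega
  have e8 : 119 * l - 13 * (5 * l) - 31 * l = 23 * l := by omega
  have e9 : 2 * (13 * (5 * l)) - 1 + 23 * l = 153 * l - 1 := by omega
  rw [e1, e2, e3, e4, e5, e6, e7, e8, e9] at h
  exact h

private theorem blow_last (l : ℕ) (hl : 1 ≤ l) :
    (153 * l).choose (23 * l) ≤ 2 * (153 * l - 1).choose (23 * l) := by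
  have h := Nat.choose_mul_succ_eq (153 * l - 1) (23 * l)
  have e : 153 * l - 1 + 1 = 153 * l := by omega
  have e' : 153 * l - 23 * l = 130 * l := by omega
  rw [e, e'] at h
  have hpos : 0 < 130 * l := by omega
  refine Nat.le_of_mul_le_mul_right ?_ hpos
  rw [← h]
  calc (153 * l - 1).choose (23 * l) * (153 * l) ≤
      (153 * l - 1).choose (23 * l) * (2 * (130 * l)) := Nat.mul_le_mul_left _ (by omega)
    _ = 2 * (153 * l - 1).choose (23 * l) * (130 * l) := by ring

private theorem blow_combine (l a1 a2 a3 a4 a5 a6 y1 y2 y3 y4 y5 y6 c1 c2 c3 c4 c5 c6 c6'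
    p1 p2 p3 p4 p5 p6 Q : ℕ)
    (h1 : a1 ^ l ≤ p1 * (c1 * y1 ^ l)) (h2 : a2 ^ l ≤ p2 * (c2 * y2 ^ l))
    (h3 : a3 ^ l ≤ p3 * (c3 * y3 ^ l)) (h4 : a4 ^ l ≤ p4 * (c4 * y4 ^ l))
    (h5 : a5 ^ l ≤ p5 * (c5 * y5 ^ l)) (h6 : a6 ^ l ≤ p6 * (c6 * y6 ^ l))
    (h7 : c6 ≤ 2 * c6') (q1 : p1 ≤ Q) (q2 : p2 ≤ Q) (q3 : p3 ≤ Q) (q4 : p4 ≤ Q)
    (q5 : p5 ≤ Q) (q6 : p6 ≤ Q) :
    (a1 * a2 * a3 * a4 * a5 * a6 * (2 ^ 92 * 3 ^ 114)) ^ l ≤
      2 * Q ^ 6 * ((y1 * y2 * y3 * y4 * y5 * y6) ^ l *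
        (c1 * c2 * ((2 ^ (38 * l) * c3) * (3 ^ (114 * l) * c4)) *
          (c5 * 2 ^ (31 * l) * (c6' * 2 ^ (23 * l))))) := by
  have e : ((2 : ℕ) ^ 92 * 3 ^ 114) ^ l = 2 ^ (38 * l) * 3 ^ (114 * l) * 2 ^ (31 * l) *
      2 ^ (23 * l) := by
    rw [mul_pow, ← pow_mul, ← pow_mul, show 92 * l = 38 * l + 31 * l + 23 * l by omega,
      pow_add, pow_add]
    ring
  rw [mul_pow _ (2 ^ 92 * 3 ^ 114), e, mul_pow _ a6, mul_pow _ a5, mul_pow _ a4, mul_pow _ a3,
    mul_pow a1 a2, mul_pow _ y6, mul_pow _ y5, mul_pow _ y4, mul_pow _ y3, mul_pow y1 y2]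
  generalize a1 ^ l = A1 at *
  generalize a2 ^ l = A2 at *
  generalize a3 ^ l = A3 at *
  generalize a4 ^ l = A4 at *
  generalize a5 ^ l = A5 at *
  generalize a6 ^ l = A6 at *
  generalize y1 ^ l = Y1 at *
  generalize y2 ^ l = Y2 at *
  generalize y3 ^ l = Y3 at *
  generalize y4 ^ l = Y4 at *
  generalize y5 ^ l = Y5 at *
  generalize y6 ^ l = Y6 at *
  generalize 2 ^ (38 * l) = B1
  generalize 3 ^ (114 * l) = B2
  generalize 2 ^ (31 * l) = B3
  generalize 2 ^ (23 * l) = B4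
  have h1' : A1 ≤ Q * (c1 * Y1) := h1.trans (Nat.mul_le_mul_right _ q1)
  have h2' : A2 ≤ Q * (c2 * Y2) := h2.trans (Nat.mul_le_mul_right _ q2)
  have h3' : A3 ≤ Q * (c3 * Y3) := h3.trans (Nat.mul_le_mul_right _ q3)
  have h4' : A4 ≤ Q * (c4 * Y4) := h4.trans (Nat.mul_le_mul_right _ q4)
  have h5' : A5 ≤ Q * (c5 * Y5) := h5.trans (Nat.mul_le_mul_right _ q5)
  have h6' : A6 ≤ Q * (2 * c6' * Y6) :=
    h6.trans (Nat.mul_le_mul q6 (Nat.mul_le_mul_right _ h7))
  calc A1 * A2 * A3 * A4 * A5 * A6 * (B1 * B2 * B3 * B4)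
      ≤ (Q * (c1 * Y1)) * (Q * (c2 * Y2)) * (Q * (c3 * Y3)) * (Q * (c4 * Y4)) *
        (Q * (c5 * Y5)) * (Q * (2 * c6' * Y6)) * (B1 * B2 * B3 * B4) := by
        refine Nat.mul_le_mul_right _ ?_
        exact Nat.mul_le_mul (Nat.mul_le_mul (Nat.mul_le_mul (Nat.mul_le_mul
          (Nat.mul_le_mul h1' h2') h3') h4') h5') h6'
    _ = _ := by ring

private theorem blow_nat (l : ℕ) (hl : 1 ≤ l) :
    blowN ^ l ≤ 2 * (300 * l) ^ 6 * (blowD ^ l * blowT l) := by
  have h1 := blow_choose 130 42 l (by norm_num) hl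
  have h2 := blow_choose 130 38 l (by norm_num) hl
  have h3 := blow_choose 118 80 l (by norm_num) hl
  have h4 := blow_choose 272 158 l (by norm_num) hl
  have h5 := blow_choose 238 31 l (by norm_num) hl
  have h6 := blow_choose 153 23 l (by norm_num) hl
  have h7 := blow_last l hl
  have e4 : (272 : ℕ) ^ 272 = (272 ^ 136) ^ 2 := by rw [← pow_mul]
  rw [e4] at h4
  exact blow_combine l _ _ _ _ _ _ _ _ _ _ _ _ _ _ _ _ _ _ _ _ _ _ _ _ _ (300 * l)
    h1 h2 h3 h4 h5 h6 h7 (by omega) (by omega) (by omega) (by omega) (by omega) (by omega)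

theorem BK_lower : ∀ᶠ l : ℕ in atTop, Real.exp (76529 / 100 * l) ≤ |(BK (5 * l) : ℝ)| := by
  have hpoly : ∀ᶠ l : ℕ in atTop, (2 * (300 * l) ^ 6 : ℝ) ≤ (1005 / 1000) ^ l := by
    have h := tendsto_pow_const_div_const_pow_of_one_lt 6
      (show (1 : ℝ) < 1005 / 1000 by norm_num)
    have h2 := h.eventually (gt_mem_nhds (show (0 : ℝ) < 1 / (2 * 300 ^ 6) by positivity))
    filter_upwards [h2] with l hl
    rw [div_lt_div_iff₀ (by positivity) (by positivity)] at hl
    rw [mul_pow]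
    linarith
  filter_upwards [hpoly, eventually_ge_atTop 1] with l hl hl1
  have hT : ((blowT l : ℕ) : ℝ) ≤ (BK (5 * l) : ℝ) := by
    have := blow_T_le l hl1
    exact_mod_cast this
  refine le_trans ?_ (hT.trans (le_abs_self _))
  have hn : (blowN : ℝ) ^ l ≤ 2 * (300 * l) ^ 6 * ((blowD : ℝ) ^ l * (blowT l : ℕ)) := by
    have := blow_nat l hl1
    exact_mod_cast this
  have h3 := pow_le_pow_left₀ (by positivity) blow_num3 l
  have hD : (0 : ℝ) < (blowD : ℝ) := by positivity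
  have hT0 : (0 : ℝ) ≤ (blowT l : ℕ) := Nat.cast_nonneg _
  generalize (blowD : ℝ) = D at *
  generalize (blowN : ℝ) = N at *
  generalize ((blowT l : ℕ) : ℝ) = T at *
  rw [mul_pow, mul_pow] at h3
  have h4 : Real.exp (76529 / 100) ^ l = Real.exp (76529 / 100 * l) := by
    rw [← Real.exp_nat_mul]
    ring_nf
  rw [h4] at h3
  have hDl : 0 < D ^ l := pow_pos hD l
  have hc : (0 : ℝ) < (1005 / 1000) ^ l := by positivity
  have h5 : (1005 / 1000 : ℝ) ^ l * Real.exp (76529 / 100 * l) * D ^ l ≤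
      (1005 / 1000) ^ l * T * D ^ l := by
    calc _ ≤ N ^ l := h3
      _ ≤ 2 * (300 * l) ^ 6 * (D ^ l * T) := hn
      _ ≤ (1005 / 1000) ^ l * (D ^ l * T) := by
          exact mul_le_mul_of_nonneg_right hl (by positivity)
      _ = _ := by ring
  have h6 := le_of_mul_le_mul_right h5 hDl
  exact le_of_mul_le_mul_left h6 hc

end Vale.Agent.P021
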