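import Vale.Agent.Lib.P021V.Defs

/-!
# P021: Hasse derivatives of `(X-2)^a (X-3)^b`
-/

namespace Vale.Agent.P021

open Polynomial

theorem hasseDeriv_X_sub_C_pow (r : ℤ) (n m : ℕ) :
    hasseDeriv m ((X - C r) ^ n : ℤ[X]) = C ((n.choose m : ℕ) : ℤ) * (X - C r) ^ (n - m) := by
  have h1 := congrFun (factorial_smul_hasseDeriv (R := ℤ) (k := m)) ((X - C r) ^ n)
  rw [iterate_derivative_X_sub_pow, Nat.descFactorial_eq_factorial_mul_choose] at h1
  rw [LinearMap.smul_apply, mul_smul] at h1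
  have h2 : (m.factorial : ℤ) ≠ 0 := by exact_mod_cast Nat.factorial_ne_zero m
  have h3 : (C (m.factorial : ℤ) : ℤ[X]) ≠ 0 := by rwa [Ne, C_eq_zero]
  apply mul_left_cancel₀ h3
  have e : ∀ (q : ℕ) (f : ℤ[X]), q • f = C (q : ℤ) * f := by
    intro q f
    rw [nsmul_eq_mul]
    simp
  rw [e, e, e] at h1
  exact h1

theorem hasseDeriv_PZ (a b M : ℕ) :
    hasseDeriv M (PZ a b) = ∑ i ∈ Finset.range (M + 1),
      C ((a.choose i * b.choose (M - i) : ℕ) : ℤ) * PZ (a - i) (b - (M - i)) := by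
  unfold PZ
  rw [hasseDeriv_mul, Finset.Nat.sum_antidiagonal_eq_sum_range_succ
    (f := fun i j => hasseDeriv i ((X - C 2) ^ a : ℤ[X]) * hasseDeriv j ((X - C 3) ^ b : ℤ[X]))]
  refine Finset.sum_congr rfl fun i _ => ?_
  rw [hasseDeriv_X_sub_C_pow, hasseDeriv_X_sub_C_pow]
  push_cast
  rw [C_mul]
  ring

theorem hasseDeriv_PZ_euler (a b M : ℕ) (ha : M ≤ a) (hb : M ≤ b) :
    hasseDeriv M (PZ a b) = PZ (a - M) (b - M) * hasseDeriv (a + b - M) (PZ b a) := by
  rw [hasseDeriv_PZ, hasseDeriv_PZ, Finset.mul_sum]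
  have e : a + b - M + 1 = (b - M) + ((M + 1) + (a - M)) := by omega
  rw [e]
  rw [Finset.sum_range_add (fun j => PZ (a - M) (b - M) *
      (C ((b.choose j * a.choose (a + b - M - j) : ℕ) : ℤ) *
        PZ (b - j) (a - (a + b - M - j)))) (b - M) (M + 1 + (a - M)),
    Finset.sum_range_add _ (M + 1) (a - M)]
  have h1 : ∑ j ∈ Finset.range (b - M), PZ (a - M) (b - M) *
      (C ((b.choose j * a.choose (a + b - M - j) : ℕ) : ℤ) *
        PZ (b - j) (a - (a + b - M - j))) = 0 := by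
    refine Finset.sum_eq_zero fun j hj => ?_
    rw [Finset.mem_range] at hj
    rw [Nat.choose_eq_zero_of_lt (show a < a + b - M - j by omega)]
    simp
  have h2 : ∑ j ∈ Finset.range (a - M), PZ (a - M) (b - M) *
      (C ((b.choose (b - M + (M + 1 + j)) * a.choose (a + b - M - (b - M + (M + 1 + j))) : ℕ) : ℤ) *
        PZ (b - (b - M + (M + 1 + j))) (a - (a + b - M - (b - M + (M + 1 + j))))) = 0 := by
    refine Finset.sum_eq_zero fun j _ => ?_
    rw [Nat.choose_eq_zero_of_lt (show b < b - M + (M + 1 + j) by omega)]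
    simp
  rw [h1, h2, zero_add, add_zero]
  refine Finset.sum_congr rfl fun i hi => ?_
  rw [Finset.mem_range] at hi
  have h3 : a + b - M - (b - M + i) = a - i := by omega
  have h4 : b.choose (M - i) = b.choose (b - M + i) := by
    rw [← Nat.choose_symm (show M - i ≤ b by omega)]
    congr 1; omega
  have h5 : a.choose (a - i) = a.choose i := Nat.choose_symm (by omega)
  rw [h3, h5, h4, mul_comm (b.choose _) (a.choose _)]
  have h6 : PZ (a - i) (b - (M - i)) = PZ (a - M) (b - M) * PZ (b - (b - M + i)) (a - (a - i)) := by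
    unfold PZ
    rw [show a - i = (a - M) + (M - i) by omega, show b - (M - i) = (b - M) + i by omega,
      show b - (b - M + i) = M - i by omega, show a - (a - M + (M - i)) = i by omega, pow_add,
      pow_add]
    ring
  rw [h6]
  ring

theorem PZ_mul (a b c d : ℕ) : PZ a b * PZ c d = PZ (a + c) (b + d) := by
  unfold PZ
  rw [pow_add, pow_add]
  ring

theorem NK_eq (k : ℕ) :
    NK k = PZ (16 * k) (46 * k) * hasseDeriv (36 * k) (PZ (26 * k) (26 * k)) := by
  unfold NK NV
  rw [hasseDeriv_PZ_euler (26 * k) (26 * k) (16 * k) (by omega) (by omega), ← mul_assoc, PZ_mul]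
  have h1 : 6 * k + (26 * k - 16 * k) = 16 * k := by omega
  have h2 : 36 * k + (26 * k - 16 * k) = 46 * k := by omega
  have h3 : 26 * k + 26 * k - 16 * k = 36 * k := by omega
  rw [h1, h2, h3]

theorem NK_dvd (k : ℕ) : ((X - C 2) ^ (16 * k) : ℤ[X]) ∣ NK k := by
  rw [NK_eq]
  unfold PZ
  rw [mul_assoc]
  exact Dvd.intro _ rfl

theorem natDegree_PZ (a b : ℕ) : (PZ a b).natDegree = a + b := by
  unfold PZ
  rw [natDegree_mul (pow_ne_zero _ (X_sub_C_ne_zero _)) (pow_ne_zero _ (X_sub_C_ne_zero _)),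
    natDegree_pow, natDegree_pow, natDegree_X_sub_C, natDegree_X_sub_C, mul_one, mul_one]

theorem natDegree_NK_le (k : ℕ) : (NK k).natDegree ≤ 78 * k := by
  unfold NK NV
  refine natDegree_mul_le.trans ?_
  have h1 := natDegree_hasseDeriv_le (PZ (26 * k) (26 * k)) (16 * k)
  rw [natDegree_PZ] at h1 ⊢
  omega

end Vale.Agent.P021
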