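import Vale.Agent.Lib.P021.Bound
import Vale.Agent.Lib.P021V.Euler

/-!
# P021: upper bound for the coefficient `BK k`
-/

namespace Vale.Agent.P021

open Polynomial

theorem map_PZ_eq_NQ (a b : ℕ) : (PZ a b).map (Int.castRingHom ℚ) = NQ a b 0 := by
  have h2 : (C (2 : ℚ)) = 2 := rfl
  have h3 : (C (3 : ℚ)) = 3 := rfl
  unfold PZ NQ
  simp [h2, h3]

/-- convolution with nonnegative terms -/
theorem bup_conv (n M : ℕ) (hM : M ≤ n) (f g : ℕ → ℝ) (hf : ∀ i, 0 ≤ f i) (hg : ∀ i, 0 ≤ g i) :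
    ∑ i ∈ Finset.range (M + 1), f i * g (M - i) ≤
      (∑ i ∈ Finset.range (n + 1), f i) * (∑ i ∈ Finset.range (n + 1), g i) := by
  rw [Finset.sum_mul_sum, ← Finset.sum_product',
    ← Finset.Nat.sum_antidiagonal_eq_sum_range_succ (f := fun i j => f i * g j)]
  refine Finset.sum_le_sum_of_subset_of_nonneg ?_ fun x _ _ => mul_nonneg (hf _) (hg _)
  intro x hx
  rw [Finset.HasAntidiagonal.mem_antidiagonal] at hx
  rw [Finset.mem_product, Finset.mem_range, Finset.mem_range]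
  omega

theorem bup_sum (n M : ℕ) (hM : M ≤ n) (x y t : ℝ) (hx : 0 ≤ x) (hy : 0 ≤ y) (ht : 0 < t) :
    ∑ i ∈ Finset.range (M + 1), ((n.choose i * n.choose (M - i) : ℕ) : ℝ) *
      (x ^ (n - i) * y ^ (n - (M - i))) ≤ (x + t) ^ n * (y + t) ^ n / t ^ M := by
  rw [le_div_iff₀ (by positivity)]
  have h1 : ∀ z : ℝ, (z + t) ^ n = ∑ i ∈ Finset.range (n + 1), t ^ i * z ^ (n - i) * (n.choose i : ℝ) := by
    intro z
    rw [add_comm, add_pow]
  rw [h1 x, h1 y, Finset.sum_mul]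
  refine le_trans (le_of_eq ?_) (bup_conv n M hM (fun i => t ^ i * x ^ (n - i) * (n.choose i : ℝ))
    (fun i => t ^ i * y ^ (n - i) * (n.choose i : ℝ)) (fun i => by positivity)
    (fun i => by positivity))
  refine Finset.sum_congr rfl fun i hi => ?_
  rw [Finset.mem_range] at hi
  have e : t ^ M = t ^ i * t ^ (M - i) := by rw [← pow_add]; congr 1; omega
  rw [e]
  push_cast
  ring

theorem BK_le_sum (v w : ℝ) (hv : 0 < v) (hw : 0 < w) (hvw : v ^ 2 = w ^ 2 + 8)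
    (hw8 : 8 ≤ w ^ 2) (k : ℕ) :
    |(BK k : ℝ)| ≤ (v + 2) ^ (6 * k) * (v + 3) ^ (36 * k) * w ^ (-2 * ((13 * k : ℕ) : ℤ)) *
      ∑ i ∈ Finset.range (16 * k + 1), (((26 * k).choose i * (26 * k).choose (16 * k - i) : ℕ) : ℝ) *
        ((v + 2) ^ (26 * k - i) * (v + 3) ^ (26 * k - (16 * k - i))) := by
  have h1 : (NK k).map (Int.castRingHom ℚ) = ∑ i ∈ Finset.range (16 * k + 1),
      ((((26 * k).choose i * (26 * k).choose (16 * k - i) : ℕ) : ℚ)) •
        NQ (6 * k + (26 * k - i)) (36 * k + (26 * k - (16 * k - i))) 0 := by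
    unfold NK NV
    rw [hasseDeriv_PZ, Finset.mul_sum, Polynomial.map_sum]
    refine Finset.sum_congr rfl fun i _ => ?_
    rw [mul_left_comm, PZ_mul, Polynomial.map_mul, map_PZ_eq_NQ, Polynomial.map_C,
      smul_eq_C_mul]
    congr 2
  unfold BK
  rw [h1, map_sum]
  simp only [map_smul, smul_eq_mul]
  rw [Finset.mul_sum]
  push_cast
  refine (Finset.abs_sum_le_sum_abs _ _).trans (Finset.sum_le_sum fun i _ => ?_)
  rw [abs_mul, abs_of_nonneg (by positivity)]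
  have h2 := LB_bound v w hv hw hvw hw8 (6 * k + (26 * k - i)) (36 * k + (26 * k - (16 * k - i))) 0
    ((13 * k : ℕ) : ℤ)
  rw [pow_zero, mul_one, pow_add, pow_add] at h2
  push_cast at h2
  calc _ ≤ (((26 * k).choose i : ℝ) * ((26 * k).choose (16 * k - i) : ℝ)) * _ :=
        mul_le_mul_of_nonneg_left h2 (by positivity)
    _ = _ := by ring

theorem bup_num : ((6129 / 1460 + 2 : ℝ)) ^ 6 * (6129 / 1460 + 3) ^ 36 * (4529 / 1460) ^ (-26 : ℤ) *
    ((6129 / 1460 + 2 + 74 / 25) ^ 26 * (6129 / 1460 + 3 + 74 / 25) ^ 26 / (74 / 25) ^ 16) ≤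
    Real.exp (1530605 / 10000) := by
  have h1 : (1530605 / 10000 : ℝ) = (153 : ℕ) * 1 + 605 / 10000 := by norm_num
  rw [h1, Real.exp_add, Real.exp_nat_mul]
  have h2 : (27182818283 / 10000000000 : ℝ) ≤ Real.exp 1 := by
    have := Real.exp_one_gt_d9
    norm_num at this ⊢
    linarith
  have h3 : (1 + 605 / 10000 + (605 / 10000) ^ 2 / 2 : ℝ) ≤ Real.exp (605 / 10000) :=
    Real.quadratic_le_exp_of_nonneg (by norm_num)
  refine le_trans ?_ (mul_le_mul (pow_le_pow_left₀ (by norm_num) h2 153) h3 (by norm_num)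
    (by positivity))
  norm_num

theorem bup_pow (A B w E F t : ℝ) (k : ℕ) :
    A ^ (6 * k) * B ^ (36 * k) * w ^ k * (E ^ (26 * k) * F ^ (26 * k) / t ^ (16 * k)) =
      (A ^ 6 * B ^ 36 * w * (E ^ 26 * F ^ 26 / t ^ 16)) ^ k := by
  simp only [mul_pow, div_pow, ← pow_mul]

/-- `BK` is at most exponential with rate `153.0605`. -/
theorem BK_upper : ∃ c : ℝ, 0 < c ∧ ∀ k : ℕ,
    |(BK k : ℝ)| ≤ c * Real.exp (1530605 / 10000 * k) := by
  refine ⟨1, one_pos, fun k => ?_⟩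
  rw [one_mul]
  have h1 := BK_le_sum (6129 / 1460) (4529 / 1460) (by norm_num) (by norm_num) (by norm_num)
    (by norm_num) k
  have h2 := bup_sum (26 * k) (16 * k) (by omega) (6129 / 1460 + 2) (6129 / 1460 + 3) (74 / 25)
    (by norm_num) (by norm_num) (by norm_num)
  refine h1.trans ?_
  refine (mul_le_mul_of_nonneg_left h2 (by positivity)).trans ?_
  have e1 : (4529 / 1460 : ℝ) ^ (-2 * ((13 * k : ℕ) : ℤ)) = ((4529 / 1460 : ℝ) ^ (-26 : ℤ)) ^ k := by
    rw [← zpow_natCast, ← zpow_mul]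
    congr 1
    push_cast
    ring
  have e3 : Real.exp (1530605 / 10000 * k) = Real.exp (1530605 / 10000) ^ k := by
    rw [mul_comm, Real.exp_nat_mul]
  rw [e1, bup_pow, e3]
  exact pow_le_pow_left₀ (by positivity) bup_num k

end Vale.Agent.P021
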