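import Vale.Agent.Lib.P021.Deduction

/-!
# P021: deduction lemma without a nonvanishing hypothesis (Hata's lemma)
-/

namespace Vale.Agent.P021

open Filter Topology

/-- the basic inequality at an index where the form does not vanish. -/
theorem ded2_basic (x : ℝ) (A B : ℚ) (D : ℕ) (hD : 0 < D) (hA : ∃ z : ℤ, (D : ℚ) * A = z)
    (hB : ∃ z : ℤ, (D : ℚ) * B = z) (p q : ℤ) (hq : 0 < q) (hne : A + B * ((p : ℚ) / q) ≠ 0)
    (hs : (q : ℝ) * ((D : ℝ) * |(A : ℝ) + (B : ℝ) * x|) ≤ 1 / 2) :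
    1 / 2 ≤ (q : ℝ) * ((D : ℝ) * |(B : ℝ)|) * |x - (p : ℝ) / q| := by
  have hq0 : (0 : ℝ) < (q : ℝ) := by exact_mod_cast hq
  obtain ⟨zA, hzA⟩ := hA
  obtain ⟨zB, hzB⟩ := hB
  have hDpos : (0 : ℝ) < D := by exact_mod_cast hD
  have hqne : (q : ℚ) ≠ 0 := by exact_mod_cast hq.ne'
  have hDne : (D : ℚ) ≠ 0 := by exact_mod_cast hD.ne'
  have hint : (D : ℚ) * q * (A + B * ((p : ℚ) / q)) = ((zA * q + zB * p : ℤ) : ℚ) := by
    push_cast
    rw [← hzA, ← hzB]
    field_simp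
  have hintne : (zA * q + zB * p : ℤ) ≠ 0 := by
    intro h0
    rw [h0] at hint
    have : (D : ℚ) * q * (A + B * ((p : ℚ) / q)) ≠ 0 :=
      mul_ne_zero (mul_ne_zero hDne hqne) hne
    exact this (by rw [hint]; simp)
  have h1 : (1 : ℝ) ≤ |((zA * q + zB * p : ℤ) : ℝ)| := by
    have : (1 : ℤ) ≤ |zA * q + zB * p| := Int.one_le_abs hintne
    exact_mod_cast this
  have hintR : (D : ℝ) * q * ((A : ℝ) + (B : ℝ) * ((p : ℝ) / q)) =
      ((zA * q + zB * p : ℤ) : ℝ) := by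
    have := congrArg (fun t : ℚ => (t : ℝ)) hint
    push_cast at this ⊢
    exact this
  rw [← hintR] at h1
  have hsplit : (A : ℝ) + (B : ℝ) * ((p : ℝ) / q) =
      ((A : ℝ) + (B : ℝ) * x) - (B : ℝ) * (x - (p : ℝ) / q) := by ring
  rw [hsplit] at h1
  have h2 : |(D : ℝ) * q * (((A : ℝ) + (B : ℝ) * x) - (B : ℝ) * (x - (p : ℝ) / q))|
      ≤ q * ((D : ℝ) * |(A : ℝ) + (B : ℝ) * x|) +
        q * ((D : ℝ) * |(B : ℝ)|) * |x - (p : ℝ) / q| := by
    rw [abs_mul, abs_of_pos (mul_pos hDpos hq0)]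
    calc (D : ℝ) * q * |((A : ℝ) + (B : ℝ) * x) - (B : ℝ) * (x - (p : ℝ) / q)|
        ≤ (D : ℝ) * q * (|(A : ℝ) + (B : ℝ) * x| + |(B : ℝ) * (x - (p : ℝ) / q)|) := by
          apply mul_le_mul_of_nonneg_left (abs_sub _ _) (by positivity)
      _ = _ := by rw [abs_mul]; ring
  linarith

/-- Exponent bound from one sequence of forms `A n + B n x`.  If the form at `p/q` vanishes for
some indices, use the ratio hypothesis. -/
theorem exponent_le_of_forms2 (x a b : ℝ) (ha : 0 < a) (hb : 0 ≤ b) (hx : Irrational x)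
    (A B : ℕ → ℚ) (D : ℕ → ℕ) (hD : ∀ n, 0 < D n)
    (hA : ∀ n, ∃ z : ℤ, (D n : ℚ) * A n = z)
    (hB : ∀ n, ∃ z : ℤ, (D n : ℚ) * B n = z)
    (hB0 : ∀ᶠ n in atTop, B n ≠ 0)
    (hsmall : ∀ᶠ n in atTop, (D n : ℝ) * |(A n : ℝ) + (B n : ℝ) * x| ≤ Real.exp (-(a * n)))
    (hbig : ∀ᶠ n in atTop, (D n : ℝ) * |(B n : ℝ)| ≤ Real.exp (b * n))
    (hratio : ∀ᶠ n in atTop, (D (n + 1) : ℝ) * |(B (n + 1) : ℝ)| * |(A n : ℝ) + (B n : ℝ) * x|
      ≤ Real.exp (-(a * n)) * |(B n : ℝ)|) :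
    irrationalityExponent x ≤ ((1 + b / a : ℝ) : EReal) := by
  obtain ⟨n0, hn0⟩ := eventually_atTop.1 (hB0.and (hsmall.and (hbig.and hratio)))
  suffices hmain : ∃ c : ℝ, 0 < c ∧ ∃ N : ℤ, ∀ p q : ℤ, 2 ≤ q → N ≤ q →
      c * (q : ℝ) ^ (-(1 + b / a)) ≤ |x - (p : ℝ) / (q : ℝ)| by
    obtain ⟨c, hc, N, hN⟩ := hmain
    exact irrationalityExponent_le_of_forall x _ fun ν hν =>
      exponent_le_of_lower_bound x _ c hc N hN ν hν
  obtain ⟨N, hN⟩ : ∃ N : ℤ, ∀ q : ℤ, N ≤ q → 2 ≤ q → (n0 : ℝ) ≤ Real.log (2 * q) / a := by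
    have h1 : Tendsto (fun t : ℝ => Real.log (2 * t) / a) atTop atTop :=
      (Real.tendsto_log_atTop.comp (tendsto_id.const_mul_atTop (by norm_num : (0:ℝ) < 2))).atTop_div_const ha
    obtain ⟨T, hT⟩ := eventually_atTop.1 (h1.eventually_ge_atTop (n0 : ℝ))
    refine ⟨⌈T⌉, fun q hq _ => hT q ?_⟩
    exact (Int.le_ceil T).trans (by exact_mod_cast hq)
  refine ⟨(2 * Real.exp b * (2 : ℝ) ^ (b / a))⁻¹, by positivity, N, ?_⟩
  intro p q hq2 hNq
  have hq0 : (0 : ℝ) < (q : ℝ) := by exact_mod_cast (by omega : 0 < q)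
  have h2q : (1 : ℝ) ≤ 2 * q := by
    have : (2 : ℝ) ≤ q := by exact_mod_cast hq2
    linarith
  have h2q0 : (0 : ℝ) < 2 * q := by linarith
  have hlog0 : 0 ≤ Real.log (2 * q) / a := div_nonneg (Real.log_nonneg h2q) ha.le
  have hnn0 : (n0 : ℝ) ≤ Real.log (2 * q) / a := hN q hNq hq2
  -- smallness
  have hsm : ∀ m : ℕ, Real.log (2 * q) / a ≤ m →
      (q : ℝ) * ((D m : ℝ) * |(A m : ℝ) + (B m : ℝ) * x|) ≤ 1 / 2 := by
    intro m hm
    have hm0 : n0 ≤ m := by exact_mod_cast hnn0.trans hm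
    have hs := (hn0 m hm0).2.1
    have e1 : Real.exp (-(a * m)) ≤ (2 * (q : ℝ))⁻¹ := by
      have : Real.log (2 * q) ≤ a * m := by
        rw [div_le_iff₀ ha] at hm; linarith
      calc Real.exp (-(a * m)) ≤ Real.exp (-(Real.log (2 * q))) := Real.exp_le_exp.2 (by linarith)
        _ = (2 * (q : ℝ))⁻¹ := by rw [Real.exp_neg, Real.exp_log (by linarith)]
    calc q * ((D m : ℝ) * |(A m : ℝ) + (B m : ℝ) * x|) ≤ q * (2 * (q : ℝ))⁻¹ :=
          mul_le_mul_of_nonneg_left (hs.trans e1) hq0.le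
      _ = 1 / 2 := by field_simp
  -- the right index
  obtain ⟨m, hm1, hm2, hne⟩ : ∃ m : ℕ, Real.log (2 * q) / a ≤ m ∧
      (m : ℝ) ≤ Real.log (2 * q) / a + 1 ∧ A m + B m * ((p : ℚ) / q) ≠ 0 := by
    set n : ℕ := ⌈Real.log (2 * q) / a⌉₊ with hn
    have hn_ge : Real.log (2 * q) / a ≤ n := Nat.le_ceil _
    have hn_lt : (n : ℝ) < Real.log (2 * q) / a + 1 := Nat.ceil_lt_add_one hlog0
    have hex : ∃ m, n ≤ m ∧ A m + B m * ((p : ℚ) / q) ≠ 0 := by
      by_contra hcon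
      push Not at hcon
      have hle : ∀ m : ℕ, n ≤ m → |x - (p : ℝ) / q| ≤ Real.exp (-(a * m)) := by
        intro m hm
        have hmr : Real.log (2 * q) / a ≤ m := hn_ge.trans (by exact_mod_cast hm)
        have hm0 : n0 ≤ m := by exact_mod_cast hnn0.trans hmr
        have hz := hcon m hm
        have hzR : (A m : ℝ) + (B m : ℝ) * ((p : ℝ) / q) = 0 := by
          have := congrArg (fun t : ℚ => (t : ℝ)) hz
          push_cast at this
          exact this
        have e1 : (A m : ℝ) + (B m : ℝ) * x = (B m : ℝ) * (x - (p : ℝ) / q) := by linarith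
        have hs := (hn0 m hm0).2.1
        rw [e1, abs_mul, ← mul_assoc] at hs
        obtain ⟨z, hz'⟩ := hB m
        have hzne : z ≠ 0 := by
          rintro rfl
          have : (D m : ℚ) * B m ≠ 0 :=
            mul_ne_zero (by exact_mod_cast (hD m).ne') (hn0 m hm0).1
          exact this (by rw [hz']; simp)
        have h1 : (1 : ℝ) ≤ (D m : ℝ) * |(B m : ℝ)| := by
          have h2 : (D m : ℝ) * |(B m : ℝ)| = |((z : ℤ) : ℝ)| := by
            have h3 : (D m : ℝ) * (B m : ℝ) = (z : ℝ) := by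
              have := congrArg (fun t : ℚ => (t : ℝ)) hz'
              push_cast at this
              exact this
            rw [← h3, abs_mul, abs_of_nonneg (Nat.cast_nonneg (D m) : (0 : ℝ) ≤ (D m : ℝ))]
          rw [h2]
          have : (1 : ℤ) ≤ |z| := Int.one_le_abs hzne
          exact_mod_cast this
        calc |x - (p : ℝ) / q| = 1 * |x - (p : ℝ) / q| := (one_mul _).symm
          _ ≤ (D m : ℝ) * |(B m : ℝ)| * |x - (p : ℝ) / q| :=
              mul_le_mul_of_nonneg_right h1 (abs_nonneg _)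
          _ ≤ _ := hs
      have hlim : Tendsto (fun m : ℕ => Real.exp (-(a * m))) atTop (𝓝 0) := by
        have h1 : Tendsto (fun m : ℕ => a * (m : ℝ)) atTop atTop :=
          tendsto_natCast_atTop_atTop.const_mul_atTop ha
        exact Real.tendsto_exp_neg_atTop_nhds_zero.comp h1
      have h0 : |x - (p : ℝ) / q| ≤ 0 :=
        ge_of_tendsto hlim (by filter_upwards [eventually_ge_atTop n] with m hm using hle m hm)
      have h1 : x = (p : ℝ) / q := by
        have := abs_nonpos_iff.1 h0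
        linarith
      apply hx
      refine ⟨(p : ℚ) / q, ?_⟩
      rw [h1]
      push_cast
      rfl
    classical
    obtain ⟨hm, hmne⟩ := Nat.find_spec hex
    set m := Nat.find hex with hmdef
    have hmr : Real.log (2 * q) / a ≤ m := hn_ge.trans (by exact_mod_cast hm)
    rcases hm.eq_or_lt with h | h
    · refine ⟨m, hmr, ?_, hmne⟩
      rw [← h]; exact hn_lt.le
    · obtain ⟨j, hj⟩ : ∃ j, m = j + 1 := ⟨m - 1, by omega⟩
      have hjn : n ≤ j := by omega
      have hzero : A j + B j * ((p : ℚ) / q) = 0 := by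
        by_contra hne2
        have := Nat.find_min hex (m := j) (by omega)
        exact this ⟨hjn, hne2⟩
      have hjr : Real.log (2 * q) / a ≤ j := hn_ge.trans (by exact_mod_cast hjn)
      have hj0 : n0 ≤ j := by exact_mod_cast hnn0.trans hjr
      have hzR : (A j : ℝ) + (B j : ℝ) * ((p : ℝ) / q) = 0 := by
        have := congrArg (fun t : ℚ => (t : ℝ)) hzero
        push_cast at this
        exact this
      have e1 : |(A j : ℝ) + (B j : ℝ) * x| = |(B j : ℝ)| * |x - (p : ℝ) / q| := by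
        rw [← abs_mul]; congr 1; linarith
      have hBj : 0 < |(B j : ℝ)| := abs_pos.2 (by exact_mod_cast (hn0 j hj0).1)
      have hb1 := ded2_basic x (A m) (B m) (D m) (hD m) (hA m) (hB m) p q (by omega) hmne
        (hsm m hmr)
      have hr := (hn0 j hj0).2.2.2
      rw [← hj, e1] at hr
      have h3 : (D m : ℝ) * |(B m : ℝ)| * |x - (p : ℝ) / q| ≤ Real.exp (-(a * j)) := by
        have : ((D m : ℝ) * |(B m : ℝ)| * |x - (p : ℝ) / q|) * |(B j : ℝ)| ≤
            Real.exp (-(a * j)) * |(B j : ℝ)| := by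
          refine le_trans (le_of_eq ?_) hr
          ring
        exact le_of_mul_le_mul_right this hBj
      have h4 : 1 / 2 ≤ (q : ℝ) * Real.exp (-(a * j)) := by
        calc (1 : ℝ) / 2 ≤ q * ((D m : ℝ) * |(B m : ℝ)|) * |x - (p : ℝ) / q| := hb1
          _ = q * ((D m : ℝ) * |(B m : ℝ)| * |x - (p : ℝ) / q|) := by ring
          _ ≤ _ := mul_le_mul_of_nonneg_left h3 hq0.le
      have h5 : Real.exp (a * j) ≤ 2 * q := by
        rw [Real.exp_neg] at h4
        have h6 : 0 < Real.exp (a * j) := Real.exp_pos _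
        have h7 : (q : ℝ) * (Real.exp (a * j))⁻¹ = q / Real.exp (a * j) := rfl
        rw [h7, div_le_div_iff₀ (by norm_num) h6] at h4
        linarith
      have h6 : a * j ≤ Real.log (2 * q) := by
        rw [← Real.log_exp (a * j)]
        exact Real.log_le_log (Real.exp_pos _) h5
      refine ⟨m, hmr, ?_, hmne⟩
      rw [hj]
      push_cast
      have : (j : ℝ) ≤ Real.log (2 * q) / a := by
        rw [le_div_iff₀ ha]; linarith
      linarith
  have hm0 : n0 ≤ m := by exact_mod_cast hnn0.trans hm1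
  have h4 := ded2_basic x (A m) (B m) (D m) (hD m) (hA m) (hB m) p q (by omega) hne (hsm m hm1)
  have hb' := (hn0 m hm0).2.2.1
  have h5 : Real.exp (b * m) ≤ Real.exp b * (2 * (q : ℝ)) ^ (b / a) := by
    rw [Real.rpow_def_of_pos (by linarith), ← Real.exp_add]
    apply Real.exp_le_exp.2
    calc b * m ≤ b * (Real.log (2 * q) / a + 1) := mul_le_mul_of_nonneg_left hm2 hb
      _ = b + Real.log (2 * q) * (b / a) := by ring
  have h6 : 1 / 2 ≤ q * (Real.exp b * (2 * (q : ℝ)) ^ (b / a)) * |x - (p : ℝ) / q| := by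
    refine h4.trans ?_
    apply mul_le_mul_of_nonneg_right _ (abs_nonneg _)
    apply mul_le_mul_of_nonneg_left (hb'.trans h5) hq0.le
  have h7 : (2 * (q : ℝ)) ^ (b / a) = (2 : ℝ) ^ (b / a) * (q : ℝ) ^ (b / a) :=
    Real.mul_rpow (by norm_num) hq0.le
  have h8 : (q : ℝ) ^ (-(1 + b / a)) = ((q : ℝ) * (q : ℝ) ^ (b / a))⁻¹ := by
    rw [Real.rpow_neg hq0.le, Real.rpow_add hq0, Real.rpow_one]
  rw [h8, ← mul_inv, inv_le_iff_one_le_mul₀ (by positivity)]
  rw [h7] at h6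
  linarith

end Vale.Agent.P021
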