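import Vale.Agent.Lib.P021V.Paths

/-!
# P021: crude bounds on the eight products of segments
-/

namespace Vale.Agent.P021

theorem crude_coords {a b x : ℂ} (h : x ∈ segment ℝ a b) :
    ∃ t : ℝ, 0 ≤ t ∧ t ≤ 1 ∧ x.re = a.re + t * (b.re - a.re) ∧ x.im = a.im + t * (b.im - a.im) := by
  rw [segment_eq_image'] at h
  obtain ⟨t, ⟨h0, h1⟩, rfl⟩ := h
  exact ⟨t, h0, h1, by simp, by simp⟩

theorem crude_lin (z : ℂ) (a b : ℝ) : a * z.re + b * z.im ≤ (|a| + |b|) * ‖z‖ := by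
  have h1 : a * z.re ≤ |a| * ‖z‖ :=
    calc a * z.re ≤ |a * z.re| := le_abs_self _
      _ = |a| * |z.re| := abs_mul _ _
      _ ≤ |a| * ‖z‖ := by gcongr; exact Complex.abs_re_le_norm z
  have h2 : b * z.im ≤ |b| * ‖z‖ :=
    calc b * z.im ≤ |b * z.im| := le_abs_self _
      _ = |b| * |z.im| := abs_mul _ _
      _ ≤ |b| * ‖z‖ := by gcongr; exact Complex.abs_im_le_norm z
  linarith

theorem crude_norm_le (z : ℂ) {p q : ℝ} (hp : |z.re| ≤ p) (hq : |z.im| ≤ q) : ‖z‖ ≤ p + q :=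
  (Complex.norm_le_abs_re_add_abs_im z).trans (add_le_add hp hq)

theorem crude_seg_ball {a b x c : ℂ} {r : ℝ} (h : x ∈ segment ℝ a b) (ha : ‖a - c‖ ≤ r)
    (hb : ‖b - c‖ ≤ r) : ‖x - c‖ ≤ r := by
  have h1 : segment ℝ a b ⊆ Metric.closedBall c r :=
    (convex_closedBall c r).segment_subset (by rwa [mem_closedBall_iff_norm])
      (by rwa [mem_closedBall_iff_norm])
  have h2 := h1 h
  rwa [mem_closedBall_iff_norm] at h2

theorem crude_vert (c : ℝ) (hc : c = 2 ∨ c = 3) :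
    ‖(2 : ℂ) - (c : ℂ)‖ ≤ 2 ∧ ‖(3 : ℂ) - (c : ℂ)‖ ≤ 2 ∧ ‖pS - (c : ℂ)‖ ≤ 2 ∧
    ‖pA - (c : ℂ)‖ ≤ 2 ∧ ‖pB - (c : ℂ)‖ ≤ 2 ∧ ‖pC - (c : ℂ)‖ ≤ 2 := by
  have key : ∀ z : ℂ, |z.re - c| ≤ 1 → |z.im| ≤ 1 → ‖z - (c : ℂ)‖ ≤ 2 := by
    intro z h1 h2
    have := crude_norm_le (z - (c : ℂ)) (p := 1) (q := 1) (by simpa using h1) (by simpa using h2)
    linarith
  have e2 : (2 : ℂ).re = 2 := by norm_num
  have e3 : (3 : ℂ).re = 3 := by norm_num
  have f2 : (2 : ℂ).im = 0 := by norm_num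
  have f3 : (3 : ℂ).im = 0 := by norm_num
  rcases hc with rfl | rfl
  · refine ⟨key _ ?_ ?_, key _ ?_ ?_, key _ ?_ ?_, key _ ?_ ?_, key _ ?_ ?_, key _ ?_ ?_⟩ <;>
      simp only [e2, e3, f2, f3, pS, pA, pB, pC] <;> rw [abs_le] <;> norm_num
  · refine ⟨key _ ?_ ?_, key _ ?_ ?_, key _ ?_ ?_, key _ ?_ ?_, key _ ?_ ?_, key _ ?_ ?_⟩ <;>
      simp only [e2, e3, f2, f3, pS, pA, pB, pC] <;> rw [abs_le] <;> norm_num

theorem crude_sizes (x v : ℂ) (h : OnPaths x v) :
    ‖x - 2‖ ≤ 2 ∧ ‖x - 3‖ ≤ 2 ∧ ‖v - 2‖ ≤ 2 ∧ ‖v - 3‖ ≤ 2 := by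
  have h2 := crude_vert 2 (Or.inl rfl)
  have h3 := crude_vert 3 (Or.inr rfl)
  simp only [Complex.ofReal_ofNat] at h2 h3
  obtain ⟨a1, a2, a3, a4, a5, a6⟩ := h2
  obtain ⟨b1, b2, b3, b4, b5, b6⟩ := h3
  rcases h with ⟨hx, hv⟩ | ⟨hx, hv⟩
  · have hxs : ‖x - 2‖ ≤ 2 ∧ ‖x - 3‖ ≤ 2 := by
      rcases hx with hx | hx
      · exact ⟨crude_seg_ball hx a1 a3, crude_seg_ball hx b1 b3⟩
      · exact ⟨crude_seg_ball hx a3 a2, crude_seg_ball hx b3 b2⟩
    refine ⟨hxs.1, hxs.2, ?_⟩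
    rcases hv with hv | hv | hv
    · exact ⟨crude_seg_ball hv a2 a4, crude_seg_ball hv b2 b4⟩
    · exact ⟨crude_seg_ball hv a4 a5, crude_seg_ball hv b4 b5⟩
    · exact ⟨crude_seg_ball hv a5 a1, crude_seg_ball hv b5 b1⟩
  · refine ⟨crude_seg_ball hx a1 a2, crude_seg_ball hx b1 b2, ?_⟩
    rcases hv with hv | hv
    · exact ⟨crude_seg_ball hv a2 a6, crude_seg_ball hv b2 b6⟩
    · exact ⟨crude_seg_ball hv a6 a1, crude_seg_ball hv b6 b1⟩

theorem crude_sep (x v : ℂ) (h : OnPaths x v) : ‖x - 2‖ * ‖x - 3‖ ≤ 100 * ‖x - v‖ := by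
  obtain ⟨n2, n3, -, -⟩ := crude_sizes x v h
  have p2 := norm_nonneg (x - 2)
  have p3 := norm_nonneg (x - 3)
  have pv := norm_nonneg (x - v)
  have e2 : (2 : ℂ).re = 2 := by norm_num
  have e3 : (3 : ℂ).re = 3 := by norm_num
  have f2 : (2 : ℂ).im = 0 := by norm_num
  have f3 : (3 : ℂ).im = 0 := by norm_num
  have hprod : ‖x - 2‖ * ‖x - 3‖ ≤ 4 := by nlinarith
  have g2 : ‖x - 2‖ * ‖x - 3‖ ≤ 2 * ‖x - 2‖ := by nlinarith
  have g3 : ‖x - 2‖ * ‖x - 3‖ ≤ 2 * ‖x - 3‖ := by nlinarith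
  have hre : (x - v).re = x.re - v.re := Complex.sub_re _ _
  have him : (x - v).im = x.im - v.im := Complex.sub_im _ _
  have r2 : (x - 2).re = x.re - 2 := by simp
  have i2 : (x - 2).im = x.im := by simp
  have r3 : (x - 3).re = x.re - 3 := by simp
  have i3 : (x - 3).im = x.im := by simp
  rcases h with ⟨hx | hx, hv⟩ | ⟨hx, hv⟩
  · obtain ⟨s, s0, s1, xr, xi⟩ := crude_coords hx
    simp only [pS, e2, f2] at xr xi
    have l1 := crude_lin (x - v) (-3) (-7)
    have l2 := crude_lin (x - v) 9 (-4)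
    rw [hre, him, xr, xi] at l1 l2
    rw [abs_of_nonpos (by norm_num : (-3 : ℝ) ≤ 0), abs_of_nonpos (by norm_num : (-7 : ℝ) ≤ 0)]
      at l1
    rw [abs_of_nonneg (by norm_num : (0 : ℝ) ≤ 9), abs_of_nonpos (by norm_num : (-4 : ℝ) ≤ 0)]
      at l2
    rcases hv with hv | hv | hv
    · obtain ⟨t, t0, t1, vr, vi⟩ := crude_coords hv
      simp only [pA, e3, f3] at vr vi
      rw [vr, vi] at l1
      linarith
    · obtain ⟨t, t0, t1, vr, vi⟩ := crude_coords hv
      simp only [pA, pB] at vr vi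
      rw [vr, vi] at l1
      linarith
    · obtain ⟨t, t0, t1, vr, vi⟩ := crude_coords hv
      simp only [pB, e2, f2] at vr vi
      rw [vr, vi] at l2
      have hn : ‖x - 2‖ ≤ 7 / 8 * s + 3 / 8 * s := by
        refine crude_norm_le _ ?_ ?_
        · rw [r2, xr, abs_le]
          constructor <;> linarith
        · rw [i2, xi, abs_le]
          constructor <;> linarith
      linarith
  · obtain ⟨s, s0, s1, xr, xi⟩ := crude_coords hx
    simp only [pS, e3, f3] at xr xi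
    have l1 := crude_lin (x - v) 3 (-1)
    have l2 := crude_lin (x - v) 1 (-2)
    rw [hre, him, xr, xi] at l1 l2
    rw [abs_of_nonneg (by norm_num : (0 : ℝ) ≤ 3), abs_of_nonpos (by norm_num : (-1 : ℝ) ≤ 0)]
      at l1
    rw [abs_of_nonneg (by norm_num : (0 : ℝ) ≤ 1), abs_of_nonpos (by norm_num : (-2 : ℝ) ≤ 0)]
      at l2
    rcases hv with hv | hv | hv
    · obtain ⟨t, t0, t1, vr, vi⟩ := crude_coords hv
      simp only [pA, e3, f3] at vr vi
      rw [vr, vi] at l2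
      have hn : ‖x - 3‖ ≤ 1 / 8 * (1 - s) + 3 / 8 * (1 - s) := by
        refine crude_norm_le _ ?_ ?_
        · rw [r3, xr, abs_le]
          constructor <;> linarith
        · rw [i3, xi, abs_le]
          constructor <;> linarith
      linarith
    · obtain ⟨t, t0, t1, vr, vi⟩ := crude_coords hv
      simp only [pA, pB] at vr vi
      rw [vr, vi] at l1
      linarith
    · obtain ⟨t, t0, t1, vr, vi⟩ := crude_coords hv
      simp only [pB, e2, f2] at vr vi
      rw [vr, vi] at l1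
      linarith
  · obtain ⟨s, s0, s1, xr, xi⟩ := crude_coords hx
    simp only [e2, f2, e3, f3] at xr xi
    rcases hv with hv | hv
    · obtain ⟨t, t0, t1, vr, vi⟩ := crude_coords hv
      simp only [pC, e3, f3] at vr vi
      have l1 := crude_lin (x - v) (-13) 15
      rw [hre, him, xr, xi, vr, vi, abs_of_nonpos (by norm_num : (-13 : ℝ) ≤ 0),
        abs_of_nonneg (by norm_num : (0 : ℝ) ≤ 15)] at l1
      have hn : ‖x - 3‖ ≤ (1 - s) + 0 := by
        refine crude_norm_le _ ?_ ?_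
        · rw [r3, xr, abs_le]
          constructor <;> linarith
        · rw [i3, xi, abs_le]
          constructor <;> linarith
      linarith
    · obtain ⟨t, t0, t1, vr, vi⟩ := crude_coords hv
      simp only [pC, e2, f2] at vr vi
      have l1 := crude_lin (x - v) 13 1
      rw [hre, him, xr, xi, vr, vi, abs_of_nonneg (by norm_num : (0 : ℝ) ≤ 13),
        abs_of_nonneg (by norm_num : (0 : ℝ) ≤ 1)] at l1
      have hn : ‖x - 2‖ ≤ s + 0 := by
        refine crude_norm_le _ ?_ ?_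
        · rw [r2, xr, abs_le]
          constructor <;> linarith
        · rw [i2, xi, abs_le]
          constructor <;> linarith
      linarith

theorem crude_eight_of (v : ℂ) (a b : ℝ) (ha : v.re = a) (hb : v.im = b)
    (h : 1 / 4 ≤ |a ^ 2 - b ^ 2 - 8| ∨ 1 / 4 ≤ |2 * a * b|) : 1 / 4 ≤ ‖v ^ 2 - 8‖ := by
  have hre : (v ^ 2 - 8).re = a ^ 2 - b ^ 2 - 8 := by
    rw [← ha, ← hb]
    simp [pow_two, Complex.mul_re]
  have him : (v ^ 2 - 8).im = 2 * a * b := by
    rw [← ha, ← hb]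
    simp [pow_two, Complex.mul_im]
    ring
  rcases h with h | h
  · rw [← hre] at h
    exact h.trans (Complex.abs_re_le_norm _)
  · rw [← him] at h
    exact h.trans (Complex.abs_im_le_norm _)

theorem crude_eight (x v : ℂ) (h : OnPaths x v) : 1 / 4 ≤ ‖v ^ 2 - 8‖ := by
  have e2 : (2 : ℂ).re = 2 := by norm_num
  have e3 : (3 : ℂ).re = 3 := by norm_num
  have f2 : (2 : ℂ).im = 0 := by norm_num
  have f3 : (3 : ℂ).im = 0 := by norm_num
  have hv : v ∈ segment ℝ 3 pA ∨ v ∈ segment ℝ pA pB ∨ v ∈ segment ℝ pB 2 ∨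
      v ∈ segment ℝ 3 pC ∨ v ∈ segment ℝ pC 2 := by
    rcases h with ⟨-, h⟩ | ⟨-, h⟩
    · tauto
    · tauto
  rcases hv with hv | hv | hv | hv | hv
  · obtain ⟨t, t0, t1, vr, vi⟩ := crude_coords hv
    simp only [pA, e3, f3] at vr vi
    refine crude_eight_of v _ _ vr vi ?_
    by_cases ht : t ≤ 12 / 25
    · left
      rw [le_abs]
      left
      nlinarith
    · right
      push Not at ht
      rw [le_abs]
      right
      nlinarith
  · obtain ⟨t, t0, t1, vr, vi⟩ := crude_coords hv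
    simp only [pA, pB] at vr vi
    refine crude_eight_of v _ _ vr vi ?_
    by_cases h1 : t ≤ 1 / 18
    · right
      rw [le_abs]
      right
      nlinarith
    · push Not at h1
      by_cases h2 : t ≤ 5 / 21
      · left
        rw [le_abs]
        right
        nlinarith
      · right
        push Not at h2
        rw [le_abs]
        left
        nlinarith
  · obtain ⟨t, t0, t1, vr, vi⟩ := crude_coords hv
    simp only [pB, e2, f2] at vr vi
    refine crude_eight_of v _ _ vr vi ?_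
    left
    rw [le_abs]
    right
    nlinarith
  · obtain ⟨t, t0, t1, vr, vi⟩ := crude_coords hv
    simp only [pC, e3, f3] at vr vi
    refine crude_eight_of v _ _ vr vi ?_
    by_cases ht : t ≤ 8 / 75
    · left
      rw [le_abs]
      left
      nlinarith
    · right
      push Not at ht
      rw [le_abs]
      right
      nlinarith
  · obtain ⟨t, t0, t1, vr, vi⟩ := crude_coords hv
    simp only [pC, e2, f2] at vr vi
    refine crude_eight_of v _ _ vr vi ?_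
    left
    rw [le_abs]
    right
    nlinarith

end Vale.Agent.P021
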