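import Vale.Agent.Lib.P021V.CertSound
import Vale.Agent.Lib.P021V.Crude

/-!
# P021: the certified supremum
-/

namespace Vale.Agent.P021

open CertV

/-- `exp (100.35) ≤ 10^47 / 2621` -/
theorem certMain_exp_le : Real.exp (10035 / 100) ≤ 10 ^ 47 / 2621 := by
  have h1 : Real.exp (10035 / 100) = Real.exp 1 ^ 100 * Real.exp (35 / 100) := by
    rw [← Real.exp_nat_mul, ← Real.exp_add]
    congr 1
    norm_num
  have h2 : Real.exp 1 ≤ 27182818286 / 10000000000 := by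
    have := Real.exp_one_lt_d9
    norm_num at this ⊢
    linarith
  have h3 : Real.exp (35 / 100) ≤ 14190676 / 10000000 := by
    have h := Real.exp_bound' (x := 35 / 100) (by norm_num) (by norm_num) (n := 8) (by norm_num)
    refine h.trans ?_
    norm_num [Finset.sum_range_succ, Nat.factorial]
  rw [h1]
  calc Real.exp 1 ^ 100 * Real.exp (35 / 100)
      ≤ (27182818286 / 10000000000) ^ 100 * (14190676 / 10000000) := by
        apply mul_le_mul (pow_le_pow_left₀ (Real.exp_pos _).le h2 100) h3 (Real.exp_pos _).le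
        positivity
    _ ≤ 10 ^ 47 / 2621 := by norm_num

theorem certMain_rho : ((CertV.rho : ℚ) : ℝ) ≤ Real.exp (-(50175 / 1000)) ^ 2 := by
  have h1 : Real.exp (-(50175 / 1000)) ^ 2 = (Real.exp (10035 / 100))⁻¹ := by
    rw [← Real.exp_neg, ← Real.exp_nat_mul]
    congr 1
    norm_num
  have h2 : ((CertV.rho : ℚ) : ℝ) = (10 ^ 47 / 2621 : ℝ)⁻¹ := by
    norm_num [CertV.rho]
  rw [h1, h2]
  exact inv_anti₀ (Real.exp_pos _) certMain_exp_le

/-- the corner estimate -/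
theorem certMain_corner {A W X Y k0 a0 w0 y0 r : ℝ} (hA : 0 ≤ A) (hW : 0 ≤ W)
    (hy : 0 ≤ y0) (hr : 0 ≤ r) (hAX : A ≤ k0 * X) (hAa : A ≤ a0)
    (hWw : W ≤ w0) (hyY : y0 ≤ Y) (hnum : k0 ^ 16 * a0 ^ 10 * w0 ≤ r * y0 ^ 13) :
    A ^ 26 * W ≤ r * (Y ^ 13 * X ^ 16) := by
  have h1 : A ^ 16 ≤ (k0 * X) ^ 16 := pow_le_pow_left₀ hA hAX 16
  have h2 : A ^ 10 ≤ a0 ^ 10 := pow_le_pow_left₀ hA hAa 10
  have h3 : y0 ^ 13 ≤ Y ^ 13 := pow_le_pow_left₀ hy hyY 13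
  calc A ^ 26 * W = A ^ 16 * (A ^ 10 * W) := by ring
    _ ≤ (k0 * X) ^ 16 * (a0 ^ 10 * w0) :=
        mul_le_mul h1 (mul_le_mul h2 hWw hW (by positivity)) (by positivity) (by positivity)
    _ = (k0 ^ 16 * a0 ^ 10 * w0) * X ^ 16 := by ring
    _ ≤ (r * y0 ^ 13) * X ^ 16 := mul_le_mul_of_nonneg_right hnum (by positivity)
    _ ≤ (r * Y ^ 13) * X ^ 16 :=
        mul_le_mul_of_nonneg_right (mul_le_mul_of_nonneg_left h3 hr) (by positivity)
    _ = r * (Y ^ 13 * X ^ 16) := by ring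

/-- product of three factors, the first and the third at most one -/
theorem certMain_prod2 {B C D c0 : ℝ} (hB : 0 ≤ B) (hC : 0 ≤ C) (hD : 0 ≤ D) (hB1 : B ≤ 1)
    (hCc : C ≤ c0) (hD1 : D ≤ 1) : B ^ 26 * (C ^ 6 * D ^ 36) ≤ c0 ^ 6 := by
  have h1 : B ^ 26 ≤ 1 := pow_le_one₀ hB hB1
  have h2 : C ^ 6 ≤ c0 ^ 6 := pow_le_pow_left₀ hC hCc 6
  have h3 : D ^ 36 ≤ 1 := pow_le_one₀ hD hD1
  have hc0 : 0 ≤ c0 := hC.trans hCc
  calc B ^ 26 * (C ^ 6 * D ^ 36) ≤ 1 * (c0 ^ 6 * 1) :=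
        mul_le_mul h1 (mul_le_mul h2 h3 (by positivity) (by positivity)) (by positivity) zero_le_one
    _ = c0 ^ 6 := by ring

theorem certMain_prod3 {B C D d0 : ℝ} (hB : 0 ≤ B) (hC : 0 ≤ C) (hD : 0 ≤ D) (hB1 : B ≤ 1)
    (hC1 : C ≤ 1) (hDd : D ≤ d0) : B ^ 26 * (C ^ 6 * D ^ 36) ≤ d0 ^ 36 := by
  have h1 : B ^ 26 ≤ 1 := pow_le_one₀ hB hB1
  have h2 : C ^ 6 ≤ 1 := pow_le_one₀ hC hC1
  have h3 : D ^ 36 ≤ d0 ^ 36 := pow_le_pow_left₀ hD hDd 36
  have hd0 : 0 ≤ d0 := hD.trans hDd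
  calc B ^ 26 * (C ^ 6 * D ^ 36) ≤ 1 * (1 * d0 ^ 36) :=
        mul_le_mul h1 (mul_le_mul h2 h3 (by positivity) zero_le_one) (by positivity) zero_le_one
    _ = d0 ^ 36 := by ring

/-- from the rectangle to the complex numbers -/
theorem certMain_of_rect (R : Rc) (s t : ℝ) (x v : ℂ) (hx1 : x.re = R.px + s * R.dx)
    (hx2 : x.im = R.py + s * R.dy) (hv1 : v.re = R.qx + t * R.ex) (hv2 : v.im = R.qy + t * R.ey)
    (h : NN R s t ≤ ((CertV.rho : ℚ) : ℝ) * DD R s t) :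
    ‖x - 2‖ ^ 26 * ‖x - 3‖ ^ 26 * ‖v - 2‖ ^ 6 * ‖v - 3‖ ^ 36 ≤
      Real.exp (-(50175 / 1000)) * (‖v ^ 2 - 8‖ ^ 13 * ‖x - v‖ ^ 16) := by
  have e1 : ‖x - 2‖ ^ 2 = (R.px + s * R.dx - 2) ^ 2 + (R.py + s * R.dy) ^ 2 := by
    rw [Complex.sq_norm, Complex.normSq_apply, Complex.sub_re, Complex.sub_im, hx1, hx2]
    norm_num
    ring
  have e2 : ‖x - 3‖ ^ 2 = (R.px + s * R.dx - 3) ^ 2 + (R.py + s * R.dy) ^ 2 := by
    rw [Complex.sq_norm, Complex.normSq_apply, Complex.sub_re, Complex.sub_im, hx1, hx2]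
    norm_num
    ring
  have e3 : ‖v - 2‖ ^ 2 = (R.qx + t * R.ex - 2) ^ 2 + (R.qy + t * R.ey) ^ 2 := by
    rw [Complex.sq_norm, Complex.normSq_apply, Complex.sub_re, Complex.sub_im, hv1, hv2]
    norm_num
    ring
  have e4 : ‖v - 3‖ ^ 2 = (R.qx + t * R.ex - 3) ^ 2 + (R.qy + t * R.ey) ^ 2 := by
    rw [Complex.sq_norm, Complex.normSq_apply, Complex.sub_re, Complex.sub_im, hv1, hv2]
    norm_num
    ring
  have e5 : ‖v ^ 2 - 8‖ ^ 2 = ((R.qx + t * R.ex) ^ 2 - (R.qy + t * R.ey) ^ 2 - 8) ^ 2 +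
      (2 * (R.qx + t * R.ex) * (R.qy + t * R.ey)) ^ 2 := by
    rw [Complex.sq_norm, Complex.normSq_apply, Complex.sub_re, Complex.sub_im, pow_two v,
      Complex.mul_re, Complex.mul_im, hv1, hv2]
    norm_num
    ring
  have e6 : ‖x - v‖ ^ 2 = ((R.px + s * R.dx) - (R.qx + t * R.ex)) ^ 2 +
      ((R.py + s * R.dy) - (R.qy + t * R.ey)) ^ 2 := by
    rw [Complex.sq_norm, Complex.normSq_apply, Complex.sub_re, Complex.sub_im, hx1, hx2, hv1, hv2]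
    ring
  have hN : (‖x - 2‖ ^ 26 * ‖x - 3‖ ^ 26 * ‖v - 2‖ ^ 6 * ‖v - 3‖ ^ 36) ^ 2 = NN R s t := by
    rw [NN, ← e1, ← e2, ← e3, ← e4]
    ring
  have hD : (‖v ^ 2 - 8‖ ^ 13 * ‖x - v‖ ^ 16) ^ 2 = DD R s t := by
    rw [DD, ← e5, ← e6]
    ring
  have h0 : 0 ≤ Real.exp (-(50175 / 1000)) * (‖v ^ 2 - 8‖ ^ 13 * ‖x - v‖ ^ 16) := by positivity
  refine le_of_sq_le_sq ?_ h0
  rw [hN, mul_pow, hD]
  refine h.trans (mul_le_mul_of_nonneg_right certMain_rho ?_)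
  rw [← hD]
  positivity

theorem certMain_seg {a b z : ℂ} (hz : z ∈ segment ℝ a b) : ∃ s : ℝ, 0 ≤ s ∧ s ≤ 1 ∧
    z.re = a.re + s * (b.re - a.re) ∧ z.im = a.im + s * (b.im - a.im) := by
  rw [segment_eq_image'] at hz
  obtain ⟨s, ⟨hs0, hs1⟩, rfl⟩ := hz
  refine ⟨s, hs0, hs1, ?_, ?_⟩ <;> simp

theorem certMain_rho_nonneg : 0 ≤ ((CertV.rho : ℚ) : ℝ) := by
  norm_num [CertV.rho]

theorem certMain_assoc2 (A B C D : ℝ) :
    A ^ 26 * B ^ 26 * C ^ 6 * D ^ 36 = A ^ 26 * (B ^ 26 * (C ^ 6 * D ^ 36)) := by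
  ring

theorem certMain_assoc3 (A B C D : ℝ) :
    B ^ 26 * A ^ 26 * C ^ 6 * D ^ 36 = A ^ 26 * (B ^ 26 * (C ^ 6 * D ^ 36)) := by
  ring

/-- corner at the point two -/
theorem certMain_two (R : Rc) (s t : ℝ) {k0 a0 c0 y0 : ℝ} (hy : 0 ≤ y0)
    (hAX : (R.px + s * R.dx - 2 : ℝ) ^ 2 + (R.py + s * R.dy) ^ 2 ≤
      k0 * (((R.px + s * R.dx) - (R.qx + t * R.ex)) ^ 2 +
        ((R.py + s * R.dy) - (R.qy + t * R.ey)) ^ 2))
    (hA : (R.px + s * R.dx - 2 : ℝ) ^ 2 + (R.py + s * R.dy) ^ 2 ≤ a0)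
    (hB : (R.px + s * R.dx - 3 : ℝ) ^ 2 + (R.py + s * R.dy) ^ 2 ≤ 1)
    (hC : (R.qx + t * R.ex - 2 : ℝ) ^ 2 + (R.qy + t * R.ey) ^ 2 ≤ c0)
    (hD : (R.qx + t * R.ex - 3 : ℝ) ^ 2 + (R.qy + t * R.ey) ^ 2 ≤ 1)
    (hY : y0 ≤ ((R.qx + t * R.ex : ℝ) ^ 2 - (R.qy + t * R.ey) ^ 2 - 8) ^ 2 +
      (2 * (R.qx + t * R.ex) * (R.qy + t * R.ey)) ^ 2)
    (hnum : k0 ^ 16 * a0 ^ 10 * c0 ^ 6 ≤ ((CertV.rho : ℚ) : ℝ) * y0 ^ 13) :
    NN R s t ≤ ((CertV.rho : ℚ) : ℝ) * DD R s t := by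
  have hB0 := add_nonneg (sq_nonneg (R.px + s * R.dx - 3 : ℝ)) (sq_nonneg (R.py + s * R.dy : ℝ))
  have hA0 := add_nonneg (sq_nonneg (R.px + s * R.dx - 2 : ℝ)) (sq_nonneg (R.py + s * R.dy : ℝ))
  have hC0 := add_nonneg (sq_nonneg (R.qx + t * R.ex - 2 : ℝ)) (sq_nonneg (R.qy + t * R.ey : ℝ))
  have hD0 := add_nonneg (sq_nonneg (R.qx + t * R.ex - 3 : ℝ)) (sq_nonneg (R.qy + t * R.ey : ℝ))
  have h := certMain_corner hA0 (mul_nonneg (pow_nonneg hB0 26)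
    (mul_nonneg (pow_nonneg hC0 6) (pow_nonneg hD0 36))) hy certMain_rho_nonneg hAX hA
    (certMain_prod2 hB0 hC0 hD0 hB hC hD) hY hnum
  rw [NN, DD, certMain_assoc2]
  exact h

/-- corner at the point three -/
theorem certMain_three (R : Rc) (s t : ℝ) {k0 a0 c0 y0 : ℝ} (hy : 0 ≤ y0)
    (hAX : (R.px + s * R.dx - 3 : ℝ) ^ 2 + (R.py + s * R.dy) ^ 2 ≤
      k0 * (((R.px + s * R.dx) - (R.qx + t * R.ex)) ^ 2 +
        ((R.py + s * R.dy) - (R.qy + t * R.ey)) ^ 2))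
    (hA : (R.px + s * R.dx - 3 : ℝ) ^ 2 + (R.py + s * R.dy) ^ 2 ≤ a0)
    (hB : (R.px + s * R.dx - 2 : ℝ) ^ 2 + (R.py + s * R.dy) ^ 2 ≤ 1)
    (hC : (R.qx + t * R.ex - 2 : ℝ) ^ 2 + (R.qy + t * R.ey) ^ 2 ≤ 1)
    (hD : (R.qx + t * R.ex - 3 : ℝ) ^ 2 + (R.qy + t * R.ey) ^ 2 ≤ c0)
    (hY : y0 ≤ ((R.qx + t * R.ex : ℝ) ^ 2 - (R.qy + t * R.ey) ^ 2 - 8) ^ 2 +
      (2 * (R.qx + t * R.ex) * (R.qy + t * R.ey)) ^ 2)
    (hnum : k0 ^ 16 * a0 ^ 10 * c0 ^ 36 ≤ ((CertV.rho : ℚ) : ℝ) * y0 ^ 13) :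
    NN R s t ≤ ((CertV.rho : ℚ) : ℝ) * DD R s t := by
  have hA0 := add_nonneg (sq_nonneg (R.px + s * R.dx - 3 : ℝ)) (sq_nonneg (R.py + s * R.dy : ℝ))
  have hB0 := add_nonneg (sq_nonneg (R.px + s * R.dx - 2 : ℝ)) (sq_nonneg (R.py + s * R.dy : ℝ))
  have hC0 := add_nonneg (sq_nonneg (R.qx + t * R.ex - 2 : ℝ)) (sq_nonneg (R.qy + t * R.ey : ℝ))
  have hD0 := add_nonneg (sq_nonneg (R.qx + t * R.ex - 3 : ℝ)) (sq_nonneg (R.qy + t * R.ey : ℝ))
  have h := certMain_corner hA0 (mul_nonneg (pow_nonneg hB0 26)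
    (mul_nonneg (pow_nonneg hC0 6) (pow_nonneg hD0 36))) hy certMain_rho_nonneg hAX hA
    (certMain_prod3 hB0 hC0 hD0 hB hC hD) hY hnum
  rw [NN, DD, certMain_assoc3]
  exact h

/-- lower bound of a square -/
theorem certMain_sq {a b y : ℝ} (hy : 0 ≤ y) (h : y ≤ a ∨ a ≤ -y) : y ^ 2 ≤ a ^ 2 + b ^ 2 := by
  have h1 : y ^ 2 ≤ a ^ 2 := by
    rcases h with h | h
    · exact pow_le_pow_left₀ hy h 2
    · rw [← neg_sq a]
      exact pow_le_pow_left₀ hy (by linarith) 2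
  nlinarith [sq_nonneg b]

/-- corner of `b1` -/
theorem certMain_b1 (s t : ℝ) (hs0 : 0 ≤ s) (hs1 : s ≤ 1 / 8) (ht0 : 0 ≤ t) (ht1 : t ≤ 1 / 8) :
    NN Rb1 s t ≤ ((CertV.rho : ℚ) : ℝ) * DD Rb1 s t := by
  have hss : 0 ≤ s * (1 / 8 - s) := mul_nonneg hs0 (by linarith)
  have htt : 0 ≤ t * (1 / 8 - t) := mul_nonneg ht0 (by linarith)
  apply certMain_two Rb1 s t (k0 := 5626 / 5625) (a0 := 29 / 2048) (c0 := 97 / 16384)
    (y0 := (31 / 8) ^ 2) (by norm_num)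
  · simp only [Rb1]
    push_cast
    nlinarith [sq_nonneg ((7 / 8 * s - t / 4) * (1 / 4) + (-(3 / 8 * s) - 9 / 16 * t) * (9 / 16))]
  · simp only [Rb1]
    push_cast
    nlinarith
  · simp only [Rb1]
    push_cast
    nlinarith
  · simp only [Rb1]
    push_cast
    nlinarith
  · simp only [Rb1]
    push_cast
    nlinarith
  · apply certMain_sq (by norm_num)
    right
    simp only [Rb1]
    push_cast
    nlinarith
  · norm_num [CertV.rho]

/-- corner of `a2` -/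
theorem certMain_a2 (s t : ℝ) (hs0 : 0 ≤ s) (hs1 : s ≤ 1 / 8) (ht0 : 0 ≤ t) (ht1 : t ≤ 1 / 8) :
    NN Ra2 s t ≤ ((CertV.rho : ℚ) : ℝ) * DD Ra2 s t := by
  have hss : 0 ≤ s * (1 / 8 - s) := mul_nonneg hs0 (by linarith)
  have htt : 0 ≤ t * (1 / 8 - t) := mul_nonneg ht0 (by linarith)
  apply certMain_two Ra2 s t (k0 := 170 / 169) (a0 := 1 / 64) (c0 := 85 / 8192)
    (y0 := (127 / 32) ^ 2) (by norm_num)
  · simp only [Ra2]
    push_cast
    nlinarith [sq_nonneg ((s - t / 16) * (1 / 16) + (13 / 16 * t) * (-(13 / 16)))]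
  · simp only [Ra2]
    push_cast
    nlinarith
  · simp only [Ra2]
    push_cast
    nlinarith
  · simp only [Ra2]
    push_cast
    nlinarith
  · simp only [Ra2]
    push_cast
    nlinarith
  · apply certMain_sq (by norm_num)
    right
    simp only [Ra2]
    push_cast
    nlinarith
  · norm_num [CertV.rho]

/-- corner of `b4` -/
theorem certMain_b4 (s t : ℝ) (hs0 : 0 ≤ s) (hs1 : s ≤ 1 / 2) (ht0 : 0 ≤ t) (ht1 : t ≤ 1 / 2) :
    NN Rb4 s t ≤ ((CertV.rho : ℚ) : ℝ) * DD Rb4 s t := by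
  have hss : 0 ≤ s * (1 / 2 - s) := mul_nonneg hs0 (by linarith)
  have htt : 0 ≤ t * (1 / 2 - t) := mul_nonneg ht0 (by linarith)
  apply certMain_three Rb4 s t (k0 := 2) (a0 := 5 / 128) (c0 := 45 / 4096)
    (y0 := (7 / 16) ^ 2) (by norm_num)
  · simp only [Rb4]
    push_cast
    nlinarith [sq_nonneg ((-(1 / 8) * s + 3 / 16 * t) * (-(3 / 16)) +
      (-(3 / 8) * s + 3 / 32 * t) * (-(3 / 32)))]
  · simp only [Rb4]
    push_cast
    nlinarith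
  · simp only [Rb4]
    push_cast
    nlinarith
  · simp only [Rb4]
    push_cast
    nlinarith
  · simp only [Rb4]
    push_cast
    nlinarith
  · apply certMain_sq (by norm_num)
    left
    simp only [Rb4]
    push_cast
    nlinarith
  · norm_num [CertV.rho]

/-- corner of `a1` -/
theorem certMain_a1 (s t : ℝ) (hs0 : 0 ≤ s) (hs1 : s ≤ 1 / 8) (ht0 : 0 ≤ t) (ht1 : t ≤ 1 / 8) :
    NN Ra1 s t ≤ ((CertV.rho : ℚ) : ℝ) * DD Ra1 s t := by
  have hss : 0 ≤ s * (1 / 8 - s) := mul_nonneg hs0 (by linarith)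
  have htt : 0 ≤ t * (1 / 8 - t) := mul_nonneg ht0 (by linarith)
  apply certMain_three Ra1 s t (k0 := 394 / 169) (a0 := 1 / 64) (c0 := 197 / 8192)
    (y0 := (19 / 64) ^ 2) (by norm_num)
  · simp only [Ra1]
    push_cast
    nlinarith [sq_nonneg ((-s + 15 / 16 * t) * (-(15 / 16)) +
      (13 / 16 * t) * (-(13 / 16)))]
  · simp only [Ra1]
    push_cast
    nlinarith
  · simp only [Ra1]
    push_cast
    nlinarith
  · simp only [Ra1]
    push_cast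
    nlinarith
  · simp only [Ra1]
    push_cast
    nlinarith
  · apply certMain_sq (by norm_num)
    left
    simp only [Ra1]
    push_cast
    nlinarith
  · norm_num [CertV.rho]

/-- a box split at `(c, c)`, with the corner treated separately -/
theorem certMain_split (R : Rc) (TA TB : Tr) (c : ℚ) (hc0 : 0 ≤ c) (hc1 : c ≤ 1)
    (hA : chk R CertV.rho TA c 1 0 1 = true) (hB : chk R CertV.rho TB 0 c c 1 = true)
    (hcor : ∀ s t : ℝ, 0 ≤ s → s ≤ c → 0 ≤ t → t ≤ c →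
      NN R s t ≤ ((CertV.rho : ℚ) : ℝ) * DD R s t)
    (s t : ℝ) (hs0 : 0 ≤ s) (hs1 : s ≤ 1) (ht0 : 0 ≤ t) (ht1 : t ≤ 1) :
    NN R s t ≤ ((CertV.rho : ℚ) : ℝ) * DD R s t := by
  rcases le_total (c : ℝ) s with h | h
  · exact chk_sound R CertV.rho TA c 1 0 1 hc1 zero_le_one hA s t h (by simpa using hs1)
      (by simpa using ht0) (by simpa using ht1)
  · rcases le_total (c : ℝ) t with h' | h'
    · exact chk_sound R CertV.rho TB 0 c c 1 hc0 hc1 hB s t (by simpa using hs0) h h'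
        (by simpa using ht1)
    · exact hcor s t hs0 h ht0 h'

theorem certMain_full (R : Rc) (T : Tr) (h : chk R CertV.rho T 0 1 0 1 = true)
    (s t : ℝ) (hs0 : 0 ≤ s) (hs1 : s ≤ 1) (ht0 : 0 ≤ t) (ht1 : t ≤ 1) :
    NN R s t ≤ ((CertV.rho : ℚ) : ℝ) * DD R s t :=
  chk_sound R CertV.rho T 0 1 0 1 zero_le_one zero_le_one h s t (by simpa using hs0)
    (by simpa using hs1) (by simpa using ht0) (by simpa using ht1)

/-- the main certified inequality on the eight products of segments -/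
theorem cert_main (x v : ℂ) (h : OnPaths x v) :
    ‖x - 2‖ ^ 26 * ‖x - 3‖ ^ 26 * ‖v - 2‖ ^ 6 * ‖v - 3‖ ^ 36 ≤
      Real.exp (-(50175 / 1000)) * (‖v ^ 2 - 8‖ ^ 13 * ‖x - v‖ ^ 16) := by
  have two_re : (2 : ℂ).re = 2 := rfl
  have two_im : (2 : ℂ).im = 0 := rfl
  have three_re : (3 : ℂ).re = 3 := rfl
  have three_im : (3 : ℂ).im = 0 := rfl
  rcases h with ⟨hx | hx, hv | hv | hv⟩ | ⟨hx, hv | hv⟩
  · -- b3
    obtain ⟨s, hs0, hs1, hx1, hx2⟩ := certMain_seg hx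
    obtain ⟨t, ht0, ht1, hv1, hv2⟩ := certMain_seg hv
    refine certMain_of_rect Rb3 s t x v ?_ ?_ ?_ ?_
      (certMain_full Rb3 Tb3 ok_b3 s t hs0 hs1 ht0 ht1)
    · rw [hx1]; simp only [Rb3, pS, two_re]; push_cast; ring
    · rw [hx2]; simp only [Rb3, pS, two_im]; push_cast; ring
    · rw [hv1]; simp only [Rb3, pA, three_re]; push_cast; ring
    · rw [hv2]; simp only [Rb3, pA, three_im]; push_cast; ring
  · -- b2
    obtain ⟨s, hs0, hs1, hx1, hx2⟩ := certMain_seg hx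
    obtain ⟨t, ht0, ht1, hv1, hv2⟩ := certMain_seg hv
    refine certMain_of_rect Rb2 s t x v ?_ ?_ ?_ ?_
      (certMain_full Rb2 Tb2 ok_b2 s t hs0 hs1 ht0 ht1)
    · rw [hx1]; simp only [Rb2, pS, two_re]; push_cast; ring
    · rw [hx2]; simp only [Rb2, pS, two_im]; push_cast; ring
    · rw [hv1]; simp only [Rb2, pA, pB]; push_cast; ring
    · rw [hv2]; simp only [Rb2, pA, pB]; push_cast; ring
  · -- b1
    rw [segment_symm] at hv
    obtain ⟨s, hs0, hs1, hx1, hx2⟩ := certMain_seg hx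
    obtain ⟨t, ht0, ht1, hv1, hv2⟩ := certMain_seg hv
    refine certMain_of_rect Rb1 s t x v ?_ ?_ ?_ ?_
      (certMain_split Rb1 Tb1A Tb1B (1 / 8) (by norm_num) (by norm_num) ok_b1A ok_b1B
        (fun s t h1 h2 h3 h4 => certMain_b1 s t h1 (by push_cast at h2; exact h2) h3
          (by push_cast at h4; exact h4)) s t hs0 hs1 ht0 ht1)
    · rw [hx1]; simp only [Rb1, pS, two_re]; push_cast; ring
    · rw [hx2]; simp only [Rb1, pS, two_im]; push_cast; ring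
    · rw [hv1]; simp only [Rb1, pB, two_re]; push_cast; ring
    · rw [hv2]; simp only [Rb1, pB, two_im]; push_cast; ring
  · -- b4
    rw [segment_symm] at hx
    obtain ⟨s, hs0, hs1, hx1, hx2⟩ := certMain_seg hx
    obtain ⟨t, ht0, ht1, hv1, hv2⟩ := certMain_seg hv
    refine certMain_of_rect Rb4 s t x v ?_ ?_ ?_ ?_
      (certMain_split Rb4 Tb4A Tb4B (1 / 2) (by norm_num) (by norm_num) ok_b4A ok_b4B
        (fun s t h1 h2 h3 h4 => certMain_b4 s t h1 (by push_cast at h2; exact h2) h3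
          (by push_cast at h4; exact h4)) s t hs0 hs1 ht0 ht1)
    · rw [hx1]; simp only [Rb4, pS, three_re]; push_cast; ring
    · rw [hx2]; simp only [Rb4, pS, three_im]; push_cast; ring
    · rw [hv1]; simp only [Rb4, pA, three_re]; push_cast; ring
    · rw [hv2]; simp only [Rb4, pA, three_im]; push_cast; ring
  · -- b5
    rw [segment_symm] at hx
    obtain ⟨s, hs0, hs1, hx1, hx2⟩ := certMain_seg hx
    obtain ⟨t, ht0, ht1, hv1, hv2⟩ := certMain_seg hv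
    refine certMain_of_rect Rb5 s t x v ?_ ?_ ?_ ?_
      (certMain_full Rb5 Tb5 ok_b5 s t hs0 hs1 ht0 ht1)
    · rw [hx1]; simp only [Rb5, pS, three_re]; push_cast; ring
    · rw [hx2]; simp only [Rb5, pS, three_im]; push_cast; ring
    · rw [hv1]; simp only [Rb5, pA, pB]; push_cast; ring
    · rw [hv2]; simp only [Rb5, pA, pB]; push_cast; ring
  · -- b6
    rw [segment_symm] at hx hv
    obtain ⟨s, hs0, hs1, hx1, hx2⟩ := certMain_seg hx
    obtain ⟨t, ht0, ht1, hv1, hv2⟩ := certMain_seg hv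
    refine certMain_of_rect Rb6 s t x v ?_ ?_ ?_ ?_
      (certMain_full Rb6 Tb6 ok_b6 s t hs0 hs1 ht0 ht1)
    · rw [hx1]; simp only [Rb6, pS, three_re]; push_cast; ring
    · rw [hx2]; simp only [Rb6, pS, three_im]; push_cast; ring
    · rw [hv1]; simp only [Rb6, pB, two_re]; push_cast; ring
    · rw [hv2]; simp only [Rb6, pB, two_im]; push_cast; ring
  · -- a1
    rw [segment_symm] at hx
    obtain ⟨s, hs0, hs1, hx1, hx2⟩ := certMain_seg hx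
    obtain ⟨t, ht0, ht1, hv1, hv2⟩ := certMain_seg hv
    refine certMain_of_rect Ra1 s t x v ?_ ?_ ?_ ?_
      (certMain_split Ra1 Ta1A Ta1B (1 / 8) (by norm_num) (by norm_num) ok_a1A ok_a1B
        (fun s t h1 h2 h3 h4 => certMain_a1 s t h1 (by push_cast at h2; exact h2) h3
          (by push_cast at h4; exact h4)) s t hs0 hs1 ht0 ht1)
    · rw [hx1]; simp only [Ra1, two_re, three_re]; push_cast; ring
    · rw [hx2]; simp only [Ra1, two_im, three_im]; push_cast; ring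
    · rw [hv1]; simp only [Ra1, pC, three_re]; push_cast; ring
    · rw [hv2]; simp only [Ra1, pC, three_im]; push_cast; ring
  · -- a2
    rw [segment_symm] at hv
    obtain ⟨s, hs0, hs1, hx1, hx2⟩ := certMain_seg hx
    obtain ⟨t, ht0, ht1, hv1, hv2⟩ := certMain_seg hv
    refine certMain_of_rect Ra2 s t x v ?_ ?_ ?_ ?_
      (certMain_split Ra2 Ta2A Ta2B (1 / 8) (by norm_num) (by norm_num) ok_a2A ok_a2B
        (fun s t h1 h2 h3 h4 => certMain_a2 s t h1 (by push_cast at h2; exact h2) h3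
          (by push_cast at h4; exact h4)) s t hs0 hs1 ht0 ht1)
    · rw [hx1]; simp only [Ra2, two_re, three_re]; push_cast; ring
    · rw [hx2]; simp only [Ra2, two_im, three_im]; push_cast; ring
    · rw [hv1]; simp only [Ra2, pC, two_re]; push_cast; ring
    · rw [hv2]; simp only [Ra2, pC, two_im]; push_cast; ring

end Vale.Agent.P021
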