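import Vale.Agent.Lib.P021V.Deform
import Vale.Agent.Lib.P021V.CertMain

/-!
# P021: the forms `AK k + BK k * π/4` are small
-/

namespace Vale.Agent.P021

open Polynomial

theorem formV_aux (X Y P Q D E w ρ : ℝ) (hX : 0 ≤ X) (hY : 0 ≤ Y) (hP : 0 ≤ P) (hQ : 0 ≤ Q)
    (hD : 0 < D) (hw : 0 < w) (hwE : w ^ 2 = E) (hE : 1 / 4 ≤ E) (hX2 : X ≤ 2) (hY2 : Y ≤ 2)
    (hP2 : P ≤ 2) (hQ2 : Q ≤ 2) (hsep : X * Y ≤ 100 * D) (hρ : 0 ≤ ρ)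
    (hcert : X ^ 26 * Y ^ 26 * P ^ 6 * Q ^ 36 ≤ ρ * (E ^ 13 * D ^ 16)) (k : ℕ) :
    X ^ (26 * (k + 1)) * Y ^ (26 * (k + 1)) / D ^ (16 * (k + 1) + 1) *
      (P ^ (6 * (k + 1)) * Q ^ (36 * (k + 1)) * (w ^ (2 * (13 * (k + 1)) + 1))⁻¹) ≤
      ρ ^ k * (100 ^ 17 * 4 ^ 9 * 2 ^ 6 * 2 ^ 36 * 4 ^ 13 * 2) := by
  have hE0 : 0 < E := by linarith
  have hw2 : 1 / 2 ≤ w := by nlinarith
  set Ψ : ℝ := X ^ 26 * Y ^ 26 * P ^ 6 * Q ^ 36 / (E ^ 13 * D ^ 16) with hΨ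
  have hΨ0 : 0 ≤ Ψ := by positivity
  have hΨ1 : Ψ ≤ ρ := by
    rw [hΨ, div_le_iff₀ (by positivity)]; exact hcert
  have e1 : X ^ (26 * (k + 1)) * Y ^ (26 * (k + 1)) / D ^ (16 * (k + 1) + 1) *
      (P ^ (6 * (k + 1)) * Q ^ (36 * (k + 1)) * (w ^ (2 * (13 * (k + 1)) + 1))⁻¹) =
      Ψ ^ k * (Ψ / (D * w)) := by
    have h1 : w ^ (2 * (13 * (k + 1)) + 1) = (E ^ 13) ^ (k + 1) * w := by
      rw [← hwE, pow_succ, pow_mul, pow_mul]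
    have h2 : Ψ ^ k * (Ψ / (D * w)) = Ψ ^ (k + 1) / (D * w) := by rw [pow_succ]; ring
    rw [h1, h2, hΨ, div_pow, mul_pow, mul_pow, mul_pow, mul_pow, pow_succ D, pow_mul, pow_mul,
      pow_mul, pow_mul, pow_mul]
    field_simp
  rw [e1]
  have h3 : Ψ / (D * w) ≤ 100 ^ 17 * 4 ^ 9 * 2 ^ 6 * 2 ^ 36 * 4 ^ 13 * 2 := by
    have hXY : 0 ≤ X * Y := mul_nonneg hX hY
    have a1 : (X * Y) ^ 17 ≤ (100 * D) ^ 17 := pow_le_pow_left₀ hXY hsep 17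
    have a2 : (X * Y) ^ 9 ≤ 4 ^ 9 := pow_le_pow_left₀ hXY (by nlinarith) 9
    have a3 : P ^ 6 ≤ 2 ^ 6 := pow_le_pow_left₀ hP hP2 6
    have a4 : Q ^ 36 ≤ 2 ^ 36 := pow_le_pow_left₀ hQ hQ2 36
    have a5 : 1 ≤ 4 ^ 13 * E ^ 13 := by
      rw [← mul_pow]; exact one_le_pow₀ (by linarith)
    have a6 : 1 ≤ 2 * w := by linarith
    rw [hΨ, div_div, div_le_iff₀ (by positivity)]
    calc X ^ 26 * Y ^ 26 * P ^ 6 * Q ^ 36 = (X * Y) ^ 17 * (X * Y) ^ 9 * P ^ 6 * Q ^ 36 := by ring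
      _ ≤ (100 * D) ^ 17 * 4 ^ 9 * 2 ^ 6 * 2 ^ 36 := by gcongr
      _ = (100 * D) ^ 17 * 4 ^ 9 * 2 ^ 6 * 2 ^ 36 * (1 * 1) := by ring
      _ ≤ (100 * D) ^ 17 * 4 ^ 9 * 2 ^ 6 * 2 ^ 36 * ((4 ^ 13 * E ^ 13) * (2 * w)) := by gcongr
      _ = 100 ^ 17 * 4 ^ 9 * 2 ^ 6 * 2 ^ 36 * 4 ^ 13 * 2 * (E ^ 13 * D ^ 16 * (D * w)) := by ring
  exact mul_le_mul (pow_le_pow_left₀ hΨ0 hΨ1 k) h3 (by positivity) (by positivity)

theorem form_K : ∃ C : ℝ, 0 < C ∧ ∀ k : ℕ, 1 ≤ k →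
    |(AK k : ℝ) + (BK k : ℝ) * (Real.pi / 4)| ≤ C * Real.exp (-(50175 / 1000 * k)) := by
  set C1 : ℝ := 100 ^ 17 * 4 ^ 9 * 2 ^ 6 * 2 ^ 36 * 4 ^ 13 * 2 with hC1
  have hC1' : 0 < C1 := by rw [hC1]; positivity
  refine ⟨5 * (C1 * Real.exp (50175 / 1000)), by positivity, fun k hk => ?_⟩
  obtain ⟨k, rfl⟩ : ∃ m, k = m + 1 := ⟨k - 1, by omega⟩
  have hexp : Real.exp (-(50175 / 1000)) ^ k * C1 =
      C1 * Real.exp (50175 / 1000) * Real.exp (-(50175 / 1000 * ((k + 1 : ℕ) : ℝ))) := by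
    rw [← Real.exp_nat_mul, mul_assoc, ← Real.exp_add, mul_comm]
    congr 2
    push_cast
    ring
  have h := form_le_V (26 * (k + 1)) (26 * (k + 1)) (6 * (k + 1)) (36 * (k + 1)) (16 * (k + 1))
    (13 * (k + 1)) (by omega) (by omega)
    (C1 * Real.exp (50175 / 1000) * Real.exp (-(50175 / 1000 * ((k + 1 : ℕ) : ℝ)))) (by
      intro x v hxv _ _
      rw [← hexp]
      by_cases hD : ‖x - v‖ = 0
      · rw [hD, zero_pow (by omega), div_zero, zero_mul]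
        positivity
      · have hD' : 0 < ‖x - v‖ := lt_of_le_of_ne (norm_nonneg _) (Ne.symm hD)
        obtain ⟨s1, s2, s3, s4⟩ := crude_sizes x v hxv
        have hE := crude_eight x v hxv
        have hwE := norm_wv_sq v
        have hw : 0 < ‖wv v‖ := by
          rcases (norm_nonneg (wv v)).lt_or_eq with h | h
          · exact h
          · rw [← h] at hwE
            rw [← hwE] at hE
            norm_num at hE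
        exact formV_aux _ _ _ _ _ _ _ _ (norm_nonneg _) (norm_nonneg _) (norm_nonneg _)
          (norm_nonneg _) hD' hw hwE hE s1 s2 s3 s4 (crude_sep x v hxv) (Real.exp_pos _).le
          (cert_main x v hxv) k)
  refine h.trans (le_of_eq ?_)
  ring

end Vale.Agent.P021
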