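import Vale.Agent.Lib.P021V.Defs

/-!
# P021: coefficients modulo `p` (Frobenius and Lucas)
-/

namespace Vale.Agent.P021

open Polynomial

/-- Lucas -/
private theorem savdig_lucas (p : ℕ) [Fact p.Prime] {j M : ℕ} (h : j % p < M % p) :
    (p : ℤ) ∣ (j.choose M : ℤ) := by
  have h1 := Choose.choose_modEq_choose_mod_mul_choose_div (n := j) (k := M) (p := p)
  rw [Nat.choose_eq_zero_of_lt h] at h1
  simp only [Nat.cast_zero, zero_mul] at h1
  exact Int.modEq_zero_iff_dvd.1 h1

private theorem savdig_deg_PZ (a b : ℕ) : (PZ a b).natDegree ≤ a + b := by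
  unfold PZ
  refine le_trans natDegree_mul_le ?_
  apply add_le_add
  · refine le_trans natDegree_pow_le ?_
    rw [natDegree_X_sub_C, mul_one]
  · refine le_trans natDegree_pow_le ?_
    rw [natDegree_X_sub_C, mul_one]

private theorem savdig_deg_W (r : ℕ) : (((X : ℤ[X]) ^ 2 - C 8) ^ r).natDegree ≤ 2 * r := by
  refine le_trans natDegree_pow_le ?_
  rw [natDegree_X_pow_sub_C, mul_comm]

/-- Frobenius -/
private theorem savdig_frob (p : ℕ) [Fact p.Prime] (a b : ℕ) (R : ℤ[X]) {A : ℕ} (hA : A < p)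
    (hd : a % p + b % p + R.natDegree ≤ A) {j : ℕ} (hj : A < j % p) :
    (p : ℤ) ∣ (PZ a b * R).coeff j := by
  have hp : 0 < p := (Fact.out : p.Prime).pos
  rw [← ZMod.intCast_zmod_eq_zero_iff_dvd]
  have e0 : (((PZ a b * R).coeff j : ℤ) : ZMod p) =
      ((PZ a b * R).map (Int.castRingHom (ZMod p))).coeff j := by
    rw [coeff_map]; rfl
  rw [e0]
  set G : (ZMod p)[X] := (X - C 2) ^ (a / p) * (X - C 3) ^ (b / p) with hG
  set S : (ZMod p)[X] := (PZ (a % p) (b % p) * R).map (Int.castRingHom (ZMod p)) with hS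
  have e1 : (PZ a b * R).map (Int.castRingHom (ZMod p)) = expand (ZMod p) p G * S := by
    rw [ZMod.expand_card, hS, hG]
    unfold PZ
    simp only [Polynomial.map_mul, Polynomial.map_pow, Polynomial.map_sub, map_X, map_C]
    have e2 : (Int.castRingHom (ZMod p)) 2 = 2 := by simp
    have e3 : (Int.castRingHom (ZMod p)) 3 = 3 := by simp
    rw [e2, e3]
    have ha : (X - C 2 : (ZMod p)[X]) ^ a = ((X - C 2) ^ (a / p)) ^ p * (X - C 2) ^ (a % p) := by
      rw [← pow_mul, ← pow_add, mul_comm (a / p) p, Nat.div_add_mod]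
    have hb : (X - C 3 : (ZMod p)[X]) ^ b = ((X - C 3) ^ (b / p)) ^ p * (X - C 3) ^ (b % p) := by
      rw [← pow_mul, ← pow_add, mul_comm (b / p) p, Nat.div_add_mod]
    rw [ha, hb, mul_pow]
    ring
  have hSdeg : S.natDegree ≤ A := by
    refine le_trans natDegree_map_le ?_
    refine le_trans natDegree_mul_le ?_
    have := savdig_deg_PZ (a % p) (b % p)
    omega
  rw [e1, coeff_mul]
  apply Finset.sum_eq_zero
  rintro ⟨i, s⟩ his
  rw [Finset.HasAntidiagonal.mem_antidiagonal] at his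
  simp only at his ⊢
  by_cases hs : A < s
  · rw [coeff_eq_zero_of_natDegree_lt (lt_of_le_of_lt hSdeg hs), mul_zero]
  · rw [coeff_expand hp]
    split_ifs with hdvd
    · exfalso
      obtain ⟨q, rfl⟩ := hdvd
      have h1 : j % p = s := by
        rw [← his, Nat.mul_add_mod, Nat.mod_eq_of_lt (by omega)]
      omega
    · rw [zero_mul]

private theorem savdig_hasse (p : ℕ) [Fact p.Prime] (M : ℕ) (f : ℤ[X]) {h : ℕ}
    (hh : (h + M) % p < M % p) : (p : ℤ) ∣ (hasseDeriv M f).coeff h := by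
  rw [hasseDeriv_coeff]
  exact Dvd.dvd.mul_right (savdig_lucas p hh) _

private theorem savdig_mul (p : ℕ) (P Q : ℤ[X]) (l : ℕ)
    (h : ∀ i j, i + j = l → (p : ℤ) ∣ P.coeff i ∨ (p : ℤ) ∣ Q.coeff j) :
    (p : ℤ) ∣ (P * Q).coeff l := by
  rw [coeff_mul]
  apply Finset.dvd_sum
  rintro ⟨i, j⟩ hij
  rw [Finset.HasAntidiagonal.mem_antidiagonal] at hij
  rcases h i j hij with h1 | h1
  · exact Dvd.dvd.mul_right h1 _
  · exact Dvd.dvd.mul_left h1 _

theorem dig_nu (p : ℕ) [Fact p.Prime] (a1 b1 M : ℕ) (h : a1 % p + b1 % p < M % p) (l : ℕ) :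
    (p : ℤ) ∣ (hasseDeriv M (PZ a1 b1)).coeff l := by
  have hp : 0 < p := (Fact.out : p.Prime).pos
  have hM : M % p < p := Nat.mod_lt _ hp
  by_cases hl : (l + M) % p < M % p
  · exact savdig_hasse p M _ hl
  · rw [hasseDeriv_coeff]
    apply Dvd.dvd.mul_left
    have := savdig_frob p a1 b1 1 (A := a1 % p + b1 % p) (by omega) (by simp) (j := l + M) (by omega)
    rwa [mul_one] at this

theorem dig_kap (p : ℕ) [Fact p.Prime] (a1 b1 a2 b2 M r₃ : ℕ)
    (h : a2 % p + b2 % p + 2 * r₃ < M % p) (l : ℕ) (hl : p ∣ l + 1) :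
    (p : ℤ) ∣ (NV a1 b1 a2 b2 M * (X ^ 2 - C 8) ^ r₃).coeff l := by
  have hp : 0 < p := (Fact.out : p.Prime).pos
  have hM : M % p < p := Nat.mod_lt _ hp
  have e1 : NV a1 b1 a2 b2 M * (X ^ 2 - C 8) ^ r₃ =
      (PZ a2 b2 * (X ^ 2 - C 8) ^ r₃) * hasseDeriv M (PZ a1 b1) := by
    unfold NV; ring
  rw [e1]
  apply savdig_mul
  intro i j hij
  by_cases hj : (j + M) % p < M % p
  · exact Or.inr (savdig_hasse p M _ hj)
  left
  apply savdig_frob p a2 b2 _ (A := a2 % p + b2 % p + 2 * r₃) (by omega)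
  · have := savdig_deg_W r₃
    omega
  · by_contra hi
    -- i % p + j % p < p - 1
    have hj1 : j % p + M % p = (j + M) % p := by
      have h1 := Nat.add_mod j M p
      by_cases h2 : j % p + M % p < p
      · rw [h1, Nat.mod_eq_of_lt h2]
      · exfalso
        apply hj
        rw [h1]
        have h3 : j % p < p := Nat.mod_lt _ hp
        rw [Nat.mod_eq_sub_mod (by omega), Nat.mod_eq_of_lt (by omega)]
        omega
    have hj2 : (j + M) % p < p := Nat.mod_lt _ hp
    have hl1 : l % p = p - 1 := by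
      obtain ⟨q, hq⟩ := hl
      have hq0 : q ≠ 0 := by rintro rfl; omega
      obtain ⟨q', rfl⟩ : ∃ q', q = q' + 1 := ⟨q - 1, by omega⟩
      have : l = p * q' + (p - 1) := by
        have : p * (q' + 1) = p * q' + p := by ring
        omega
      rw [this, Nat.mul_add_mod, Nat.mod_eq_of_lt (by omega)]
    have hl2 : l % p = i % p + j % p := by
      rw [← hij, Nat.add_mod, Nat.mod_eq_of_lt (by omega)]
    omega

theorem dig_log (p : ℕ) [Fact p.Prime] (k r₃ : ℕ) (h1 : 46 * k < p) (h2 : p ≤ 52 * k)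
    (h3 : 26 * k + 2 * r₃ + 1 = p) (l : ℕ) (hl : p ∣ l + 1) (hl2 : l ≠ p - 1) :
    (p : ℤ) ∣ (NK k * (X ^ 2 - C 8) ^ r₃).coeff l := by
  have hp : 0 < p := (Fact.out : p.Prime).pos
  have e1 : NK k * (X ^ 2 - C 8) ^ r₃ =
      (PZ (6 * k) (36 * k) * (X ^ 2 - C 8) ^ r₃) * hasseDeriv (16 * k) (PZ (26 * k) (26 * k)) := by
    unfold NK NV; ring
  rw [e1]
  apply savdig_mul
  intro i j hij
  by_cases hi : 42 * k + 2 * r₃ < i
  · left
    rw [coeff_eq_zero_of_natDegree_lt]
    · exact dvd_zero _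
    · refine lt_of_le_of_lt natDegree_mul_le ?_
      have h4 := savdig_deg_PZ (6 * k) (36 * k)
      have h5 := savdig_deg_W r₃
      omega
  right
  have hM : (16 * k) % p = 16 * k := Nat.mod_eq_of_lt (by omega)
  by_cases hj : 52 * k < j + 16 * k
  · rw [hasseDeriv_coeff, coeff_eq_zero_of_natDegree_lt, mul_zero]
    · exact dvd_zero _
    · have h4 := savdig_deg_PZ (26 * k) (26 * k)
      omega
  by_cases hj2 : p ≤ j + 16 * k
  · apply savdig_hasse
    rw [hM, Nat.mod_eq_sub_mod hj2, Nat.mod_eq_of_lt (by omega)]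
    omega
  · exfalso
    apply hl2
    obtain ⟨q, hq⟩ := hl
    have hq2 : q < 2 := by
      by_contra hcon
      have : 2 ≤ q := by omega
      have : p * 2 ≤ p * q := Nat.mul_le_mul_left _ this
      omega
    have hq0 : q ≠ 0 := by rintro rfl; omega
    have : q = 1 := by omega
    subst this
    omega

end Vale.Agent.P021
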