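import Vale.Agent.Lib.P021V.Sav0
import Vale.Agent.Lib.P021V.SavDig
import Vale.Agent.Lib.P021V.Euler

/-!
# P021: the primes which are saved in `AK k`
-/

namespace Vale.Agent.P021

open Polynomial

def SavNu (k p : ℕ) : Prop := (26 * k) % p + (26 * k) % p < (16 * k) % p

def SavKap (k p : ℕ) : Prop := ∃ r₃ γ : ℕ, 26 * k + 2 * r₃ + 1 = p * (2 * γ + 1) ∧
  (6 * k) % p + (36 * k) % p + 2 * r₃ < (16 * k) % p

def SavE (k p : ℕ) : Prop := ∃ r₃ γ : ℕ, 26 * k + 2 * r₃ + 1 = p * (2 * γ + 1) ∧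
  (16 * k) % p + (46 * k) % p + 2 * r₃ < (36 * k) % p

def SavLog (k p : ℕ) : Prop := 46 * k < p ∧ p ≤ 52 * k

theorem savK_dvd_coeff_mul (p : ℕ) (f g : ℤ[X]) (h : ∀ l, (p : ℤ) ∣ g.coeff l) (l : ℕ) :
    (p : ℤ) ∣ (f * g).coeff l := by
  rw [coeff_mul]
  exact Finset.dvd_sum fun i _ => Dvd.dvd.mul_left (h _) _

theorem AK_sav (k p : ℕ) (hp : p.Prime) (hp2 : p ≠ 2) (hs : 26 * k + 2 * p + 3 ≤ p ^ 2)
    (hs2 : 52 * k + 4 ≤ p ^ 2)
    (h : SavNu k p ∨ SavKap k p ∨ SavE k p ∨ SavLog k p) :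
    padicNorm p (AK k) ≤ 1 := by
  have : Fact p.Prime := ⟨hp⟩
  have hdeg := natDegree_NK_le k
  have hlt : ∀ a : ℕ, a % p < p := fun a => Nat.mod_lt _ hp.pos
  unfold AK
  rcases h with h | h | h | h
  · refine savings_zero p hp2 (13 * k) (NK k) (fun l => ?_) (by omega) (by omega)
    exact savK_dvd_coeff_mul p _ _ (dig_nu p (26 * k) (26 * k) (16 * k) h) l
  · obtain ⟨r₃, γ, h1, h2⟩ := h
    have h3 := hlt (16 * k)
    refine savings_coef p hp2 (13 * k) r₃ γ (NK k) (by omega) (fun l hl => ?_) (by omega) (by omega)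
    exact dig_kap p (26 * k) (26 * k) (6 * k) (36 * k) (16 * k) r₃ h2 l hl
  · obtain ⟨r₃, γ, h1, h2⟩ := h
    have h3 := hlt (36 * k)
    refine savings_coef p hp2 (13 * k) r₃ γ (NK k) (by omega) (fun l hl => ?_) (by omega) (by omega)
    rw [NK_eq]
    exact dig_kap p (26 * k) (26 * k) (16 * k) (46 * k) (36 * k) r₃ h2 l hl
  · obtain ⟨h1, h2⟩ := h
    have hodd : p % 2 = 1 := hp.eq_two_or_odd.resolve_left hp2
    refine savings_log p hp2 (13 * k) ((p - 26 * k - 1) / 2) (NK k) (by omega)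
      (fun l hl hl2 => ?_) (by omega)
    exact dig_log p k _ h1 h2 (by omega) l hl hl2

end Vale.Agent.P021
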