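import Vale.Agent.Lib.P021.SavingsSet
import Vale.Agent.Lib.P021V.SavK

/-!
# P021: logarithmic size of the denominators of `AK k`
-/

namespace Vale.Agent.P021

open Filter Topology Polynomial

/-! ### the table of pieces -/

/-- a piece: the interval `[a/b, c/d)` for the fractional part of `k/p`, a type `t` and integer
parameters -/
structure SPc where
  a : ℕ
  b : ℕ
  c : ℕ
  d : ℕ
  t : ℕ
  x : ℕ
  y : ℕ
  z : ℕ
  o : ℕ

/-- the floor of `w f` is `i` for `f` in the interval -/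
abbrev SPc.Fl (P : SPc) (w i : ℕ) : Prop := i * P.b ≤ w * P.a ∧ w * P.c ≤ (i + 1) * P.d

/-- correctness of a piece -/
abbrev SPc.Ok (P : SPc) : Prop :=
  0 < P.b ∧ 0 < P.c ∧ 0 < P.d ∧ P.b ≤ 46 * P.a ∧ P.c ≤ P.d ∧
  ((P.Fl 26 P.x ∧ P.Fl 16 P.y ∧ P.y ≤ 2 * P.x ∧ 36 * P.c ≤ (2 * P.x - P.y) * P.d) ∨
   (P.Fl 6 P.x ∧ P.Fl 36 P.y ∧ P.Fl 16 P.z ∧ P.o % 2 = 1 ∧ 26 * P.c ≤ P.o * P.d ∧
      P.o + P.z ≤ P.x + P.y) ∨
   (P.Fl 16 P.x ∧ P.Fl 46 P.y ∧ P.Fl 36 P.z ∧ P.o % 2 = 1 ∧ 26 * P.c ≤ P.o * P.d ∧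
      P.o + P.z ≤ P.x + P.y))

/-- two consecutive pieces are disjoint -/
abbrev SPc.Bf (P Q : SPc) : Prop := 0 < Q.b ∧ P.c * Q.b ≤ Q.a * P.d

/-- the table: `t = 0` type `N`, `t = 1` type `K`, `t = 2` type `E` -/
def sTab : List SPc := [
  ⟨1, 46, 1, 36, 2, 0, 1, 0, 1⟩, ⟨1, 36, 1, 26, 1, 0, 1, 0, 1⟩, ⟨1, 26, 1, 18, 0, 1, 0, 0, 0⟩,
  ⟨1, 13, 1, 12, 0, 2, 1, 0, 0⟩, ⟨5, 46, 1, 9, 2, 1, 5, 3, 3⟩, ⟨1, 9, 3, 26, 1, 0, 4, 1, 3⟩,
  ⟨3, 26, 1, 8, 0, 3, 1, 0, 0⟩, ⟨2, 13, 1, 6, 0, 4, 2, 0, 0⟩, ⟨1, 6, 3, 16, 1, 1, 6, 2, 5⟩,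
  ⟨3, 16, 5, 26, 2, 3, 8, 6, 5⟩, ⟨5, 26, 7, 36, 0, 5, 3, 0, 0⟩, ⟨3, 13, 1, 4, 0, 6, 3, 0, 0⟩,
  ⟨6, 23, 7, 26, 2, 4, 12, 9, 7⟩, ⟨7, 26, 5, 18, 0, 7, 4, 0, 0⟩, ⟨4, 13, 5, 16, 0, 8, 4, 0, 0⟩,
  ⟨15, 46, 1, 3, 2, 5, 15, 11, 9⟩, ⟨1, 3, 9, 26, 1, 2, 12, 5, 9⟩, ⟨9, 26, 13, 36, 0, 9, 5, 0, 0⟩,
  ⟨5, 13, 7, 18, 0, 10, 6, 0, 0⟩, ⟨19, 46, 5, 12, 2, 6, 19, 14, 11⟩,
  ⟨5, 12, 11, 26, 1, 2, 15, 6, 11⟩, ⟨11, 26, 7, 16, 0, 11, 6, 0, 0⟩,
  ⟨6, 13, 17, 36, 0, 12, 7, 0, 0⟩, ⟨7, 13, 5, 9, 0, 14, 8, 0, 0⟩, ⟨5, 9, 9, 16, 1, 3, 20, 8, 15⟩,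
  ⟨13, 23, 15, 26, 2, 9, 26, 20, 15⟩, ⟨15, 26, 7, 12, 0, 15, 9, 0, 0⟩,
  ⟨8, 13, 5, 8, 0, 16, 9, 0, 0⟩, ⟨29, 46, 23, 36, 2, 10, 29, 22, 17⟩,
  ⟨15, 23, 17, 26, 2, 10, 30, 23, 17⟩, ⟨17, 26, 2, 3, 0, 17, 10, 0, 0⟩,
  ⟨9, 13, 25, 36, 0, 18, 11, 0, 0⟩, ⟨33, 46, 13, 18, 2, 11, 33, 25, 19⟩,
  ⟨13, 18, 19, 26, 1, 4, 26, 11, 19⟩, ⟨19, 26, 3, 4, 0, 19, 11, 0, 0⟩,
  ⟨10, 13, 7, 9, 0, 20, 12, 0, 0⟩, ⟨37, 46, 29, 36, 2, 12, 37, 28, 21⟩,
  ⟨29, 36, 21, 26, 1, 4, 29, 12, 21⟩, ⟨21, 26, 13, 16, 0, 21, 12, 0, 0⟩,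
  ⟨11, 13, 31, 36, 0, 22, 13, 0, 0⟩, ⟨31, 36, 7, 8, 1, 5, 31, 13, 23⟩,
  ⟨7, 8, 23, 26, 2, 14, 40, 31, 23⟩, ⟨23, 26, 8, 9, 0, 23, 14, 0, 0⟩,
  ⟨12, 13, 15, 16, 0, 24, 14, 0, 0⟩, ⟨15, 16, 17, 18, 2, 15, 43, 33, 25⟩,
  ⟨22, 23, 25, 26, 2, 15, 44, 34, 25⟩, ⟨25, 26, 35, 36, 0, 25, 15, 0, 0⟩]

theorem sTab_ok : ∀ P ∈ sTab, P.Ok := by decide +kernel

theorem sTab_bf : sTab.Pairwise SPc.Bf := by decide +kernel

/-! ### one piece -/

private theorem sset_low {b a w i m k p : ℕ} (hb : 0 < b) (h : p * (b * m + a) ≤ b * k)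
    (hi : i * b ≤ w * a) : p * (w * m + i) ≤ w * k := by
  refine Nat.le_of_mul_le_mul_left ?_ hb
  calc b * (p * (w * m + i)) = p * (w * b * m) + p * (i * b) := by ring
    _ ≤ p * (w * b * m) + p * (w * a) := Nat.add_le_add_left (Nat.mul_le_mul_left _ hi) _
    _ = w * (p * (b * m + a)) := by ring
    _ ≤ w * (b * k) := Nat.mul_le_mul_left _ h
    _ = b * (w * k) := by ring

private theorem sset_up {d c w i m k p : ℕ} (hw : 0 < w)
    (h : d * k < p * (d * m + c)) (hi : w * c ≤ i * d) : w * k < p * (w * m + i) := by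
  refine Nat.lt_of_mul_lt_mul_left (a := d) ?_
  calc d * (w * k) = w * (d * k) := by ring
    _ < w * (p * (d * m + c)) := Nat.mul_lt_mul_of_pos_left h hw
    _ = p * (w * d * m) + p * (w * c) := by ring
    _ ≤ p * (w * d * m) + p * (i * d) := Nat.add_le_add_left (Nat.mul_le_mul_left _ hi) _
    _ = d * (p * (w * m + i)) := by ring

private theorem sset_mod {w i m k p : ℕ} (h1 : p * (w * m + i) ≤ w * k)
    (h2 : w * k < p * (w * m + (i + 1))) : (w * k) % p + p * (w * m + i) = w * k := by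
  have h3 : w * k / p = w * m + i := by
    apply Nat.div_eq_of_lt_le
    · rw [mul_comm (w * m + i) p]
      exact h1
    · rw [mul_comm (w * m + i + 1) p]
      exact h2
  have h4 := Nat.mod_add_div (w * k) p
  rw [h3] at h4
  exact h4

/-- the set of pairs `(k, p)` with `m + a/b ≤ k/p < m + c/d` -/
abbrev SPc.Cnd (P : SPc) (m k p : ℕ) : Prop :=
  p * (P.b * m + P.a) ≤ P.b * k ∧ P.d * k < p * (P.d * m + P.c)

private theorem sset_fl {P : SPc} (hb : 0 < P.b) {m k p w i : ℕ} (hw : 0 < w)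
    (h : P.Cnd m k p) (hf : P.Fl w i) : (w * k) % p + p * (w * m + i) = w * k :=
  sset_mod (sset_low hb h.1 hf.1) (sset_up hw h.2 hf.2)

theorem sset_piece {P : SPc} (hP : P.Ok) {m k p : ℕ} (hodd : p % 2 = 1)
    (h : P.Cnd m k p) : SavNu k p ∨ SavKap k p ∨ SavE k p := by
  obtain ⟨hb, hc, hd, -, -, hP⟩ := hP
  rcases hP with ⟨h1, h2, h3, h4⟩ | ⟨h1, h2, h3, h4, h5, h6⟩ | ⟨h1, h2, h3, h4, h5, h6⟩
  · left
    have e1 := sset_fl hb (by norm_num) h h1
    have e2 := sset_fl hb (by norm_num) h h2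
    have e3 := sset_up (w := 36) (by norm_num) h.2 h4
    have e4 : 2 * P.x - P.y + P.y = 2 * P.x := Nat.sub_add_cancel h3
    have e5 : p * (2 * P.x - P.y) + p * P.y = 2 * (p * P.x) := by
      rw [← mul_add, e4]
      ring
    unfold SavNu
    rw [mul_add] at e1 e2 e3
    have e6 : p * (26 * m) = 26 * (p * m) := by ring
    have e7 : p * (16 * m) = 16 * (p * m) := by ring
    have e8 : p * (36 * m) = 36 * (p * m) := by ring
    omega
  · right
    left
    have e1 := sset_fl hb (by norm_num) h h1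
    have e2 := sset_fl hb (by norm_num) h h2
    have e3 := sset_fl hb (by norm_num) h h3
    have e4 := sset_up (w := 26) (by norm_num) h.2 h5
    have hpar : (p * (26 * m + P.o)) % 2 = 1 := by
      rw [Nat.mul_mod, hodd]
      omega
    obtain ⟨r₃, hr₃⟩ : ∃ r₃, 26 * k + 2 * r₃ + 1 = p * (26 * m + P.o) :=
      ⟨(p * (26 * m + P.o) - 26 * k - 1) / 2, by omega⟩
    refine ⟨r₃, 13 * m + P.o / 2, ?_, ?_⟩
    · rw [hr₃]
      congr 1
      omega
    · have e5 : p * P.o + p * P.z ≤ p * P.x + p * P.y := by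
        rw [← mul_add, ← mul_add]
        exact Nat.mul_le_mul_left _ h6
      rw [mul_add] at e1 e2 e3 hr₃
      have e6 : p * (26 * m) = 26 * (p * m) := by ring
      have e7 : p * (16 * m) = 16 * (p * m) := by ring
      have e8 : p * (36 * m) = 36 * (p * m) := by ring
      have e9 : p * (6 * m) = 6 * (p * m) := by ring
      omega
  · right
    right
    have e1 := sset_fl hb (by norm_num) h h1
    have e2 := sset_fl hb (by norm_num) h h2
    have e3 := sset_fl hb (by norm_num) h h3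
    have e4 := sset_up (w := 26) (by norm_num) h.2 h5
    have hpar : (p * (26 * m + P.o)) % 2 = 1 := by
      rw [Nat.mul_mod, hodd]
      omega
    obtain ⟨r₃, hr₃⟩ : ∃ r₃, 26 * k + 2 * r₃ + 1 = p * (26 * m + P.o) :=
      ⟨(p * (26 * m + P.o) - 26 * k - 1) / 2, by omega⟩
    refine ⟨r₃, 13 * m + P.o / 2, ?_, ?_⟩
    · rw [hr₃]
      congr 1
      omega
    · have e5 : p * P.o + p * P.z ≤ p * P.x + p * P.y := by
        rw [← mul_add, ← mul_add]
        exact Nat.mul_le_mul_left _ h6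
      rw [mul_add] at e1 e2 e3 hr₃
      have e6 : p * (26 * m) = 26 * (p * m) := by ring
      have e7 : p * (16 * m) = 16 * (p * m) := by ring
      have e8 : p * (36 * m) = 36 * (p * m) := by ring
      have e9 : p * (46 * m) = 46 * (p * m) := by ring
      omega

/-! ### the set of primes -/

open Classical in
/-- the saved primes -/
noncomputable def SK (k : ℕ) : Finset ℕ :=
  (Finset.range (52 * k + 1)).filter (fun p => p.Prime ∧ p ≠ 2 ∧ 26 * k + 2 * p + 3 ≤ p ^ 2 ∧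
    52 * k + 4 ≤ p ^ 2 ∧ (SavNu k p ∨ SavKap k p ∨ SavE k p ∨ SavLog k p))

open Classical in
theorem mem_SK {k p : ℕ} : p ∈ SK k ↔ p < 52 * k + 1 ∧ (p.Prime ∧ p ≠ 2 ∧
    26 * k + 2 * p + 3 ≤ p ^ 2 ∧ 52 * k + 4 ≤ p ^ 2 ∧
    (SavNu k p ∨ SavKap k p ∨ SavE k p ∨ SavLog k p)) := by
  unfold SK
  rw [Finset.mem_filter, Finset.mem_range]

private theorem sset_le {P : SPc} (hP : P.Ok) {m k p : ℕ} (h : P.Cnd m k p) : p ≤ 46 * k := by
  obtain ⟨hb, hc, hd, h46, -, -⟩ := hP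
  have h1 : p * P.a ≤ P.b * k :=
    (Nat.mul_le_mul_left p (Nat.le_add_left P.a (P.b * m))).trans h.1
  have h2 : p * P.a ≤ 46 * P.a * k := h1.trans (Nat.mul_le_mul_right k h46)
  have ha : 0 < P.a := by omega
  refine Nat.le_of_mul_le_mul_left ?_ ha
  calc P.a * p = p * P.a := mul_comm _ _
    _ ≤ 46 * P.a * k := h2
    _ = P.a * (46 * k) := by ring

private theorem sset_lt {P : SPc} (hP : P.Ok) {m k p : ℕ} (h : P.Cnd m k p) :
    p * m ≤ k ∧ k < p * (m + 1) := by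
  obtain ⟨hb, hc, hd, h46, hcd, -⟩ := hP
  constructor
  · have h1 := sset_low (w := 1) (i := 0) hb h.1 (by omega)
    rw [one_mul, one_mul, add_zero] at h1
    exact h1
  · have h1 := sset_up (w := 1) (i := 1) (by norm_num) h.2 (by omega)
    rw [one_mul, one_mul] at h1
    exact h1

theorem sset_mem {P : SPc} (hP : P.Ok) {M m k p : ℕ} (hm : m < M)
    (hk : (52 * M + 4) * M ≤ k) (hp : p.Prime) (h : P.Cnd m k p) : p ∈ SK k := by
  have h1 := sset_le hP h
  obtain ⟨-, h2⟩ := sset_lt hP h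
  have h3 : k < p * M := lt_of_lt_of_le h2 (Nat.mul_le_mul_left _ hm)
  have h4 : 52 * M + 4 < p := by
    by_contra hcon
    have h5 : p * M ≤ (52 * M + 4) * M := Nat.mul_le_mul_right _ (not_lt.1 hcon)
    omega
  have hM : 1 ≤ M := by omega
  have hodd : p % 2 = 1 := (hp.eq_two_or_odd).resolve_left (by omega)
  have h5 : p * (52 * M + 4) ≤ p ^ 2 := by
    rw [sq]
    exact Nat.mul_le_mul_left _ h4.le
  have h6 : p * (52 * M + 4) = 52 * (p * M) + 4 * p := by ring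
  have h7 : p ≤ p * M := Nat.le_mul_of_pos_right _ hM
  rw [mem_SK]
  refine ⟨by omega, hp, by omega, by omega, by omega, ?_⟩
  rcases sset_piece hP hodd h with h8 | h8 | h8
  · exact Or.inl h8
  · exact Or.inr (Or.inl h8)
  · exact Or.inr (Or.inr (Or.inl h8))

theorem sset_mem_log {k p : ℕ} (hk : 1 ≤ k) (hp : p.Prime) (h1 : 46 * k < p) (h2 : p ≤ 52 * k) :
    p ∈ SK k := by
  have h3 : p * (46 * k + 1) ≤ p ^ 2 := by
    rw [sq]
    exact Nat.mul_le_mul_left _ h1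
  have h4 : 47 * (46 * k + 1) ≤ p * (46 * k + 1) := Nat.mul_le_mul_right _ (by omega)
  have h5 : p * 47 ≤ p * (46 * k + 1) := Nat.mul_le_mul_left _ (by omega)
  rw [mem_SK]
  exact ⟨by omega, hp, by omega, by omega, by omega, Or.inr (Or.inr (Or.inr ⟨h1, h2⟩))⟩

theorem sset_theta {P : SPc} (hP : P.Ok) {M m k : ℕ} (hm : m < M)
    (hk : (52 * M + 4) * M ≤ k) :
    Chebyshev.theta (((P.b : ℝ) / (P.b * m + P.a)) * k + 0)
      - Chebyshev.theta (((P.d : ℝ) / (P.d * m + P.c)) * k + 0) ≤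
      ∑ p ∈ (SK k).filter (fun p => P.Cnd m k p), Real.log p := by
  obtain ⟨hb, hc, hd, h46, hcd, -⟩ := id hP
  have ha : 0 < P.a := by omega
  refine theta_sub_le _ _ _ fun p hp h1 h2 => ?_
  have e1 : P.d * k < p * (P.d * m + P.c) := by
    have h3 : (0 : ℝ) < (P.d : ℝ) * m + P.c := by positivity
    have h4 : ((P.d : ℝ) * k) / ((P.d : ℝ) * m + P.c) < p := by
      calc _ = ((P.d : ℝ) / (P.d * m + P.c)) * k + 0 := by ring
        _ < p := h1
    rw [div_lt_iff₀ h3] at h4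
    exact_mod_cast h4
  have e2 : p * (P.b * m + P.a) ≤ P.b * k := by
    have h3 : (0 : ℝ) < (P.b : ℝ) * m + P.a := by positivity
    have h4 : (p : ℝ) ≤ ((P.b : ℝ) * k) / ((P.b : ℝ) * m + P.a) := by
      calc (p : ℝ) ≤ ((P.b : ℝ) / (P.b * m + P.a)) * k + 0 := h2
        _ = _ := by ring
    rw [le_div_iff₀ h3] at h4
    exact_mod_cast h4
  rw [Finset.mem_filter]
  exact ⟨sset_mem hP hm hk hp ⟨e2, e1⟩, e2, e1⟩

theorem sset_theta_log {k : ℕ} (hk : 1 ≤ k) :
    Chebyshev.theta (52 * k + 0) - Chebyshev.theta (46 * k + 0) ≤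
      ∑ p ∈ (SK k).filter (fun p => 46 * k < p), Real.log p := by
  refine theta_sub_le _ _ _ fun p hp h1 h2 => ?_
  rw [add_zero] at h1 h2
  have e1 : 46 * k < p := by exact_mod_cast h1
  have e2 : p ≤ 52 * k := by exact_mod_cast h2
  rw [Finset.mem_filter]
  exact ⟨sset_mem_log hk hp e1 e2, e1⟩

/-! ### disjointness -/

private theorem sset_list_one {α : Type} (R : α → α → Prop) (q : α → Prop) [DecidablePred q]
    {v : ℝ} (hv : 0 ≤ v) (hR : ∀ P Q, R P Q → q P → ¬ q Q) :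
    ∀ l : List α, l.Pairwise R → (l.map (fun P => if q P then v else 0)).sum ≤ v
  | [], _ => by simpa using hv
  | P :: l, hl => by
    rw [List.pairwise_cons] at hl
    rw [List.map_cons, List.sum_cons]
    by_cases hq : q P
    · have h1 : (l.map (fun P => if q P then v else 0)).sum = 0 := by
        apply List.sum_eq_zero
        intro y hy
        rw [List.mem_map] at hy
        obtain ⟨Q, hQ, rfl⟩ := hy
        exact if_neg (hR P Q (hl.1 Q hQ) hq)
      rw [h1, if_pos hq, add_zero]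
    · rw [if_neg hq, zero_add]
      exact sset_list_one R q hv hR l hl.2

private theorem sset_list_zero {α : Type} (q : α → Prop) [DecidablePred q] (v : ℝ)
    (l : List α) (h : ∀ P ∈ l, ¬ q P) : (l.map (fun P => if q P then v else 0)).sum = 0 := by
  apply List.sum_eq_zero
  intro y hy
  rw [List.mem_map] at hy
  obtain ⟨Q, hQ, rfl⟩ := hy
  exact if_neg (h Q hQ)

private theorem sset_bf {P Q : SPc} (h : P.Bf Q) {m k p : ℕ} (hP : P.Cnd m k p) :
    ¬ Q.Cnd m k p := by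
  intro hQ
  obtain ⟨hb, h1⟩ := h
  have h2 : Q.b * (P.d * k) < Q.b * (p * (P.d * m + P.c)) := Nat.mul_lt_mul_of_pos_left hP.2 hb
  have h3 : p * (P.c * Q.b) ≤ p * (Q.a * P.d) := Nat.mul_le_mul_left _ h1
  have h4 : P.d * (p * (Q.b * m + Q.a)) ≤ P.d * (Q.b * k) := Nat.mul_le_mul_left _ hQ.1
  have h5 : Q.b * (p * (P.d * m + P.c)) = p * (Q.b * P.d * m) + p * (P.c * Q.b) := by ring
  have h6 : P.d * (p * (Q.b * m + Q.a)) = p * (Q.b * P.d * m) + p * (Q.a * P.d) := by ring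
  have h7 : Q.b * (P.d * k) = P.d * (Q.b * k) := by ring
  omega

private theorem sset_one (M k p : ℕ) {v : ℝ} (hv : 0 ≤ v) :
    ∑ m ∈ Finset.range M, (sTab.map (fun P => if P.Cnd m k p then v else 0)).sum +
      (if 46 * k < p then v else 0) ≤ v := by
  by_cases h : 46 * k < p
  · rw [if_pos h]
    have h1 : ∑ m ∈ Finset.range M, (sTab.map (fun P => if P.Cnd m k p then v else 0)).sum = 0 := by
      apply Finset.sum_eq_zero
      intro m _
      apply sset_list_zero (fun P : SPc => P.Cnd m k p)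
      intro P hP hc
      have := sset_le (sTab_ok P hP) hc
      omega
    rw [h1, zero_add]
  · rw [if_neg h, add_zero]
    have h1 : ∀ m ∈ Finset.range M, (sTab.map (fun P => if P.Cnd m k p then v else 0)).sum ≤
        if k / p = m then v else 0 := by
      intro m _
      by_cases hm : k / p = m
      · rw [if_pos hm]
        exact sset_list_one SPc.Bf (fun P : SPc => P.Cnd m k p) hv
          (fun P Q hPQ hP => sset_bf hPQ hP) sTab sTab_bf
      · rw [if_neg hm]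
        refine le_of_eq (sset_list_zero (fun P : SPc => P.Cnd m k p) v sTab ?_)
        intro P hP hc
        apply hm
        obtain ⟨h3, h4⟩ := sset_lt (sTab_ok P hP) hc
        apply Nat.div_eq_of_lt_le
        · rw [mul_comm]
          exact h3
        · rw [mul_comm]
          exact h4
    refine (Finset.sum_le_sum h1).trans ?_
    rw [Finset.sum_ite_eq]
    split_ifs
    · exact le_rfl
    · exact hv

private theorem sset_swap {α : Type} (S : Finset ℕ) (g : α → ℕ → ℝ) : ∀ l : List α,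
    (l.map (fun P => ∑ p ∈ S, g P p)).sum = ∑ p ∈ S, (l.map (fun P => g P p)).sum
  | [] => by simp
  | P :: l => by
    simp only [List.map_cons, List.sum_cons]
    rw [sset_swap S g l, Finset.sum_add_distrib]

private theorem sset_list_le {α : Type} (f g : α → ℝ) : ∀ l : List α,
    (∀ P ∈ l, f P ≤ g P) → (l.map f).sum ≤ (l.map g).sum
  | [], _ => le_rfl
  | P :: l, h => by
    simp only [List.map_cons, List.sum_cons]
    exact add_le_add (h P List.mem_cons_self)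
      (sset_list_le f g l fun Q hQ => h Q (List.mem_cons_of_mem _ hQ))

theorem sset_sum {M k : ℕ} (hk : (52 * M + 4) * M ≤ k) (hk1 : 1 ≤ k) :
    ∑ m ∈ Finset.range M, (sTab.map (fun P =>
      Chebyshev.theta (((P.b : ℝ) / (P.b * m + P.a)) * k + 0)
        - Chebyshev.theta (((P.d : ℝ) / (P.d * m + P.c)) * k + 0))).sum +
      (Chebyshev.theta (52 * k + 0) - Chebyshev.theta (46 * k + 0)) ≤
      ∑ p ∈ SK k, Real.log p := by
  have h1 : ∑ m ∈ Finset.range M, (sTab.map (fun P =>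
      Chebyshev.theta (((P.b : ℝ) / (P.b * m + P.a)) * k + 0)
        - Chebyshev.theta (((P.d : ℝ) / (P.d * m + P.c)) * k + 0))).sum ≤
      ∑ m ∈ Finset.range M, (sTab.map (fun P =>
        ∑ p ∈ SK k, if P.Cnd m k p then Real.log p else 0)).sum := by
    refine Finset.sum_le_sum fun m hm => sset_list_le _ _ _ fun P hP => ?_
    refine (sset_theta (sTab_ok P hP) (Finset.mem_range.1 hm) hk).trans (le_of_eq ?_)
    rw [Finset.sum_filter]
  have h2 : Chebyshev.theta (52 * k + 0) - Chebyshev.theta (46 * k + 0) ≤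
      ∑ p ∈ SK k, if 46 * k < p then Real.log p else 0 := by
    refine (sset_theta_log hk1).trans (le_of_eq ?_)
    rw [Finset.sum_filter]
  refine (add_le_add h1 h2).trans ?_
  have h3 : ∑ m ∈ Finset.range M, (sTab.map (fun P =>
        ∑ p ∈ SK k, if P.Cnd m k p then Real.log p else 0)).sum =
      ∑ p ∈ SK k, ∑ m ∈ Finset.range M,
        (sTab.map (fun P => if P.Cnd m k p then Real.log p else 0)).sum := by
    rw [Finset.sum_comm]
    refine Finset.sum_congr rfl fun m _ => ?_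
    exact sset_swap (SK k) (fun (P : SPc) p => if P.Cnd m k p then Real.log p else 0) sTab
  rw [h3, ← Finset.sum_add_distrib]
  refine Finset.sum_le_sum fun p _ => ?_
  exact sset_one M k p (Real.log_natCast_nonneg p)

/-! ### the numerical sum -/

/-- lower sums -/
def sAccL : ℕ → ℕ
  | 0 => 0
  | M + 1 => sAccL M + (sTab.map (fun P => 1000000000000 * P.b / (P.b * M + P.a))).sum

/-- upper sums -/
def sAccU : ℕ → ℕ
  | 0 => 0
  | M + 1 => sAccU M + (sTab.map (fun P => 1000000000000 * P.d / (P.d * M + P.c) + 1)).sum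

theorem sAcc_num : 33508500000000 + sAccU 300 ≤ sAccL 300 := by decide +kernel

private theorem sset_num_one {P : SPc} (hP : P.Ok) (m : ℕ) :
    ((1000000000000 * P.b / (P.b * m + P.a) : ℕ) : ℝ) -
      ((1000000000000 * P.d / (P.d * m + P.c) + 1 : ℕ) : ℝ) ≤
      1000000000000 * ((P.b : ℝ) / (P.b * m + P.a) - (P.d : ℝ) / (P.d * m + P.c)) := by
  obtain ⟨hb, hc, hd, h46, hcd, -⟩ := hP
  have h1 : ((1000000000000 * P.b / (P.b * m + P.a) : ℕ) : ℝ) ≤
      1000000000000 * ((P.b : ℝ) / (P.b * m + P.a)) := by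
    refine (Nat.cast_div_le (α := ℝ)).trans (le_of_eq ?_)
    push_cast
    ring
  have h2 : 1000000000000 * ((P.d : ℝ) / (P.d * m + P.c)) ≤
      ((1000000000000 * P.d / (P.d * m + P.c) + 1 : ℕ) : ℝ) := by
    have h3 : 0 < P.d * m + P.c := by omega
    have h4 := Nat.lt_mul_div_succ (1000000000000 * P.d) h3
    have h5 : (0 : ℝ) < (P.d : ℝ) * m + P.c := by exact_mod_cast h3
    rw [← mul_div_assoc, div_le_iff₀ h5]
    have h6 : ((1000000000000 * P.d : ℕ) : ℝ) ≤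
        (((P.d * m + P.c) * (1000000000000 * P.d / (P.d * m + P.c) + 1) : ℕ) : ℝ) := by
      exact_mod_cast h4.le
    push_cast at h6 ⊢
    linarith
  rw [mul_sub]
  linarith

private theorem sset_num_list (m : ℕ) : ∀ l : List SPc, (∀ P ∈ l, P.Ok) →
    (((l.map (fun P => 1000000000000 * P.b / (P.b * m + P.a))).sum : ℕ) : ℝ) -
      (((l.map (fun P => 1000000000000 * P.d / (P.d * m + P.c) + 1)).sum : ℕ) : ℝ) ≤
      1000000000000 * (l.map (fun P : SPc =>
        (P.b : ℝ) / (P.b * m + P.a) - (P.d : ℝ) / (P.d * m + P.c))).sum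
  | [], _ => by simp
  | P :: l, h => by
    simp only [List.map_cons, List.sum_cons]
    have h1 := sset_num_one (h P List.mem_cons_self) m
    have h2 := sset_num_list m l fun Q hQ => h Q (List.mem_cons_of_mem _ hQ)
    rw [Nat.cast_add, Nat.cast_add, mul_add]
    linarith

private theorem sset_num_acc (M : ℕ) : ((sAccL M : ℕ) : ℝ) - ((sAccU M : ℕ) : ℝ) ≤
    1000000000000 * ∑ m ∈ Finset.range M, (sTab.map (fun P : SPc =>
      (P.b : ℝ) / (P.b * m + P.a) - (P.d : ℝ) / (P.d * m + P.c))).sum := by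
  induction M with
  | zero => simp [sAccL, sAccU]
  | succ M ih =>
    rw [Finset.sum_range_succ, mul_add]
    have h1 := sset_num_list M sTab sTab_ok
    unfold sAccL sAccU
    rw [Nat.cast_add, Nat.cast_add]
    linarith

/-- number of periods used -/
@[irreducible] def sMM : ℕ := 300

theorem sMM_eq : sMM = 300 := by
  unfold sMM
  rfl

theorem sset_num : (335085 : ℝ) / 10000 ≤ ∑ m ∈ Finset.range sMM, (sTab.map (fun P : SPc =>
      (P.b : ℝ) / (P.b * m + P.a) - (P.d : ℝ) / (P.d * m + P.c))).sum := by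
  have h1 := sset_num_acc sMM
  have h3 : 33508500000000 + sAccU sMM ≤ sAccL sMM := by
    rw [sMM_eq]
    exact sAcc_num
  have h2 : (33508500000000 : ℝ) + ((sAccU sMM : ℕ) : ℝ) ≤ ((sAccL sMM : ℕ) : ℝ) := by
    exact_mod_cast h3
  linarith

/-! ### the theorem -/

private theorem sset_list_scale (f g : SPc → ℝ) (x : ℝ) (hx : x ≠ 0) : ∀ l : List SPc,
    (l.map (fun P => f P / x - g P / x)).sum * x = (l.map (fun P => f P - g P)).sum
  | [] => by simp
  | P :: l => by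
    simp only [List.map_cons, List.sum_cons]
    rw [add_mul, sset_list_scale f g x hx l, sub_mul, div_mul_cancel₀ _ hx, div_mul_cancel₀ _ hx]

theorem exists_savings_set_K : ∃ S : ℕ → Finset ℕ,
    (∀ k, ∀ p ∈ S k, p.Prime ∧ p ≠ 2 ∧ p ∣ Nat.lcmUpto (52 * k)) ∧
    (∀ k, ∀ p ∈ S k, padicNorm p (AK k) ≤ 1) ∧
    (∀ᶠ k : ℕ in atTop, Real.log (Nat.lcmUpto (52 * k)) - ∑ p ∈ S k, Real.log p
      ≤ (12492 / 1000) * k) := by
  refine ⟨SK, ?_, ?_, ?_⟩
  · intro k p hp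
    rw [mem_SK] at hp
    exact ⟨hp.2.1, hp.2.2.1, dvd_lcmUpto hp.2.1.one_lt.le (by omega)⟩
  · intro k p hp
    rw [mem_SK] at hp
    exact AK_sav k p hp.2.1 hp.2.2.1 hp.2.2.2.1 hp.2.2.2.2.1 hp.2.2.2.2.2
  · have hL := tendsto_log_lcmUpto 52
    have hT : Tendsto (fun k : ℕ => ∑ m ∈ Finset.range sMM, (sTab.map (fun P : SPc =>
        Chebyshev.theta (((P.b : ℝ) / (P.b * m + P.a)) * k + 0) / k
          - Chebyshev.theta (((P.d : ℝ) / (P.d * m + P.c)) * k + 0) / k)).sum) atTop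
        (𝓝 (∑ m ∈ Finset.range sMM, (sTab.map (fun P : SPc =>
          (P.b : ℝ) / (P.b * m + P.a) - (P.d : ℝ) / (P.d * m + P.c))).sum)) := by
      refine tendsto_finsetSum _ fun m _ => tendsto_list_sum _ fun P hP => ?_
      obtain ⟨hb, hc, hd, h46, hcd, -⟩ := sTab_ok P hP
      have ha : 0 < P.a := by omega
      exact (theta_affine_tendsto _ (by positivity)).sub (theta_affine_tendsto _ (by positivity))
    have hG : Tendsto (fun k : ℕ => Chebyshev.theta (52 * k + 0) / k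
        - Chebyshev.theta (46 * k + 0) / k) atTop (𝓝 (52 - 46)) :=
      (theta_affine_tendsto _ (by positivity)).sub (theta_affine_tendsto _ (by positivity))
    have h1 := (hL.sub hT).sub hG
    have h2 := sset_num
    have h4 : ((52 : ℕ) : ℝ) - (∑ m ∈ Finset.range sMM, (sTab.map (fun P : SPc =>
          (P.b : ℝ) / (P.b * m + P.a) - (P.d : ℝ) / (P.d * m + P.c))).sum) - (52 - 46)
        < 12492 / 1000 := by
      push_cast
      linarith
    filter_upwards [h1.eventually_lt_const h4, eventually_ge_atTop ((52 * sMM + 4) * sMM),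
      eventually_ge_atTop 1] with k hk1 hk2 hk0
    have hkpos : (0 : ℝ) < k := by exact_mod_cast hk0
    have h5 := sset_sum hk2 hk0
    have h6 : (∑ m ∈ Finset.range sMM, (sTab.map (fun P : SPc =>
        Chebyshev.theta (((P.b : ℝ) / (P.b * m + P.a)) * k + 0) / k
          - Chebyshev.theta (((P.d : ℝ) / (P.d * m + P.c)) * k + 0) / k)).sum) * k =
        ∑ m ∈ Finset.range sMM, (sTab.map (fun P : SPc =>
          Chebyshev.theta (((P.b : ℝ) / (P.b * m + P.a)) * k + 0)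
            - Chebyshev.theta (((P.d : ℝ) / (P.d * m + P.c)) * k + 0))).sum := by
      rw [Finset.sum_mul]
      refine Finset.sum_congr rfl fun m _ => ?_
      exact sset_list_scale _ _ _ hkpos.ne' sTab
    have h9 := mul_lt_mul_of_pos_right hk1 hkpos
    have h10 : (Real.log (Nat.lcmUpto (52 * k + 2)) / k) * k =
        Real.log (Nat.lcmUpto (52 * k + 2)) := by
      field_simp
    have h11 : (Chebyshev.theta (52 * k + 0) / k - Chebyshev.theta (46 * k + 0) / k) * k =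
        Chebyshev.theta (52 * k + 0) - Chebyshev.theta (46 * k + 0) := by
      rw [sub_mul, div_mul_cancel₀ _ hkpos.ne', div_mul_cancel₀ _ hkpos.ne']
    rw [sub_mul, sub_mul, h10, h6, h11] at h9
    have hpos : ∀ n : ℕ, 0 < Nat.lcmUpto n := fun n => Nat.pos_of_ne_zero (by
      unfold Nat.lcmUpto
      rw [Ne, Finset.lcm_eq_zero_iff]
      rintro ⟨x, hx, hx0⟩
      rw [Finset.mem_Icc] at hx
      simp only [id] at hx0
      omega)
    have h12 : Real.log (Nat.lcmUpto (52 * k)) ≤ Real.log (Nat.lcmUpto (52 * k + 2)) := by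
      apply Real.log_le_log
      · exact_mod_cast hpos (52 * k)
      · have h13 : Nat.lcmUpto (52 * k) ∣ Nat.lcmUpto (52 * k + 2) := by
          unfold Nat.lcmUpto
          apply Finset.lcm_mono
          intro x hx
          rw [Finset.mem_Icc] at hx ⊢
          omega
        exact_mod_cast Nat.le_of_dvd (hpos _) h13
    linarith

end Vale.Agent.P021
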