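import Vale.Agent.Lib.P021.Two
import Vale.Agent.Lib.P021V.Euler

/-!
# P021: 2-adic size, version with a loss
-/

namespace Vale.Agent.P021.Two

open Complex PowerSeries

theorem TT_main_loss {ρ : ℂ} (hρ : ρ ^ 2 = 1 + I) {s α H T : ℕ} (hs : 4 * (2 * α + 1) ≤ 2 ^ s)
    (hH : 4 * H ≤ 3 * α + 2 * T) (M : Polynomial ℤ) (B : ℤ) :
    TT s (C ((2 : ℂ) ^ T) *
      (lam * (evs (((Polynomial.X - Polynomial.C 2) ^ α * M).map (Int.castRingHom ℚ)) *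
      wz (-(2 * (H : ℤ))) - C ((B : ℤ) : ℂ)))) := by
  obtain ⟨r, hr⟩ : ∃ r, 6 * α + 4 * T = 8 * H + r := ⟨6 * α + 4 * T - 8 * H, by omega⟩
  have hρ0 := rho_ne hρ
  set u : ℂ⟦X⟧ := lam * (as⁻¹ ^ α * evs (M.map (Int.castRingHom ℚ)) * (as ^ 2 * bs⁻¹ ^ 2) ^ H)
    with hu_def
  have hu : u ∈ WW ρ := by
    refine (WW ρ).mul_mem (lam_mem hρ) ((WW ρ).mul_mem ((WW ρ).mul_mem
      ((WW ρ).pow_mem (asinv_mem hρ) _) (evs_int_mem hρ M)) ((WW ρ).pow_mem ((WW ρ).mul_mem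
      ((WW ρ).pow_mem (as_mem hρ) _) ((WW ρ).pow_mem (bsinv_mem hρ) _)) _))
  have h1 : evs (((Polynomial.X - Polynomial.C 2) ^ α * M).map (Int.castRingHom ℚ)) =
      (vs - 2) ^ α * evs (M.map (Int.castRingHom ℚ)) := by
    rw [Polynomial.map_mul, Polynomial.map_pow, Polynomial.map_sub, Polynomial.map_X,
      Polynomial.map_C, map_mul, map_pow, map_sub, evs_X, evs_C]
    have h2C : (C (2 : ℂ) : ℂ⟦X⟧) = 2 := map_ofNat C 2
    simp [h2C]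
  have h2 : wz (-(2 * (H : ℤ))) = (wsi ^ 2) ^ H := by
    rw [← pow_mul, ← wz_neg_nat]; push_cast; rfl
  have h3 : (C (ρ ^ 8) : ℂ⟦X⟧) ^ H * (wsi ^ 2) ^ H = (as ^ 2 * bs⁻¹ ^ 2) ^ H := by
    rw [← mul_pow, wsi_sq hρ]
  have hT2 : (2 : ℂ) ^ T = (-I) ^ T * (ρ ^ 4) ^ T := by
    rw [← mul_pow, rho_pow4 hρ]
    congr 1
    linear_combination 2 * I_mul_I
  have h4 : C ((2 : ℂ) ^ T) * (C (ρ ^ 6) : ℂ⟦X⟧) ^ α =
      C ((-I) ^ T * ρ ^ r) * (C (ρ ^ 8)) ^ H := by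
    rw [← map_pow, ← map_pow, ← map_mul, ← map_mul, hT2]
    congr 1
    have e : (ρ ^ 4) ^ T * (ρ ^ 6) ^ α = ρ ^ r * (ρ ^ 8) ^ H := by
      rw [← pow_mul, ← pow_mul, ← pow_mul, ← pow_add, ← pow_add]
      congr 1; omega
    linear_combination (-I) ^ T * e
  have h5 : C ((2 : ℂ) ^ T) *
      (lam * (evs (((Polynomial.X - Polynomial.C 2) ^ α * M).map (Int.castRingHom ℚ)) *
      wz (-(2 * (H : ℤ))))) = C ((-I) ^ T * ρ ^ r) * ((X ^ α * (1 + X) ^ α) * u) := by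
    rw [h1, h2, vs_sub_two hρ, mul_pow, mul_pow, mul_pow, hu_def, ← h3]
    linear_combination (lam * X ^ α * (1 + X) ^ α * as⁻¹ ^ α *
      evs (M.map (Int.castRingHom ℚ)) * (wsi ^ 2) ^ H) * h4
  have h6 : (X ^ α * (1 + X) ^ α) * u =
      ∑ m ∈ Finset.range (α + 1), C ((α.choose m : ℕ) : ℂ) * (X ^ (α + (α - m)) * u) := by
    rw [add_pow, Finset.mul_sum, Finset.sum_mul]
    refine Finset.sum_congr rfl fun m _ => ?_
    rw [one_pow, pow_add, map_natCast]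
    ring
  have h7 : C ((2 : ℂ) ^ T) *
      (lam * (evs (((Polynomial.X - Polynomial.C 2) ^ α * M).map (Int.castRingHom ℚ)) *
      wz (-(2 * (H : ℤ))) - C ((B : ℤ) : ℂ))) =
      C ((-I) ^ T * ρ ^ r) * (∑ m ∈ Finset.range (α + 1),
        C ((α.choose m : ℕ) : ℂ) * (X ^ (α + (α - m)) * u)) +
      C (-((2 : ℂ) ^ T * (B : ℂ))) * (X ^ 0 * lam) := by
    have hC : (C (-((2 : ℂ) ^ T * (B : ℂ))) : ℂ⟦X⟧) = -(C ((2 : ℂ) ^ T) * C ((B : ℤ) : ℂ)) := by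
      rw [map_neg, map_mul]
    rw [mul_sub, mul_sub, h5, h6, hC, pow_zero]
    generalize (∑ m ∈ Finset.range (α + 1),
        C ((α.choose m : ℕ) : ℂ) * (X ^ (α + (α - m)) * u)) = Z
    ring
  rw [h7]
  refine (TT.smul (OD.mul_mem (OD.pow_mem (OD.neg_mem I_mem) _) (OD.pow_mem (rho_mem hρ) _))
    (TT.sum _ fun m hm => ?_)).add
    (TT.smul (OD.neg_mem (OD.mul_mem (OD.pow_mem two_mem _) (intCast_mem OD B)))
      (TT_of_mem hρ (lam_mem hρ) hs (by omega)))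
  exact TT.smul (natCast_mem OD _) (TT_of_mem hρ hu hs (by omega))

end Vale.Agent.P021.Two

namespace Vale.Agent.P021

open Polynomial

theorem LA_two_adic_loss : ∃ c : ℕ, ∀ (α H T : ℕ) (M : ℤ[X]), 4 * H ≤ 3 * α + 2 * T →
    padicNorm 2 (LA H (((X - C 2) ^ α * M).map (Int.castRingHom ℚ))) ≤ c * (α + 1) * 2 ^ T := by
  refine ⟨32, ?_⟩
  intro α H T M hH
  obtain ⟨ρ, hρ⟩ : ∃ ρ : ℂ, ρ ^ 2 = 1 + Complex.I :=
    IsAlgClosed.exists_pow_nat_eq _ (by norm_num)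
  obtain ⟨B, hB⟩ := LB_int H ((X - C 2) ^ α * M)
  obtain ⟨E, z, hE, hd, hv⟩ := Two.exists_rep H (((X - C 2) ^ α * M).map (Int.castRingHom ℚ))
  rw [hB] at hd
  set s := Nat.log 2 (4 * (2 * α + 1)) + 1 with hs_def
  have hs : 4 * (2 * α + 1) ≤ 2 ^ s := (Nat.lt_pow_succ_log_self (by norm_num) _).le
  have hs' : 2 ^ s ≤ 8 * (2 * α + 1) := by
    rw [hs_def, pow_succ]
    have := Nat.pow_log_le_self 2 (x := 4 * (2 * α + 1)) (by omega)
    omega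
  have hT := Two.TT_main_loss hρ hs hH M B
  have hcoef : PowerSeries.C ((2 : ℂ) ^ (s + T)) *
      (E - PowerSeries.C (PowerSeries.constantCoeff E)) ∈ Two.SS := by
    rw [Two.mem_SS]
    intro n
    rw [PowerSeries.coeff_C_mul, map_sub]
    cases n with
    | zero => simp [Two.OD.zero_mem]
    | succ n =>
      have h1 := hT n
      have h2 := congrArg (PowerSeries.coeff n) hd
      rw [PowerSeries.coeff_derivative] at h2
      rw [PowerSeries.coeff_C, if_neg (by omega), sub_zero]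
      have h3 : ((n : ℂ) + 1) ≠ 0 := by exact_mod_cast Nat.succ_ne_zero n
      have h4 : ((B : ℚ) : ℂ) = ((B : ℤ) : ℂ) := by simp
      rw [h4] at h2
      rw [PowerSeries.coeff_C_mul, ← h2] at h1
      convert h1 using 1
      rw [pow_add]
      push_cast
      field_simp
  have hfin := Two.value_mem hE hcoef
  rw [hv] at hfin
  have hfin2 : (2 : ℂ) ^ (s + T + 1) *
      ((LA H (((X - C 2) ^ α * M).map (Int.castRingHom ℚ)) : ℚ) : ℂ) ∈ Two.OD := by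
    have := Two.OD.mul_mem Two.I_mem hfin
    convert this using 1
    rw [pow_succ]
    linear_combination (2 * (2 : ℂ) ^ (s + T) *
      ((LA H (((X - C 2) ^ α * M).map (Int.castRingHom ℚ)) : ℚ) : ℂ)) * Complex.I_mul_I
  have hle := Two.padicNorm_le_of_mem hfin2
  refine hle.trans ?_
  have h5 : (2 : ℚ) ^ s ≤ 8 * (2 * α + 1) := by exact_mod_cast hs'
  have h6 : (0 : ℚ) < 2 ^ T := by positivity
  rw [pow_succ, pow_add]
  push_cast
  calc (2 : ℚ) ^ s * 2 ^ T * 2 ≤ (8 * (2 * α + 1)) * 2 ^ T * 2 := by gcongr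
    _ ≤ 32 * (α + 1) * 2 ^ T := by nlinarith

theorem AK_two_adic : ∃ c : ℕ, ∀ k : ℕ, padicNorm 2 (AK k) ≤ c * (k + 1) * 2 ^ (2 * k) := by
  obtain ⟨c, hc⟩ := LA_two_adic_loss
  refine ⟨16 * c, fun k => ?_⟩
  obtain ⟨M, hM⟩ := NK_dvd k
  have h := hc (16 * k) (13 * k) (2 * k) M (by omega)
  rw [← hM] at h
  refine h.trans ?_
  have h1 : (0 : ℚ) ≤ c := Nat.cast_nonneg c
  have h2 : (0 : ℚ) < 2 ^ (2 * k) := by positivity
  push_cast
  refine mul_le_mul_of_nonneg_right ?_ h2.le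
  nlinarith

end Vale.Agent.P021
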