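import Vale.Agent.Lib.P021.Odd
import Vale.Agent.Lib.P021.Denom
import Vale.Agent.Lib.P021.Assembly
import Vale.Agent.Lib.P021V.Deduction2
import Vale.Agent.Lib.P021V.Two2
import Vale.Agent.Lib.P021V.BUp
import Vale.Agent.Lib.P021V.BLow
import Vale.Agent.Lib.P021V.SavSet
import Vale.Agent.Lib.P021V.FormV

/-!
# P021: assembly, the irrationality exponent of pi is at most 28/5
-/

namespace Vale.Agent.P021

open Polynomial Filter Topology

/-- exponent of the denominators, `k = 5n`. -/
noncomputable def kapV : ℝ := 6246 / 100 + 10 * Real.log 2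

theorem kapV_lt : kapV < 693915 / 10000 := by
  have := Real.log_two_lt_d9
  unfold kapV
  linarith

theorem kapV_pos : 0 < kapV := by
  have := Real.log_two_gt_d9
  unfold kapV
  linarith

/-- the polynomial factor -/
noncomputable def mV (c n : ℕ) : ℕ := c * (5 * n + 1) + 1

theorem AK_denom_main : ∃ (c : ℕ) (D : ℕ → ℕ), (∀ n, 0 < D n) ∧
    (∀ n, ∃ z : ℤ, (D n : ℚ) * AK (5 * n) = z) ∧
    (∀ᶠ n : ℕ in atTop, (D n : ℝ) ≤ 2 * (c * (5 * n + 1) + 1) * Real.exp (kapV * n)) := by
  obtain ⟨c, hc⟩ := AK_two_adic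
  obtain ⟨S, hS, hSx, hS3⟩ := exists_savings_set_K
  set m : ℕ → ℕ := fun n => c * (5 * n + 1) + 1 with hm
  set s : ℕ → ℕ := fun n => Nat.log 2 (m n) + 1 with hs
  have hs1 : ∀ n, m n ≤ 2 ^ s n := fun n => (Nat.lt_pow_succ_log_self (by norm_num) _).le
  have hs2 : ∀ n, 2 ^ s n ≤ 2 * m n := by
    intro n
    have : 2 ^ Nat.log 2 (m n) ≤ m n := Nat.pow_log_le_self 2 (by simp [hm])
    simp only [hs, pow_succ]
    omega
  set D : ℕ → ℕ := fun n => 2 ^ (s n + 10 * n) *
    (Nat.lcmUpto (52 * (5 * n)) / ∏ p ∈ S (5 * n), p) with hDdef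
  have hprod : ∀ k, ∏ p ∈ S k, p ∣ Nat.lcmUpto (52 * k) := by
    intro n
    apply Finset.prod_primes_dvd
    · intro p hp; exact Nat.Prime.prime (hS n p hp).1
    · intro p hp; exact (hS n p hp).2.2
  have hprodpos : ∀ k, 0 < ∏ p ∈ S k, p := by
    intro n
    apply Finset.prod_pos
    intro p hp
    exact (hS n p hp).1.pos
  refine ⟨c, D, fun n => ?_, fun n => ?_, ?_⟩
  · simp only [hDdef]
    apply Nat.mul_pos (by positivity)
    exact Nat.div_pos (Nat.le_of_dvd (Nat.lcmUpto_pos _) (hprod _)) (hprodpos _)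
  · apply denom_int (Nat.lcmUpto_ne_zero _) (hS (5 * n)) (fun p hp => hSx (5 * n) p hp)
    · apply LA_odd_denom (13 * (5 * n)) (52 * (5 * n)) (NK (5 * n)) (by omega)
      have := natDegree_NK_le (5 * n)
      omega
    · refine (hc (5 * n)).trans ?_
      have h1 : ((m n : ℕ) : ℚ) ≤ ((2 ^ s n : ℕ) : ℚ) := by exact_mod_cast hs1 n
      simp only [hm] at h1
      push_cast at h1
      have h2 : (2 : ℚ) ^ (2 * (5 * n)) = 2 ^ (10 * n) := by congr 1; ring
      rw [h2, pow_add]
      push_cast
      have h3 : (0 : ℚ) < 2 ^ (10 * n) := by positivity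
      have h4 : (c : ℚ) * (5 * n + 1) ≤ 2 ^ s n := by linarith
      exact mul_le_mul_of_nonneg_right h4 h3.le
  · have h5 : Tendsto (fun n : ℕ => 5 * n) atTop atTop :=
      tendsto_id.const_mul_atTop' (by norm_num)
    filter_upwards [h5.eventually hS3] with n hn
    have e1 : ((Nat.lcmUpto (52 * (5 * n)) / ∏ p ∈ S (5 * n), p : ℕ) : ℝ) =
        Real.exp (Real.log (Nat.lcmUpto (52 * (5 * n))) - ∑ p ∈ S (5 * n), Real.log p) := by
      rw [Nat.cast_div (hprod _) (by exact_mod_cast (hprodpos _).ne'), Real.exp_sub,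
        Real.exp_log (by exact_mod_cast Nat.lcmUpto_pos _), Real.exp_sum]
      congr 1
      push_cast
      apply Finset.prod_congr rfl
      intro p hp
      rw [Real.exp_log]
      exact_mod_cast (hS _ p hp).1.pos
    have e2 : ((2 ^ s n : ℕ) : ℝ) ≤ 2 * (c * (5 * n + 1) + 1) := by
      have := hs2 n
      have h' : ((2 ^ s n : ℕ) : ℝ) ≤ ((2 * m n : ℕ) : ℝ) := by exact_mod_cast this
      refine h'.trans (le_of_eq ?_)
      simp only [hm]
      push_cast
      ring
    have e3 : ((2 : ℝ) ^ (10 * n)) = Real.exp (10 * Real.log 2 * n) := by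
      rw [show 10 * Real.log 2 * (n : ℝ) = ((10 * n : ℕ) : ℝ) * Real.log 2 by push_cast; ring,
        Real.exp_nat_mul, Real.exp_log (by norm_num)]
    simp only [hDdef]
    rw [Nat.cast_mul, e1, pow_add, Nat.cast_mul]
    have e4 : (((2 : ℕ) ^ (10 * n) : ℕ) : ℝ) = Real.exp (10 * Real.log 2 * n) := by
      push_cast; exact e3
    rw [e4, mul_assoc, ← Real.exp_add]
    refine mul_le_mul e2 (Real.exp_le_exp.2 ?_) (Real.exp_pos _).le (by positivity)
    unfold kapV
    push_cast at hn
    linarith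

theorem exp_mul_nat (x : ℝ) (n : ℕ) : Real.exp (x * n) = Real.exp x ^ n := by
  rw [mul_comm, Real.exp_nat_mul]

theorem irrationalityExponent_pi_le_V :
    irrationalityExponent Real.pi ≤ ((28 / 5 : ℝ) : EReal) := by
  obtain ⟨c, D, hD, hDA, hDsize⟩ := AK_denom_main
  obtain ⟨C, hC, hform⟩ := form_K
  obtain ⟨c4, hc4, hBu⟩ := BK_upper
  have hk1 := kapV_lt
  have hk0 := kapV_pos
  -- the size of the form
  have hF : ∀ n : ℕ, 1 ≤ n → |((4 * AK (5 * n) : ℚ) : ℝ) + (BK (5 * n) : ℝ) * Real.pi| ≤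
      4 * C * Real.exp (-(250875 / 1000) * n) := by
    intro n hn
    have h1 := hform (5 * n) (by omega)
    have e : ((4 * AK (5 * n) : ℚ) : ℝ) + (BK (5 * n) : ℝ) * Real.pi =
        4 * ((AK (5 * n) : ℝ) + (BK (5 * n) : ℝ) * (Real.pi / 4)) := by
      push_cast; ring
    rw [e, abs_mul, abs_of_pos (by norm_num : (0:ℝ) < 4)]
    have e2 : -(50175 / 1000 * ((5 * n : ℕ) : ℝ)) = -(250875 / 1000) * n := by
      push_cast; ring
    rw [e2] at h1
    linarith
  have hBu' : ∀ n : ℕ, |(BK (5 * n) : ℝ)| ≤ c4 * Real.exp (7653025 / 10000 * n) := by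
    intro n
    refine (hBu (5 * n)).trans (le_of_eq ?_)
    congr 2
    push_cast; ring
  have hfin := exponent_le_of_forms2 Real.pi (18147 / 100) (8347 / 10) (by norm_num) (by norm_num)
    irrational_pi (fun n => 4 * AK (5 * n)) (fun n => BK (5 * n)) D hD ?_ ?_ ?_ ?_ ?_ ?_
  · refine hfin.trans (EReal.coe_le_coe_iff.2 ?_)
    norm_num
  · intro n
    obtain ⟨z, hz⟩ := hDA n
    exact ⟨4 * z, by push_cast; rw [← hz]; ring⟩
  · intro n
    obtain ⟨z, hz⟩ := LB_int ((13 * (5 * n) : ℕ) : ℤ) (NK (5 * n))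
    refine ⟨D n * z, ?_⟩
    have : BK (5 * n) = z := hz
    rw [this]; push_cast; ring
  · filter_upwards [BK_lower] with n hn h0
    simp only [h0, Rat.cast_zero, abs_zero] at hn
    exact absurd (Real.exp_pos _) (not_lt.2 hn)
  · -- small
    have hr : Real.exp (kapV - 69405 / 1000) < 1 := by
      rw [Real.exp_lt_one_iff]; linarith
    filter_upwards [hDsize, eventually_lin_mul_pow_le (Real.exp (kapV - 69405 / 1000)) (8 * C) c 5
      (Real.exp_pos _).le hr, eventually_ge_atTop 1] with n h1 h2 h3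
    have h4 := hF n h3
    calc (D n : ℝ) * |((4 * AK (5 * n) : ℚ) : ℝ) + (BK (5 * n) : ℝ) * Real.pi|
        ≤ (2 * (c * (5 * n + 1) + 1) * Real.exp (kapV * n)) *
          (4 * C * Real.exp (-(250875 / 1000) * n)) :=
          mul_le_mul h1 h4 (abs_nonneg _) (by positivity)
      _ = (8 * C * (c * (5 * n + 1) + 1) * Real.exp (kapV - 69405 / 1000) ^ n) *
          Real.exp (-(18147 / 100 * n)) := by
          rw [← exp_mul_nat]
          have : Real.exp (kapV * n) * Real.exp (-(250875 / 1000) * n) =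
              Real.exp ((kapV - 69405 / 1000) * n) * Real.exp (-(18147 / 100 * n)) := by
            rw [← Real.exp_add, ← Real.exp_add]; congr 1; ring
          calc _ = 8 * C * (c * (5 * n + 1) + 1) *
              (Real.exp (kapV * n) * Real.exp (-(250875 / 1000) * n)) := by ring
            _ = _ := by rw [this]; ring
      _ ≤ 1 * Real.exp (-(18147 / 100 * n)) :=
          mul_le_mul_of_nonneg_right h2 (Real.exp_pos _).le
      _ = _ := one_mul _
  · -- big
    have hr : Real.exp (kapV - 693975 / 10000) < 1 := by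
      rw [Real.exp_lt_one_iff]; linarith
    filter_upwards [hDsize, eventually_lin_mul_pow_le (Real.exp (kapV - 693975 / 10000)) (2 * c4) c 5
      (Real.exp_pos _).le hr] with n h1 h2
    calc (D n : ℝ) * |(BK (5 * n) : ℝ)|
        ≤ (2 * (c * (5 * n + 1) + 1) * Real.exp (kapV * n)) *
          (c4 * Real.exp (7653025 / 10000 * n)) :=
          mul_le_mul h1 (hBu' n) (abs_nonneg _) (by positivity)
      _ = (2 * c4 * (c * (5 * n + 1) + 1) * Real.exp (kapV - 693975 / 10000) ^ n) *
          Real.exp (8347 / 10 * n) := by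
          rw [← exp_mul_nat]
          have : Real.exp (kapV * n) * Real.exp (7653025 / 10000 * n) =
              Real.exp ((kapV - 693975 / 10000) * n) * Real.exp (8347 / 10 * n) := by
            rw [← Real.exp_add, ← Real.exp_add]; congr 1; ring
          calc _ = 2 * c4 * (c * (5 * n + 1) + 1) *
              (Real.exp (kapV * n) * Real.exp (7653025 / 10000 * n)) := by ring
            _ = _ := by rw [this]; ring
      _ ≤ 1 * Real.exp (8347 / 10 * n) :=
          mul_le_mul_of_nonneg_right h2 (Real.exp_pos _).le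
      _ = _ := one_mul _
  · -- ratio
    have hr : Real.exp (kapV - 693925 / 10000) < 1 := by
      rw [Real.exp_lt_one_iff]; linarith
    have h5 : Tendsto (fun n : ℕ => n + 1) atTop atTop := tendsto_add_atTop_nat 1
    set K0 : ℝ := 48 * C * c4 * Real.exp (kapV + 7653025 / 10000) with hK0
    filter_upwards [h5.eventually hDsize, eventually_lin_mul_pow_le
      (Real.exp (kapV - 693925 / 10000)) K0 c 5 (Real.exp_pos _).le hr, BK_lower,
      eventually_ge_atTop 1] with n h1 h2 h3 h4
    have hb := hBu' (n + 1)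
    have hf := hF n h4
    push_cast at h1 hb
    have hm : 2 * ((c : ℝ) * (5 * (n + 1) + 1) + 1) ≤ 12 * (c * (5 * n + 1) + 1) := by
      have : (0 : ℝ) ≤ c := Nat.cast_nonneg c
      have : (0 : ℝ) ≤ (c : ℝ) * n := by positivity
      nlinarith
    calc (D (n + 1) : ℝ) * |(BK (5 * (n + 1)) : ℝ)| *
          |((4 * AK (5 * n) : ℚ) : ℝ) + (BK (5 * n) : ℝ) * Real.pi|
        ≤ (12 * (c * (5 * n + 1) + 1) * Real.exp (kapV * (n + 1))) *
          (c4 * Real.exp (7653025 / 10000 * (n + 1))) *
          (4 * C * Real.exp (-(250875 / 1000) * n)) := by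
          refine mul_le_mul (mul_le_mul (h1.trans ?_) hb (abs_nonneg _) (by positivity)) hf
            (abs_nonneg _) (by positivity)
          exact mul_le_mul_of_nonneg_right hm (Real.exp_pos _).le
      _ = (K0 * (c * (5 * n + 1) + 1) * Real.exp (kapV - 693925 / 10000) ^ n) *
          (Real.exp (-(18147 / 100 * n)) * Real.exp (76529 / 100 * n)) := by
          rw [← exp_mul_nat, hK0]
          have : Real.exp (kapV * (n + 1)) * Real.exp (7653025 / 10000 * (n + 1)) *
              Real.exp (-(250875 / 1000) * n) =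
              Real.exp (kapV + 7653025 / 10000) * Real.exp ((kapV - 693925 / 10000) * n) *
              (Real.exp (-(18147 / 100 * n)) * Real.exp (76529 / 100 * n)) := by
            simp only [← Real.exp_add]; congr 1; ring
          calc _ = 48 * C * c4 * (c * (5 * n + 1) + 1) *
              (Real.exp (kapV * (n + 1)) * Real.exp (7653025 / 10000 * (n + 1)) *
              Real.exp (-(250875 / 1000) * n)) := by ring
            _ = _ := by rw [this]; ring
      _ ≤ 1 * (Real.exp (-(18147 / 100 * n)) * |(BK (5 * n) : ℝ)|) := by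
          refine mul_le_mul h2 ?_ (by positivity) zero_le_one
          exact mul_le_mul_of_nonneg_left h3 (Real.exp_pos _).le
      _ = _ := one_mul _

end Vale.Agent.P021
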