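import Mathlib

/-!
# P021: certificates for the supremum of the two-variable integrand

A rectangle `Rc` stands for `x = p + s d`, `v = q + t e`, `s, t ∈ [0,1]` (`p = (px,py)` etc.).
`chk R rho T s0 s1 t0 t1 = true` implies on the box `s ∈ [s0,s1]`, `t ∈ [t0,t1]`:
`|x-2|^52 |x-3|^52 |v-2|^12 |v-3|^72 ≤ rho |v^2-8|^26 |x-v|^32`.

Leaf: `log Q ≤ log b + Q/b - 1` for the numerators `Q = |x-2|^2, |x-3|^2, |v-2|^2, |v-3|^2`
(convex in `s` or `t`); for the denominators, with centre values `y_c = v_c^2 - 8`,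
`w_c = x_c - v_c`: `|y| |y_c| ≥ Re (y conj y_c) ≥ L8` (affine in `t`), `|x-v| |w_c| ≥ L6` (affine),
and `- log L ≤ - log n + n/L - 1`, which is convex.  So `log` of the quotient is at most
`log (b1^26 b2^26 b3^6 b4^36 / (n8^13 n6^16)) + E`, `E` the maximum over the four corners,
and `exp E ≤ (1 - E/16)^(-16)`.
-/

namespace Vale.Agent.P021.CertV

inductive Tr where
  | L : Tr
  | S : Tr → Tr → Tr
  | T : Tr → Tr → Tr

structure Rc where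
  (px py dx dy qx qy ex ey : ℚ)

def nsq (a b : ℚ) : ℚ := a * a + b * b

def base (e c m : ℚ) : ℚ := if e * ((m - c) * (m - c)) ≤ c * c then c else m

def leaf (R : Rc) (rho s0 s1 t0 t1 : ℚ) : Bool :=
  let sc := (s0 + s1) / 2
  let tc := (t0 + t1) / 2
  let ht := (t1 - t0) / 2
  let hs := (s1 - s0) / 2
  let Q1 := fun s => nsq (R.px + s * R.dx - 2) (R.py + s * R.dy)
  let Q2 := fun s => nsq (R.px + s * R.dx - 3) (R.py + s * R.dy)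
  let Q3 := fun t => nsq (R.qx + t * R.ex - 2) (R.qy + t * R.ey)
  let Q4 := fun t => nsq (R.qx + t * R.ex - 3) (R.qy + t * R.ey)
  let q1a := Q1 s0
  let q1b := Q1 s1
  let q2a := Q2 s0
  let q2b := Q2 s1
  let q3a := Q3 t0
  let q3b := Q3 t1
  let q4a := Q4 t0
  let q4b := Q4 t1
  let b1 := base 26 (Q1 sc) (max q1a q1b)
  let b2 := base 26 (Q2 sc) (max q2a q2b)
  let b3 := base 6 (Q3 tc) (max q3a q3b)
  let b4 := base 36 (Q4 tc) (max q4a q4b)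
  let vx := R.qx + tc * R.ex
  let vy := R.qy + tc * R.ey
  let yx := vx * vx - vy * vy - 8
  let yy := 2 * vx * vy
  let n8 := nsq yx yy
  -- y1 = 2 v e
  let ax := 2 * (vx * R.ex - vy * R.ey)
  let ay := 2 * (vx * R.ey + vy * R.ex)
  let l1 := ax * yx + ay * yy
  let bx := R.ex * R.ex - R.ey * R.ey
  let by' := 2 * R.ex * R.ey
  let c2 := min 0 (bx * yx + by' * yy) * ht * ht
  let wx := R.px + sc * R.dx - vx
  let wy := R.py + sc * R.dy - vy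
  let n6 := nsq wx wy
  let lx := R.dx * wx + R.dy * wy
  let lv := - (R.ex * wx + R.ey * wy)
  let L8a := n8 - l1 * ht + c2
  let L8b := n8 + l1 * ht + c2
  let f1a := 26 * (q1a / b1 - 1) + 26 * (q2a / b2 - 1)
  let f1b := 26 * (q1b / b1 - 1) + 26 * (q2b / b2 - 1)
  let g1a := 6 * (q3a / b3 - 1) + 36 * (q4a / b4 - 1) + 26 * (n8 / L8a - 1)
  let g1b := 6 * (q3b / b3 - 1) + 36 * (q4b / b4 - 1) + 26 * (n8 / L8b - 1)
  let Laa := n6 - lx * hs - lv * ht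
  let Lab := n6 - lx * hs + lv * ht
  let Lba := n6 + lx * hs - lv * ht
  let Lbb := n6 + lx * hs + lv * ht
  let E := max (max (f1a + g1a + 32 * (n6 / Laa - 1)) (f1a + g1b + 32 * (n6 / Lab - 1)))
    (max (f1b + g1a + 32 * (n6 / Lba - 1)) (f1b + g1b + 32 * (n6 / Lbb - 1)))
  decide (0 < b1) && decide (0 < b2) && decide (0 < b3) && decide (0 < b4) && decide (0 < n8) &&
    decide (0 < n6) && decide (0 < L8a) && decide (0 < L8b) && decide (0 < Laa) &&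
    decide (0 < Lab) && decide (0 < Lba) && decide (0 < Lbb) && decide (E < 16) &&
    decide (b1 ^ 26 * b2 ^ 26 * b3 ^ 6 * b4 ^ 36 ≤ rho * (n8 ^ 13 * n6 ^ 16) * (1 - E / 16) ^ 16)

def chk (R : Rc) (rho : ℚ) : Tr → ℚ → ℚ → ℚ → ℚ → Bool
  | .L, s0, s1, t0, t1 => leaf R rho s0 s1 t0 t1
  | .S a b, s0, s1, t0, t1 =>
    chk R rho a s0 ((s0 + s1) / 2) t0 t1 && chk R rho b ((s0 + s1) / 2) s1 t0 t1
  | .T a b, s0, s1, t0, t1 =>
    chk R rho a s0 s1 t0 ((t0 + t1) / 2) && chk R rho b s0 s1 ((t0 + t1) / 2) t1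

def rho : ℚ := 2621 / 10 ^ 47

def Rb1 : Rc := ⟨2, 0, (7/8), (-3/8), 2, 0, (1/4), (9/16)⟩

def Tb1A : Tr := (.S (.T (.S (.T (.S (.T .L .L) (.T .L (.T .L .L))) (.S .L (.T (.T .L .L) .L))) (.T (.S (.S .L .L) .L) (.S (.T (.S .L .L) (.S .L .L)) (.S (.T .L .L) (.T .L .L))))) (.S (.T (.T (.T (.S .L .L) (.S .L .L)) .L) .L) (.T (.S (.T (.T (.T (.S .L .L) .L) .L) .L) (.S (.T .L .L) (.T .L .L))) (.S .L .L)))) (.S (.T (.S (.T .L .L) .L) (.S (.T (.T .L .L) .L) (.T .L .L))) (.T .L (.T .L .L))))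

def Tb1B : Tr := (.T (.T (.T .L .L) .L) .L)

theorem ok_b1A : chk Rb1 rho Tb1A (1/8) 1 0 1 = true := by decide +kernel

theorem ok_b1B : chk Rb1 rho Tb1B 0 (1/8) (1/8) 1 = true := by decide +kernel

def Rb2 : Rc := ⟨2, 0, (7/8), (-3/8), (45/16), (-3/32), (-9/16), (21/32)⟩

def Tb2 : Tr := (.T (.T (.S (.T (.S .L .L) (.S .L .L)) (.T (.S (.S (.T (.T .L .L) .L) (.T (.T .L (.S .L .L)) (.S (.T .L .L) (.T (.T .L (.S .L .L)) (.T .L .L))))) (.S (.T (.T .L (.S (.T .L .L) .L)) (.S (.T (.T (.S .L (.T .L .L)) (.S (.T .L (.S .L .L)) (.T (.S (.T .L .L) (.T .L .L)) (.S (.S .L (.T .L .L)) (.T (.S (.T .L (.S .L .L)) (.T .L (.S .L .L))) (.S (.S .L (.T .L .L)) (.T (.S .L .L) (.S .L .L)))))))) (.T (.S (.T (.S .L .L) .L) (.T (.S (.T .L .L) (.T (.S .L .L) .L)) .L)) .L)) (.T (.T (.S .L .L) (.S (.T (.S (.T .L .L) .L) (.S (.S (.S (.T (.T .L .L) (.T .L .L)) (.T .L .L)) (.T .L .L))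 (.T .L .L))) .L)) (.T (.S (.T (.S (.T (.S .L .L) .L) .L) .L) (.T .L .L)) (.S .L .L))))) (.T (.T .L (.S .L .L)) (.T (.S (.T .L .L) .L) (.S (.T (.S .L .L) .L) .L))))) (.S (.T (.S .L (.T (.S .L .L) .L)) (.S .L .L)) (.T (.S (.T (.S .L .L) .L) (.T .L .L)) (.S .L .L))))) (.S (.S .L (.T .L (.T .L .L))) (.S (.T (.T (.S .L .L) .L) (.T (.S .L .L) (.S .L .L))) (.T (.T .L .L) (.T .L .L))))) (.S (.S .L (.T (.T (.T .L .L) (.T .L (.S .L .L))) (.S .L .L))) (.T (.S (.T (.T (.S .L .L) (.S .L .L)) (.T (.S .L .L) (.S .L .L))) (.T .L .L)) (.S (.S (.T .L .L) .L) (.T .L (.T .L (.S .L .L)))))))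

theorem ok_b2 : chk Rb2 rho Tb2 0 1 0 1 = true := by decide +kernel

def Rb3 : Rc := ⟨2, 0, (7/8), (-3/8), 3, 0, (-3/16), (-3/32)⟩

def Tb3 : Tr := (.S (.T .L .L) (.T (.S .L .L) (.S (.T .L .L) (.T .L .L))))

theorem ok_b3 : chk Rb3 rho Tb3 0 1 0 1 = true := by decide +kernel

def Rb4 : Rc := ⟨3, 0, (-1/8), (-3/8), 3, 0, (-3/16), (-3/32)⟩

def Tb4A : Tr := (.T (.T .L .L) (.S .L .L))

def Tb4B : Tr := .L

theorem ok_b4A : chk Rb4 rho Tb4A (1/2) 1 0 1 = true := by decide +kernel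

theorem ok_b4B : chk Rb4 rho Tb4B 0 (1/2) (1/2) 1 = true := by decide +kernel

def Rb5 : Rc := ⟨3, 0, (-1/8), (-3/8), (45/16), (-3/32), (-9/16), (21/32)⟩

def Tb5 : Tr := (.T (.T (.T (.S .L (.T (.S .L (.T .L .L)) (.S .L (.T (.S .L (.T .L .L)) .L)))) (.S .L (.T (.S .L .L) .L))) (.T .L .L)) (.T .L (.T .L .L)))

theorem ok_b5 : chk Rb5 rho Tb5 0 1 0 1 = true := by decide +kernel

def Rb6 : Rc := ⟨3, 0, (-1/8), (-3/8), 2, 0, (1/4), (9/16)⟩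

def Tb6 : Tr := (.T .L (.T .L .L))

theorem ok_b6 : chk Rb6 rho Tb6 0 1 0 1 = true := by decide +kernel

def Ra1 : Rc := ⟨3, 0, (-1), 0, 3, 0, (-15/16), (-13/16)⟩

def Ta1A : Tr := (.T (.T (.S (.S (.S .L (.T (.T .L .L) .L)) (.T .L (.T .L .L))) (.T .L .L)) (.S (.T (.S (.T .L .L) (.T (.T .L .L) (.T .L .L))) (.S (.T .L .L) (.T (.T (.S .L .L) (.S .L .L)) (.T (.S .L .L) (.S .L .L))))) (.S (.T .L (.T .L .L)) .L))) (.S (.T (.S (.T .L .L) (.T (.S .L (.T .L .L)) (.S .L (.T .L .L)))) (.S (.T .L .L) (.S (.T .L .L) (.T (.T (.T .L (.T (.S .L .L) (.S .L .L))) (.T (.T (.S .L .L) (.S .L .L)) (.T (.S .L .L) (.S .L .L)))) (.S (.T .L (.T .L .L)) (.T .L (.T .L .L))))))) (.S (.T (.T (.T (.T .L .L) (.T (.S .L .L) (.S .L .L))) (.S .L .L)) (.S (.T .L (.T .L (.S (.T .L (.T .L .L)) .L))) .L)) (.T .L .L))))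

def Ta1B : Tr := (.T (.T (.T (.T .L .L) .L) .L) .L)

theorem ok_a1A : chk Ra1 rho Ta1A (1/8) 1 0 1 = true := by decide +kernel

theorem ok_a1B : chk Ra1 rho Ta1B 0 (1/8) (1/8) 1 = true := by decide +kernel

def Ra2 : Rc := ⟨2, 0, 1, 0, 2, 0, (1/16), (-13/16)⟩

def Ta2A : Tr := (.T (.S (.S (.T (.S (.T (.T .L .L) (.T (.T .L .L) .L)) (.S (.T .L .L) (.T .L .L))) (.S (.T .L .L) (.T (.S .L (.T .L .L)) (.T (.T (.S .L .L) (.S .L .L)) (.T (.S .L .L) (.S .L .L)))))) (.S (.T (.S (.T .L .L) .L) (.S (.T (.T .L (.S .L .L)) (.S (.T .L .L) (.T (.T .L .L) (.T .L .L)))) (.T (.S .L .L) (.T (.S (.T .L .L) .L) (.S (.T .L .L) .L))))) (.T (.T .L .L) (.S (.T .L (.T .L .L)) .L)))) (.S (.S .L .L) .L)) (.S (.S (.T (.S .L (.T (.T (.T (.S .L .L) .L) .L) .L)) (.S .L .L)) (.T (.S (.S (.T (.S (.T .L .L) (.T (.T .L .L) .L)) (.S .L .L)) (.T (.T (.S .L .L) (.S .L .L)) (.T (.T .L .L) (.T .L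 .L)))) (.S (.T (.S (.T .L .L) .L) (.S .L .L)) (.T .L .L))) (.S (.S (.T .L .L) (.T (.S .L .L) (.S .L .L))) (.S (.T (.T .L .L) (.S .L .L)) (.T .L .L))))) (.S (.S (.T .L .L) .L) .L)))

def Ta2B : Tr := (.T (.T (.T .L .L) .L) .L)

theorem ok_a2A : chk Ra2 rho Ta2A (1/8) 1 0 1 = true := by decide +kernel

theorem ok_a2B : chk Ra2 rho Ta2B 0 (1/8) (1/8) 1 = true := by decide +kernel

end Vale.Agent.P021.CertV
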