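import Vale.Agent.Lib.P021V.CertData

/-!
# P021: soundness of the checker
-/

namespace Vale.Agent.P021.CertV

/-- the numerator, squared -/
def NN (R : Rc) (s t : ℝ) : ℝ :=
  ((R.px + s * R.dx - 2) ^ 2 + (R.py + s * R.dy) ^ 2) ^ 26 *
  ((R.px + s * R.dx - 3) ^ 2 + (R.py + s * R.dy) ^ 2) ^ 26 *
  ((R.qx + t * R.ex - 2) ^ 2 + (R.qy + t * R.ey) ^ 2) ^ 6 *
  ((R.qx + t * R.ex - 3) ^ 2 + (R.qy + t * R.ey) ^ 2) ^ 36

/-- the denominator, squared -/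
def DD (R : Rc) (s t : ℝ) : ℝ :=
  (((R.qx + t * R.ex) ^ 2 - (R.qy + t * R.ey) ^ 2 - 8) ^ 2 +
    (2 * (R.qx + t * R.ex) * (R.qy + t * R.ey)) ^ 2) ^ 13 *
  (((R.px + s * R.dx) - (R.qx + t * R.ex)) ^ 2 + ((R.py + s * R.dy) - (R.qy + t * R.ey)) ^ 2) ^ 16

private theorem cs_num {Q b : ℝ} (hQ : 0 ≤ Q) (hb : 0 < b) (k : ℕ) :
    Q ^ k ≤ b ^ k * Real.exp (k * (Q / b - 1)) := by
  have h1 : Q / b ≤ Real.exp (Q / b - 1) := by
    have := Real.add_one_le_exp (Q / b - 1)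
    linarith
  have h2 : Q ≤ b * Real.exp (Q / b - 1) := by
    rw [div_le_iff₀ hb] at h1
    linarith
  rw [Real.exp_nat_mul, ← mul_pow]
  exact pow_le_pow_left₀ hQ h2 k

private theorem cs_den {m n L : ℝ} (hn : 0 < n) (hL : 0 < L) (h : L ^ 2 ≤ m * n) (k : ℕ) :
    n ^ k * Real.exp (-((2 * k : ℕ) * (n / L - 1))) ≤ m ^ k := by
  have h1 : n / L ≤ Real.exp (n / L - 1) := by
    have := Real.add_one_le_exp (n / L - 1)
    linarith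
  have h2 : Real.exp (-(n / L - 1)) ≤ L / n := by
    rw [Real.exp_neg, inv_le_comm₀ (Real.exp_pos _) (div_pos hL hn), inv_div]
    exact h1
  have h3 : Real.exp (-((2 * k : ℕ) * (n / L - 1))) = (Real.exp (-(n / L - 1)) ^ 2) ^ k := by
    rw [← pow_mul, ← Real.exp_nat_mul]
    congr 1
    ring
  rw [h3, ← mul_pow]
  refine pow_le_pow_left₀ (by positivity) ?_ k
  calc n * Real.exp (-(n / L - 1)) ^ 2 ≤ n * (L / n) ^ 2 :=
        mul_le_mul_of_nonneg_left (pow_le_pow_left₀ (Real.exp_pos _).le h2 2) hn.le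
    _ = L ^ 2 / n := by
        field_simp
    _ ≤ m := by rwa [div_le_iff₀ hn]

private theorem cs_final {Q1 Q2 Q3 Q4 b1 b2 b3 b4 m8 n8 L8 m6 n6 L6 E rho : ℝ} (hQ1 : 0 ≤ Q1)
    (hQ2 : 0 ≤ Q2) (hQ3 : 0 ≤ Q3) (hQ4 : 0 ≤ Q4) (hb1 : 0 < b1) (hb2 : 0 < b2) (hb3 : 0 < b3)
    (hb4 : 0 < b4) (hn8 : 0 < n8) (hL8 : 0 < L8) (hm8 : L8 ^ 2 ≤ m8 * n8) (hn6 : 0 < n6)
    (hL6 : 0 < L6) (hm6 : L6 ^ 2 ≤ m6 * n6)
    (hS : 26 * (Q1 / b1 - 1) + 26 * (Q2 / b2 - 1) + (6 * (Q3 / b3 - 1) + 36 * (Q4 / b4 - 1) +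
      26 * (n8 / L8 - 1)) + 32 * (n6 / L6 - 1) ≤ E) (hE : E < 16)
    (hfin : b1 ^ 26 * b2 ^ 26 * b3 ^ 6 * b4 ^ 36 ≤
      rho * (n8 ^ 13 * n6 ^ 16) * (1 - E / 16) ^ 16) :
    Q1 ^ 26 * Q2 ^ 26 * Q3 ^ 6 * Q4 ^ 36 ≤ rho * (m8 ^ 13 * m6 ^ 16) := by
  have e1 := cs_num hQ1 hb1 26
  have e2 := cs_num hQ2 hb2 26
  have e3 := cs_num hQ3 hb3 6
  have e4 := cs_num hQ4 hb4 36
  have d8 := cs_den hn8 hL8 hm8 13
  have d6 := cs_den hn6 hL6 hm6 16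
  set S1 : ℝ := 26 * (Q1 / b1 - 1) + 26 * (Q2 / b2 - 1) + 6 * (Q3 / b3 - 1) + 36 * (Q4 / b4 - 1)
    with hS1
  set S2 : ℝ := 26 * (n8 / L8 - 1) + 32 * (n6 / L6 - 1) with hS2
  have hN : Q1 ^ 26 * Q2 ^ 26 * Q3 ^ 6 * Q4 ^ 36 ≤
      b1 ^ 26 * b2 ^ 26 * b3 ^ 6 * b4 ^ 36 * Real.exp S1 := by
    calc Q1 ^ 26 * Q2 ^ 26 * Q3 ^ 6 * Q4 ^ 36 ≤
        (b1 ^ 26 * Real.exp ((26 : ℕ) * (Q1 / b1 - 1))) *
        (b2 ^ 26 * Real.exp ((26 : ℕ) * (Q2 / b2 - 1))) *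
        (b3 ^ 6 * Real.exp ((6 : ℕ) * (Q3 / b3 - 1))) *
        (b4 ^ 36 * Real.exp ((36 : ℕ) * (Q4 / b4 - 1))) := by gcongr
      _ = b1 ^ 26 * b2 ^ 26 * b3 ^ 6 * b4 ^ 36 * Real.exp S1 := by
        have h : Real.exp S1 = Real.exp ((26 : ℕ) * (Q1 / b1 - 1)) *
            Real.exp ((26 : ℕ) * (Q2 / b2 - 1)) * Real.exp ((6 : ℕ) * (Q3 / b3 - 1)) *
            Real.exp ((36 : ℕ) * (Q4 / b4 - 1)) := by
          rw [← Real.exp_add, ← Real.exp_add, ← Real.exp_add, hS1]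
          norm_num
        rw [h]
        ring
  have hD : n8 ^ 13 * n6 ^ 16 * Real.exp (-S2) ≤ m8 ^ 13 * m6 ^ 16 := by
    calc n8 ^ 13 * n6 ^ 16 * Real.exp (-S2) =
        (n8 ^ 13 * Real.exp (-((2 * 13 : ℕ) * (n8 / L8 - 1)))) *
        (n6 ^ 16 * Real.exp (-((2 * 16 : ℕ) * (n6 / L6 - 1)))) := by
          have h : Real.exp (-S2) = Real.exp (-((2 * 13 : ℕ) * (n8 / L8 - 1))) *
              Real.exp (-((2 * 16 : ℕ) * (n6 / L6 - 1))) := by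
            rw [← Real.exp_add, hS2]
            congr 1
            norm_num
            ring
          rw [h]
          ring
      _ ≤ m8 ^ 13 * m6 ^ 16 := by
          refine mul_le_mul d8 d6 (by positivity) ?_
          exact le_trans (by positivity) d8
  clear_value S1 S2
  have hexp : (1 - E / 16) ^ 16 ≤ Real.exp (-E) := by
    have h1 : 1 - E / 16 ≤ Real.exp (-(E / 16)) := by
      have := Real.add_one_le_exp (-(E / 16))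
      linarith
    have h2 : Real.exp (-E) = Real.exp (-(E / 16)) ^ 16 := by
      rw [← Real.exp_nat_mul]
      congr 1
      push_cast
      ring
    rw [h2]
    exact pow_le_pow_left₀ (by linarith) h1 16
  have hq : 0 < (1 - E / 16) ^ 16 := pow_pos (by linarith) 16
  have hn : 0 < n8 ^ 13 * n6 ^ 16 := by positivity
  have hB : 0 < b1 ^ 26 * b2 ^ 26 * b3 ^ 6 * b4 ^ 36 := by positivity
  have hrn : 0 < rho * (n8 ^ 13 * n6 ^ 16) := by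
    by_contra hcon
    push Not at hcon
    have := mul_nonpos_of_nonpos_of_nonneg hcon hq.le
    linarith
  have hrho : 0 < rho := by
    by_contra hcon
    push Not at hcon
    have := mul_nonpos_of_nonpos_of_nonneg hcon hn.le
    linarith
  have hB2 : b1 ^ 26 * b2 ^ 26 * b3 ^ 6 * b4 ^ 36 ≤
      rho * (n8 ^ 13 * n6 ^ 16) * Real.exp (-E) :=
    hfin.trans (mul_le_mul_of_nonneg_left hexp hrn.le)
  calc Q1 ^ 26 * Q2 ^ 26 * Q3 ^ 6 * Q4 ^ 36 ≤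
      b1 ^ 26 * b2 ^ 26 * b3 ^ 6 * b4 ^ 36 * Real.exp S1 := hN
    _ ≤ rho * (n8 ^ 13 * n6 ^ 16) * Real.exp (-E) * Real.exp S1 :=
        mul_le_mul_of_nonneg_right hB2 (Real.exp_pos _).le
    _ = rho * (n8 ^ 13 * n6 ^ 16) * Real.exp (-E + S1) := by
        rw [Real.exp_add]
        ring
    _ ≤ rho * (n8 ^ 13 * n6 ^ 16) * Real.exp (-S2) := by
        refine mul_le_mul_of_nonneg_left (Real.exp_le_exp.2 ?_) hrn.le
        rw [hS1, hS2]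
        linarith
    _ = rho * (n8 ^ 13 * n6 ^ 16 * Real.exp (-S2)) := by ring
    _ ≤ rho * (m8 ^ 13 * m6 ^ 16) := mul_le_mul_of_nonneg_left hD hrho.le

private theorem cs_sq {p d l a b : ℝ} (h0 : 0 ≤ l) (h1 : l ≤ 1) :
    (p + ((1 - l) * a + l * b) * d) ^ 2 ≤ (1 - l) * (p + a * d) ^ 2 + l * (p + b * d) ^ 2 := by
  have h2 : (1 - l) * (p + a * d) ^ 2 + l * (p + b * d) ^ 2 -
      (p + ((1 - l) * a + l * b) * d) ^ 2 = l * (1 - l) * ((b - a) * d) ^ 2 := by ring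
  have h3 : 0 ≤ l * (1 - l) * ((b - a) * d) ^ 2 :=
    mul_nonneg (mul_nonneg h0 (by linarith)) (sq_nonneg _)
  linarith

private theorem cs_inv {n l a b : ℝ} (hn : 0 ≤ n) (h0 : 0 ≤ l) (h1 : l ≤ 1) (ha : 0 < a)
    (hb : 0 < b) : 0 < (1 - l) * a + l * b ∧
    n / ((1 - l) * a + l * b) ≤ (1 - l) * (n / a) + l * (n / b) := by
  have hpos : 0 < (1 - l) * a + l * b := by
    rcases h0.eq_or_lt with h | h
    · rw [← h]
      linarith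
    · have h2 : 0 < l * b := mul_pos h hb
      have h3 : 0 ≤ (1 - l) * a := mul_nonneg (by linarith) ha.le
      linarith
  refine ⟨hpos, ?_⟩
  rw [div_le_iff₀ hpos]
  have h2 : ((1 - l) * (n / a) + l * (n / b)) * ((1 - l) * a + l * b) - n =
      n * (l * (1 - l)) * ((a - b) ^ 2 / (a * b)) := by
    field_simp
    ring
  have h3 : 0 ≤ n * (l * (1 - l)) * ((a - b) ^ 2 / (a * b)) := by
    have : 0 ≤ 1 - l := by linarith
    positivity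
  linarith

private theorem cs_comb {a b s : ℝ} (h0 : a ≤ s) (h1 : s ≤ b) :
    ∃ l : ℝ, 0 ≤ l ∧ l ≤ 1 ∧ s = (1 - l) * a + l * b := by
  rcases (h0.trans h1).eq_or_lt with h | h
  · exact ⟨0, le_rfl, zero_le_one, by linarith⟩
  · have h2 : 0 < b - a := by linarith
    refine ⟨(s - a) / (b - a), div_nonneg (by linarith) h2.le, ?_, ?_⟩
    · rw [div_le_one h2]
      linarith
    · field_simp
      ring

private theorem cs_cauchy (a b c d : ℝ) :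
    (a * c + b * d) ^ 2 ≤ (a ^ 2 + b ^ 2) * (c * c + d * d) := by
  nlinarith [sq_nonneg (a * d - b * c)]

private theorem cs_min {k h u : ℝ} (hu : u ^ 2 ≤ h ^ 2) : min 0 k * h * h ≤ k * u ^ 2 := by
  rcases le_total 0 k with hk | hk
  · rw [min_eq_left hk]
    have := mul_nonneg hk (sq_nonneg u)
    linarith
  · rw [min_eq_right hk]
    have := mul_le_mul_of_nonpos_left hu hk
    linarith

private theorem cs_m8 {qx qy ex ey tc t vx vy yx yy : ℝ} (hvx : vx = qx + tc * ex)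
    (hvy : vy = qy + tc * ey) (hyx : yx = vx * vx - vy * vy - 8) (hyy : yy = 2 * vx * vy)
    {h : ℝ} (ht : (t - tc) ^ 2 ≤ h ^ 2) {L : ℝ} (hL0 : 0 < L)
    (hL : L = yx * yx + yy * yy + (t - tc) * ((2 * (vx * ex - vy * ey)) * yx +
      (2 * (vx * ey + vy * ex)) * yy) +
      min 0 ((ex * ex - ey * ey) * yx + (2 * ex * ey) * yy) * h * h) :
    L ^ 2 ≤ (((qx + t * ex) ^ 2 - (qy + t * ey) ^ 2 - 8) ^ 2 +
      (2 * (qx + t * ex) * (qy + t * ey)) ^ 2) * (yx * yx + yy * yy) := by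
  have h1 := cs_min (k := (ex * ex - ey * ey) * yx + (2 * ex * ey) * yy) ht
  have h2 : ((qx + t * ex) ^ 2 - (qy + t * ey) ^ 2 - 8) * yx +
      (2 * (qx + t * ex) * (qy + t * ey)) * yy =
      yx * yx + yy * yy + (t - tc) * ((2 * (vx * ex - vy * ey)) * yx +
      (2 * (vx * ey + vy * ex)) * yy) +
      ((ex * ex - ey * ey) * yx + (2 * ex * ey) * yy) * (t - tc) ^ 2 := by
    have e1 : qx + t * ex = vx + (t - tc) * ex := by rw [hvx]; ring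
    have e2 : qy + t * ey = vy + (t - tc) * ey := by rw [hvy]; ring
    rw [e1, e2]
    have e3 : (vx + (t - tc) * ex) ^ 2 - (vy + (t - tc) * ey) ^ 2 - 8 =
        yx + (t - tc) * (2 * (vx * ex - vy * ey)) + (t - tc) ^ 2 * (ex * ex - ey * ey) := by
      rw [hyx]
      ring
    have e4 : 2 * (vx + (t - tc) * ex) * (vy + (t - tc) * ey) =
        yy + (t - tc) * (2 * (vx * ey + vy * ex)) + (t - tc) ^ 2 * (2 * ex * ey) := by
      rw [hyy]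
      ring
    rw [e3, e4]
    ring
  have h3 : L ≤ ((qx + t * ex) ^ 2 - (qy + t * ey) ^ 2 - 8) * yx +
      (2 * (qx + t * ex) * (qy + t * ey)) * yy := by
    rw [h2, hL]
    linarith
  exact (pow_le_pow_left₀ hL0.le h3 2).trans (cs_cauchy _ _ _ _)

private theorem cs_m6 {px py dx dy qx qy ex ey sc tc s t wx wy : ℝ}
    (hwx : wx = px + sc * dx - (qx + tc * ex)) (hwy : wy = py + sc * dy - (qy + tc * ey))
    {L : ℝ} (hL : L = wx * wx + wy * wy + (s - sc) * (dx * wx + dy * wy) +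
      (t - tc) * (-(ex * wx + ey * wy))) :
    L ^ 2 ≤ (((px + s * dx) - (qx + t * ex)) ^ 2 + ((py + s * dy) - (qy + t * ey)) ^ 2) *
      (wx * wx + wy * wy) := by
  have h1 : L = ((px + s * dx) - (qx + t * ex)) * wx + ((py + s * dy) - (qy + t * ey)) * wy := by
    have e1 : (px + s * dx) - (qx + t * ex) = wx + (s - sc) * dx - (t - tc) * ex := by
      rw [hwx]; ring
    have e2 : (py + s * dy) - (qy + t * ey) = wy + (s - sc) * dy - (t - tc) * ey := by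
      rw [hwy]; ring
    rw [e1, e2, hL]
    ring
  rw [h1]
  exact cs_cauchy _ _ _ _

private theorem cs_quad {p p' d d' k a b l s : ℝ} (h0 : 0 ≤ l) (h1 : l ≤ 1)
    (hs : s = (1 - l) * a + l * b) :
    (p + s * d - k) ^ 2 + (p' + s * d') ^ 2 ≤
      (1 - l) * ((p - k + a * d) ^ 2 + (p' + a * d') ^ 2) +
      l * ((p - k + b * d) ^ 2 + (p' + b * d') ^ 2) := by
  have e1 := cs_sq (p := p - k) (d := d) (a := a) (b := b) h0 h1
  have e2 := cs_sq (p := p') (d := d') (a := a) (b := b) h0 h1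
  have e3 : p + s * d - k = p - k + s * d := by ring
  rw [← hs] at e1 e2
  rw [e3]
  linarith

private theorem cs_sum {l m Q1 Q2 Q3 Q4 q1a q1b q2a q2b q3a q3b q4a q4b b1 b2 b3 b4 n8 L8 L8a L8b
    n6 L6 A B Laa Lab Lba Lbb E f1a f1b g1a g1b : ℝ} (hl0 : 0 ≤ l) (hl1 : l ≤ 1) (hm0 : 0 ≤ m)
    (hm1 : m ≤ 1) (kb1 : 0 < b1) (kb2 : 0 < b2) (kb3 : 0 < b3) (kb4 : 0 < b4)
    (hQ1 : Q1 ≤ (1 - l) * q1a + l * q1b) (hQ2 : Q2 ≤ (1 - l) * q2a + l * q2b)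
    (hQ3 : Q3 ≤ (1 - m) * q3a + m * q3b) (hQ4 : Q4 ≤ (1 - m) * q4a + m * q4b)
    (hL8i : n8 / L8 ≤ (1 - m) * (n8 / L8a) + m * (n8 / L8b))
    (hAi : n6 / A ≤ (1 - m) * (n6 / Laa) + m * (n6 / Lab))
    (hBi : n6 / B ≤ (1 - m) * (n6 / Lba) + m * (n6 / Lbb))
    (hL6i : n6 / L6 ≤ (1 - l) * (n6 / A) + l * (n6 / B))
    (kEaa : f1a + g1a + 32 * (n6 / Laa - 1) ≤ E) (kEab : f1a + g1b + 32 * (n6 / Lab - 1) ≤ E)
    (kEba : f1b + g1a + 32 * (n6 / Lba - 1) ≤ E) (kEbb : f1b + g1b + 32 * (n6 / Lbb - 1) ≤ E)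
    (rf1a : f1a = 26 * (q1a / b1 - 1) + 26 * (q2a / b2 - 1))
    (rf1b : f1b = 26 * (q1b / b1 - 1) + 26 * (q2b / b2 - 1))
    (rg1a : g1a = 6 * (q3a / b3 - 1) + 36 * (q4a / b4 - 1) + 26 * (n8 / L8a - 1))
    (rg1b : g1b = 6 * (q3b / b3 - 1) + 36 * (q4b / b4 - 1) + 26 * (n8 / L8b - 1)) :
    26 * (Q1 / b1 - 1) + 26 * (Q2 / b2 - 1) + (6 * (Q3 / b3 - 1) + 36 * (Q4 / b4 - 1) +
      26 * (n8 / L8 - 1)) + 32 * (n6 / L6 - 1) ≤ E := by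
  have g1 := div_le_div_of_nonneg_right hQ1 kb1.le
  have g2 := div_le_div_of_nonneg_right hQ2 kb2.le
  have g3 := div_le_div_of_nonneg_right hQ3 kb3.le
  have g4 := div_le_div_of_nonneg_right hQ4 kb4.le
  have i1 : ((1 - l) * q1a + l * q1b) / b1 = (1 - l) * (q1a / b1) + l * (q1b / b1) := by ring
  have i2 : ((1 - l) * q2a + l * q2b) / b2 = (1 - l) * (q2a / b2) + l * (q2b / b2) := by ring
  have i3 : ((1 - m) * q3a + m * q3b) / b3 = (1 - m) * (q3a / b3) + m * (q3b / b3) := by ring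
  have i4 : ((1 - m) * q4a + m * q4b) / b4 = (1 - m) * (q4a / b4) + m * (q4b / b4) := by ring
  rw [i1] at g1
  rw [i2] at g2
  rw [i3] at g3
  rw [i4] at g4
  have w1 : 0 ≤ 1 - l := by linarith
  have w2 : 0 ≤ 1 - m := by linarith
  have j1 := mul_le_mul_of_nonneg_left hAi w1
  have j2 := mul_le_mul_of_nonneg_left hBi hl0
  have c1 := mul_le_mul_of_nonneg_left kEaa (mul_nonneg w1 w2)
  have c3 := mul_le_mul_of_nonneg_left kEab (mul_nonneg w1 hm0)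
  have c4 := mul_le_mul_of_nonneg_left kEba (mul_nonneg hl0 w2)
  have c5 := mul_le_mul_of_nonneg_left kEbb (mul_nonneg hl0 hm0)
  have hsum : (1 - l) * f1a + l * f1b + ((1 - m) * g1a + m * g1b) +
      32 * ((1 - l) * ((1 - m) * (n6 / Laa) + m * (n6 / Lab)) +
        l * ((1 - m) * (n6 / Lba) + m * (n6 / Lbb)) - 1) ≤ E := by
    have e1 : E = (1 - l) * (1 - m) * E + (1 - l) * m * E + l * (1 - m) * E + l * m * E := by
      ring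
    rw [e1]
    refine le_trans (le_of_eq ?_) (add_le_add (add_le_add (add_le_add c1 c3) c4) c5)
    ring
  rw [rf1a, rf1b, rg1a, rg1b] at hsum
  have hX : 26 * (Q1 / b1 - 1) + 26 * (Q2 / b2 - 1) ≤
      (1 - l) * (26 * (q1a / b1 - 1) + 26 * (q2a / b2 - 1)) +
      l * (26 * (q1b / b1 - 1) + 26 * (q2b / b2 - 1)) := by linarith
  have hY : 6 * (Q3 / b3 - 1) + 36 * (Q4 / b4 - 1) + 26 * (n8 / L8 - 1) ≤
      (1 - m) * (6 * (q3a / b3 - 1) + 36 * (q4a / b4 - 1) + 26 * (n8 / L8a - 1)) +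
      m * (6 * (q3b / b3 - 1) + 36 * (q4b / b4 - 1) + 26 * (n8 / L8b - 1)) := by linarith
  have hZ : n6 / L6 ≤ (1 - l) * ((1 - m) * (n6 / Laa) + m * (n6 / Lab)) +
        l * ((1 - m) * (n6 / Lba) + m * (n6 / Lbb)) := hL6i.trans (add_le_add j1 j2)
  linarith

private theorem cs_tau {m t t0 t1 tc ht : ℝ} (hm0 : 0 ≤ m) (hm1 : m ≤ 1)
    (htm : t = (1 - m) * t0 + m * t1) (rtc : tc = (t0 + t1) / 2) (rht : ht = (t1 - t0) / 2) :
    t - tc = (2 * m - 1) * ht ∧ (t - tc) ^ 2 ≤ ht ^ 2 := by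
  have htau : t - tc = (2 * m - 1) * ht := by
    rw [rtc, rht]
    linarith
  refine ⟨htau, ?_⟩
  rw [htau, mul_pow]
  have e1 : (2 * m - 1) ^ 2 ≤ 1 := by nlinarith
  exact mul_le_of_le_one_left (sq_nonneg _) e1

private theorem cs_real {px py dx dy qx qy ex ey rho s0 s1 t0 t1 sc tc ht hs q1a q1b q2a q2b q3a
    q3b q4a q4b b1 b2 b3 b4 vx vy yx yy n8 l1 c2 wx wy n6 lx lv L8a L8b f1a f1b g1a g1b Laa Lab
    Lba Lbb E s t : ℝ} (hs0 : s0 ≤ s) (hs1 : s ≤ s1) (ht0 : t0 ≤ t) (ht1 : t ≤ t1)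
    (kb1 : 0 < b1) (kb2 : 0 < b2) (kb3 : 0 < b3) (kb4 : 0 < b4) (kn8 : 0 < n8) (kn6 : 0 < n6)
    (kL8a : 0 < L8a) (kL8b : 0 < L8b) (kLaa : 0 < Laa) (kLab : 0 < Lab) (kLba : 0 < Lba)
    (kLbb : 0 < Lbb) (kE : E < 16)
    (kfin : b1 ^ 26 * b2 ^ 26 * b3 ^ 6 * b4 ^ 36 ≤
      rho * (n8 ^ 13 * n6 ^ 16) * (1 - E / 16) ^ 16)
    (kEaa : f1a + g1a + 32 * (n6 / Laa - 1) ≤ E) (kEab : f1a + g1b + 32 * (n6 / Lab - 1) ≤ E)
    (kEba : f1b + g1a + 32 * (n6 / Lba - 1) ≤ E) (kEbb : f1b + g1b + 32 * (n6 / Lbb - 1) ≤ E)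
    (rf1a : f1a = 26 * (q1a / b1 - 1) + 26 * (q2a / b2 - 1))
    (rf1b : f1b = 26 * (q1b / b1 - 1) + 26 * (q2b / b2 - 1))
    (rg1a : g1a = 6 * (q3a / b3 - 1) + 36 * (q4a / b4 - 1) + 26 * (n8 / L8a - 1))
    (rg1b : g1b = 6 * (q3b / b3 - 1) + 36 * (q4b / b4 - 1) + 26 * (n8 / L8b - 1))
    (rLaa : Laa = n6 - lx * hs - lv * ht) (rLab : Lab = n6 - lx * hs + lv * ht)
    (rLba : Lba = n6 + lx * hs - lv * ht) (rLbb : Lbb = n6 + lx * hs + lv * ht)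
    (rL8a : L8a = n8 - l1 * ht + c2) (rL8b : L8b = n8 + l1 * ht + c2)
    (rlx : lx = dx * wx + dy * wy) (rlv : lv = - (ex * wx + ey * wy))
    (rn6 : n6 = wx * wx + wy * wy) (rwx : wx = px + sc * dx - (qx + tc * ex))
    (rwy : wy = py + sc * dy - (qy + tc * ey))
    (rc2 : c2 = min 0 ((ex * ex - ey * ey) * yx + (2 * ex * ey) * yy) * ht * ht)
    (rl1 : l1 = (2 * (vx * ex - vy * ey)) * yx + (2 * (vx * ey + vy * ex)) * yy)
    (rn8 : n8 = yx * yx + yy * yy) (ryx : yx = vx * vx - vy * vy - 8) (ryy : yy = 2 * vx * vy)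
    (rvx : vx = qx + tc * ex) (rvy : vy = qy + tc * ey)
    (rsc : sc = (s0 + s1) / 2) (rtc : tc = (t0 + t1) / 2) (rhs : hs = (s1 - s0) / 2)
    (rht : ht = (t1 - t0) / 2)
    (rq1a : q1a = (px - 2 + s0 * dx) ^ 2 + (py + s0 * dy) ^ 2)
    (rq1b : q1b = (px - 2 + s1 * dx) ^ 2 + (py + s1 * dy) ^ 2)
    (rq2a : q2a = (px - 3 + s0 * dx) ^ 2 + (py + s0 * dy) ^ 2)
    (rq2b : q2b = (px - 3 + s1 * dx) ^ 2 + (py + s1 * dy) ^ 2)
    (rq3a : q3a = (qx - 2 + t0 * ex) ^ 2 + (qy + t0 * ey) ^ 2)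
    (rq3b : q3b = (qx - 2 + t1 * ex) ^ 2 + (qy + t1 * ey) ^ 2)
    (rq4a : q4a = (qx - 3 + t0 * ex) ^ 2 + (qy + t0 * ey) ^ 2)
    (rq4b : q4b = (qx - 3 + t1 * ex) ^ 2 + (qy + t1 * ey) ^ 2) :
    ((px + s * dx - 2) ^ 2 + (py + s * dy) ^ 2) ^ 26 *
    ((px + s * dx - 3) ^ 2 + (py + s * dy) ^ 2) ^ 26 *
    ((qx + t * ex - 2) ^ 2 + (qy + t * ey) ^ 2) ^ 6 *
    ((qx + t * ex - 3) ^ 2 + (qy + t * ey) ^ 2) ^ 36 ≤
    rho * ((((qx + t * ex) ^ 2 - (qy + t * ey) ^ 2 - 8) ^ 2 +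
      (2 * (qx + t * ex) * (qy + t * ey)) ^ 2) ^ 13 *
    (((px + s * dx) - (qx + t * ex)) ^ 2 + ((py + s * dy) - (qy + t * ey)) ^ 2) ^ 16) := by
  obtain ⟨l, hl0, hl1, hsl⟩ := cs_comb hs0 hs1
  obtain ⟨m, hm0, hm1, htm⟩ := cs_comb ht0 ht1
  have hQ1 := cs_quad (p := px) (p' := py) (d := dx) (d' := dy) (k := 2) hl0 hl1 hsl
  have hQ2 := cs_quad (p := px) (p' := py) (d := dx) (d' := dy) (k := 3) hl0 hl1 hsl
  have hQ3 := cs_quad (p := qx) (p' := qy) (d := ex) (d' := ey) (k := 2) hm0 hm1 htm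
  have hQ4 := cs_quad (p := qx) (p' := qy) (d := ex) (d' := ey) (k := 3) hm0 hm1 htm
  rw [← rq1a, ← rq1b] at hQ1
  rw [← rq2a, ← rq2b] at hQ2
  rw [← rq3a, ← rq3b] at hQ3
  rw [← rq4a, ← rq4b] at hQ4
  obtain ⟨hL8, hL8i⟩ := cs_inv kn8.le hm0 hm1 kL8a kL8b
  obtain ⟨hA, hAi⟩ := cs_inv kn6.le hm0 hm1 kLaa kLab
  obtain ⟨hB, hBi⟩ := cs_inv kn6.le hm0 hm1 kLba kLbb
  obtain ⟨hL6, hL6i⟩ := cs_inv kn6.le hl0 hl1 hA hB
  obtain ⟨htau, htau2⟩ := cs_tau hm0 hm1 htm rtc rht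
  obtain ⟨hsig, -⟩ := cs_tau hl0 hl1 hsl rsc rhs
  have hm8 := cs_m8 rvx rvy ryx ryy htau2 hL8 (by rw [rL8a, rL8b, rc2, rn8, ← rl1, htau]; ring)
  have hm6 := cs_m6 (s := s) (t := t)
    rwx rwy (L := (1 - l) * ((1 - m) * Laa + m * Lab) + l * ((1 - m) * Lba + m * Lbb))
    (by rw [rLaa, rLab, rLba, rLbb, rlx, rlv, rn6, htau, hsig]; ring)
  rw [← rn8] at hm8
  rw [← rn6] at hm6
  exact cs_final (by positivity) (by positivity) (by positivity) (by positivity) kb1 kb2 kb3 kb4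
    kn8 hL8 hm8 kn6 hL6 hm6
    (cs_sum hl0 hl1 hm0 hm1 kb1 kb2 kb3 kb4 hQ1 hQ2 hQ3 hQ4 hL8i hAi hBi hL6i kEaa kEab kEba
      kEbb rf1a rf1b rg1a rg1b) kE kfin

private theorem leaf_sound (R : Rc) (rho : ℚ) (s0 s1 t0 t1 : ℚ)
    (h : leaf R rho s0 s1 t0 t1 = true) (s t : ℝ) (hs0 : (s0 : ℝ) ≤ s) (hs1 : s ≤ (s1 : ℝ))
    (ht0 : (t0 : ℝ) ≤ t) (ht1 : t ≤ (t1 : ℝ)) : NN R s t ≤ (rho : ℝ) * DD R s t := by
  unfold leaf at h
  extract_lets sc tc ht hs Q1 Q2 Q3 Q4 q1a q1b q2a q2b q3a q3b q4a q4b b1 b2 b3 b4 vx vy yx yy n8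
    ax ay l1 bx by' c2 wx wy n6 lx lv L8a L8b f1a f1b g1a g1b Laa Lab Lba Lbb E at h
  simp only [Bool.and_eq_true, decide_eq_true_eq] at h
  obtain ⟨⟨⟨⟨⟨⟨⟨⟨⟨⟨⟨⟨⟨hb1, hb2⟩, hb3⟩, hb4⟩, hn8⟩, hn6⟩, hL8a⟩, hL8b⟩, hLaa⟩, hLab⟩, hLba⟩, hLbb⟩,
    hE⟩, hfin⟩ := h
  -- the four corners
  have hEaa : f1a + g1a + 32 * (n6 / Laa - 1) ≤ E := le_trans (le_max_left _ _) (le_max_left _ _)
  have hEab : f1a + g1b + 32 * (n6 / Lab - 1) ≤ E := le_trans (le_max_right _ _) (le_max_left _ _)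
  have hEba : f1b + g1a + 32 * (n6 / Lba - 1) ≤ E := le_trans (le_max_left _ _) (le_max_right _ _)
  have hEbb : f1b + g1b + 32 * (n6 / Lbb - 1) ≤ E :=
    le_trans (le_max_right _ _) (le_max_right _ _)
  -- equations
  have qf1a : f1a = 26 * (q1a / b1 - 1) + 26 * (q2a / b2 - 1) := rfl
  have qf1b : f1b = 26 * (q1b / b1 - 1) + 26 * (q2b / b2 - 1) := rfl
  have qg1a : g1a = 6 * (q3a / b3 - 1) + 36 * (q4a / b4 - 1) + 26 * (n8 / L8a - 1) := rfl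
  have qg1b : g1b = 6 * (q3b / b3 - 1) + 36 * (q4b / b4 - 1) + 26 * (n8 / L8b - 1) := rfl
  have qLaa : Laa = n6 - lx * hs - lv * ht := rfl
  have qLab : Lab = n6 - lx * hs + lv * ht := rfl
  have qLba : Lba = n6 + lx * hs - lv * ht := rfl
  have qLbb : Lbb = n6 + lx * hs + lv * ht := rfl
  have qL8a : L8a = n8 - l1 * ht + c2 := rfl
  have qL8b : L8b = n8 + l1 * ht + c2 := rfl
  have qlx : lx = R.dx * wx + R.dy * wy := rfl
  have qlv : lv = - (R.ex * wx + R.ey * wy) := rfl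
  have qn6 : n6 = wx * wx + wy * wy := rfl
  have qwx : wx = R.px + sc * R.dx - (R.qx + tc * R.ex) := rfl
  have qwy : wy = R.py + sc * R.dy - (R.qy + tc * R.ey) := rfl
  have qc2 : c2 = min 0 ((R.ex * R.ex - R.ey * R.ey) * yx + (2 * R.ex * R.ey) * yy) * ht * ht :=
    rfl
  have ql1 : l1 = (2 * (vx * R.ex - vy * R.ey)) * yx + (2 * (vx * R.ey + vy * R.ex)) * yy := rfl
  have qn8 : n8 = yx * yx + yy * yy := rfl
  have qyx : yx = vx * vx - vy * vy - 8 := rfl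
  have qyy : yy = 2 * vx * vy := rfl
  have qvx : vx = R.qx + tc * R.ex := rfl
  have qvy : vy = R.qy + tc * R.ey := rfl
  have qsc : sc = (s0 + s1) / 2 := rfl
  have qtc : tc = (t0 + t1) / 2 := rfl
  have qhs : hs = (s1 - s0) / 2 := rfl
  have qht : ht = (t1 - t0) / 2 := rfl
  have qq1a : q1a = (R.px + s0 * R.dx - 2) * (R.px + s0 * R.dx - 2) +
    (R.py + s0 * R.dy) * (R.py + s0 * R.dy) := rfl
  have qq1b : q1b = (R.px + s1 * R.dx - 2) * (R.px + s1 * R.dx - 2) +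
    (R.py + s1 * R.dy) * (R.py + s1 * R.dy) := rfl
  have qq2a : q2a = (R.px + s0 * R.dx - 3) * (R.px + s0 * R.dx - 3) +
    (R.py + s0 * R.dy) * (R.py + s0 * R.dy) := rfl
  have qq2b : q2b = (R.px + s1 * R.dx - 3) * (R.px + s1 * R.dx - 3) +
    (R.py + s1 * R.dy) * (R.py + s1 * R.dy) := rfl
  have qq3a : q3a = (R.qx + t0 * R.ex - 2) * (R.qx + t0 * R.ex - 2) +
    (R.qy + t0 * R.ey) * (R.qy + t0 * R.ey) := rfl
  have qq3b : q3b = (R.qx + t1 * R.ex - 2) * (R.qx + t1 * R.ex - 2) +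
    (R.qy + t1 * R.ey) * (R.qy + t1 * R.ey) := rfl
  have qq4a : q4a = (R.qx + t0 * R.ex - 3) * (R.qx + t0 * R.ex - 3) +
    (R.qy + t0 * R.ey) * (R.qy + t0 * R.ey) := rfl
  have qq4b : q4b = (R.qx + t1 * R.ex - 3) * (R.qx + t1 * R.ex - 3) +
    (R.qy + t1 * R.ey) * (R.qy + t1 * R.ey) := rfl
  clear_value E Laa Lab Lba Lbb f1a f1b g1a g1b L8a L8b n6 lx lv wx wy c2 bx by' l1 ax ay n8 yx yy
  clear_value b1 b2 b3 b4
  clear_value q1a q1b q2a q2b q3a q3b q4a q4b vx vy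
  clear_value sc tc ht hs
  clear Q1 Q2 Q3 Q4
  unfold NN DD
  refine cs_real (sc := (sc : ℝ)) (tc := (tc : ℝ)) (ht := (ht : ℝ)) (hs := (hs : ℝ))
    (q1a := (q1a : ℝ)) (q1b := (q1b : ℝ)) (q2a := (q2a : ℝ)) (q2b := (q2b : ℝ))
    (q3a := (q3a : ℝ)) (q3b := (q3b : ℝ)) (q4a := (q4a : ℝ)) (q4b := (q4b : ℝ))
    (b1 := (b1 : ℝ)) (b2 := (b2 : ℝ)) (b3 := (b3 : ℝ)) (b4 := (b4 : ℝ))
    (vx := (vx : ℝ)) (vy := (vy : ℝ)) (yx := (yx : ℝ)) (yy := (yy : ℝ)) (n8 := (n8 : ℝ))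
    (l1 := (l1 : ℝ)) (c2 := (c2 : ℝ)) (wx := (wx : ℝ)) (wy := (wy : ℝ)) (n6 := (n6 : ℝ))
    (lx := (lx : ℝ)) (lv := (lv : ℝ)) (L8a := (L8a : ℝ)) (L8b := (L8b : ℝ))
    (f1a := (f1a : ℝ)) (f1b := (f1b : ℝ)) (g1a := (g1a : ℝ)) (g1b := (g1b : ℝ))
    (Laa := (Laa : ℝ)) (Lab := (Lab : ℝ)) (Lba := (Lba : ℝ)) (Lbb := (Lbb : ℝ)) (E := (E : ℝ))
    hs0 hs1 ht0 ht1 (by exact_mod_cast hb1) (by exact_mod_cast hb2) (by exact_mod_cast hb3)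
    (by exact_mod_cast hb4) (by exact_mod_cast hn8) (by exact_mod_cast hn6)
    (by exact_mod_cast hL8a) (by exact_mod_cast hL8b) (by exact_mod_cast hLaa)
    (by exact_mod_cast hLab) (by exact_mod_cast hLba) (by exact_mod_cast hLbb)
    (by exact_mod_cast hE) (by exact_mod_cast hfin) (by exact_mod_cast hEaa)
    (by exact_mod_cast hEab) (by exact_mod_cast hEba) (by exact_mod_cast hEbb)
    (by exact_mod_cast qf1a) (by exact_mod_cast qf1b) (by exact_mod_cast qg1a)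
    (by exact_mod_cast qg1b) (by exact_mod_cast qLaa) (by exact_mod_cast qLab)
    (by exact_mod_cast qLba) (by exact_mod_cast qLbb) (by exact_mod_cast qL8a)
    (by exact_mod_cast qL8b) (by exact_mod_cast qlx) (by exact_mod_cast qlv)
    (by exact_mod_cast qn6) (by exact_mod_cast qwx) (by exact_mod_cast qwy)
    (by exact_mod_cast qc2) (by exact_mod_cast ql1) (by exact_mod_cast qn8)
    (by exact_mod_cast qyx) (by exact_mod_cast qyy) (by exact_mod_cast qvx)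
    (by exact_mod_cast qvy) (by exact_mod_cast qsc) (by exact_mod_cast qtc)
    (by exact_mod_cast qhs) (by exact_mod_cast qht)
    (by rw [qq1a]; push_cast; ring) (by rw [qq1b]; push_cast; ring)
    (by rw [qq2a]; push_cast; ring) (by rw [qq2b]; push_cast; ring)
    (by rw [qq3a]; push_cast; ring) (by rw [qq3b]; push_cast; ring)
    (by rw [qq4a]; push_cast; ring) (by rw [qq4b]; push_cast; ring)

theorem chk_sound (R : Rc) (rho : ℚ) (T : Tr) (s0 s1 t0 t1 : ℚ) (hs : s0 ≤ s1) (ht : t0 ≤ t1)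
    (h : chk R rho T s0 s1 t0 t1 = true) (s t : ℝ) (hs0 : (s0 : ℝ) ≤ s) (hs1 : s ≤ (s1 : ℝ))
    (ht0 : (t0 : ℝ) ≤ t) (ht1 : t ≤ (t1 : ℝ)) : NN R s t ≤ (rho : ℝ) * DD R s t := by
  induction T generalizing s0 s1 t0 t1 with
  | L => exact leaf_sound R rho s0 s1 t0 t1 h s t hs0 hs1 ht0 ht1
  | S a b iha ihb =>
    rw [chk, Bool.and_eq_true] at h
    have hc : (((s0 + s1) / 2 : ℚ) : ℝ) = (s0 + s1) / 2 := by push_cast; ring
    rcases le_total s (((s0 + s1) / 2 : ℚ) : ℝ) with h1 | h1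
    · exact iha s0 ((s0 + s1) / 2) t0 t1 (by linarith) ht h.1 hs0 h1 ht0 ht1
    · exact ihb ((s0 + s1) / 2) s1 t0 t1 (by linarith) ht h.2 h1 hs1 ht0 ht1
  | T a b iha ihb =>
    rw [chk, Bool.and_eq_true] at h
    rcases le_total t (((t0 + t1) / 2 : ℚ) : ℝ) with h1 | h1
    · exact iha s0 s1 t0 ((t0 + t1) / 2) hs (by linarith) h.1 hs0 hs1 ht0 h1
    · exact ihb s0 s1 ((t0 + t1) / 2) t1 hs (by linarith) h.2 hs0 hs1 h1 ht1

end Vale.Agent.P021.CertV
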