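import Mathlib

/-!
# P021: the polygonal paths for the two-fold integral

`γ_b = 2 → pS → 3`, `Γ_b = 3 → pA → pB → 2`, `γ_a = [2,3]`, `Γ_a = 3 → pC → 2`.
-/

namespace Vale.Agent.P021

noncomputable def pS : ℂ := ⟨23 / 8, -(3 / 8)⟩
noncomputable def pA : ℂ := ⟨45 / 16, -(3 / 32)⟩
noncomputable def pB : ℂ := ⟨9 / 4, 9 / 16⟩
noncomputable def pC : ℂ := ⟨33 / 16, -(13 / 16)⟩

/-- `(x, v)` lies on one of the eight products of segments. -/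
def OnPaths (x v : ℂ) : Prop :=
  ((x ∈ segment ℝ 2 pS ∨ x ∈ segment ℝ pS 3) ∧
    (v ∈ segment ℝ 3 pA ∨ v ∈ segment ℝ pA pB ∨ v ∈ segment ℝ pB 2)) ∨
  (x ∈ segment ℝ (2 : ℂ) 3 ∧ (v ∈ segment ℝ 3 pC ∨ v ∈ segment ℝ pC 2))

end Vale.Agent.P021
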