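import Mathlib

/-!
# P021: the functions `Q_a`, `Q_b`

`Q_γ(v) = ∫_γ N(x)/(x-v)^(M+1) dx`, `γ` from `2` to `3`, written without integrals: the primitive in
`x` is `RR N M v x + (D^[M] N)(v) * log (x - v)` with a branch of the logarithm which depends on
`γ`.  `QA`: `γ = [2,3]`, `v` in the lower half plane, principal branch.  `QB`: `γ` passes below `v`,
branch `log (i (x - v))`.
-/

namespace Vale.Agent.P021

open Polynomial

/-- rational part of the primitive of `N(x)/(x-v)^(M+1)`. -/
noncomputable def RR (N : ℂ[X]) (M : ℕ) (v x : ℂ) : ℂ :=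
  ∑ j ∈ Finset.range (N.natDegree + 1), if j = M then 0 else
    (hasseDeriv j N).eval v * (x - v) ^ ((j : ℤ) - M) / (((j : ℤ) - M : ℤ) : ℂ)

noncomputable def QA (N : ℂ[X]) (M : ℕ) (v : ℂ) : ℂ :=
  RR N M v 3 - RR N M v 2 + (hasseDeriv M N).eval v * (Complex.log (3 - v) - Complex.log (2 - v))

noncomputable def QB (N : ℂ[X]) (M : ℕ) (v : ℂ) : ℂ :=
  RR N M v 3 - RR N M v 2 + (hasseDeriv M N).eval v *
    (Complex.log (Complex.I * (3 - v)) - Complex.log (Complex.I * (2 - v)))

private theorem QFun_taylor (N : ℂ[X]) (v x : ℂ) :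
    ∑ j ∈ Finset.range (N.natDegree + 1), (hasseDeriv j N).eval v * (x - v) ^ j = N.eval x := by
  have h1 := congrArg (Polynomial.eval x) (Polynomial.sum_taylor_eq N v)
  rw [Polynomial.sum_over_range _ (by intro n; simp), Polynomial.natDegree_taylor,
    Polynomial.eval_finsetSum] at h1
  rw [← h1]
  refine Finset.sum_congr rfl fun j _ => ?_
  rw [Polynomial.taylor_coeff]
  simp

private theorem QFun_hasDerivAt_RR (N : ℂ[X]) (M : ℕ) (v : ℂ) {x : ℂ} (hx : x - v ≠ 0) :
    HasDerivAt (fun x => RR N M v x) (∑ j ∈ Finset.range (N.natDegree + 1), if j = M then 0 else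
      (hasseDeriv j N).eval v * (x - v) ^ ((j : ℤ) - M - 1)) x := by
  unfold RR
  apply HasDerivAt.fun_sum
  intro j _
  by_cases hj : j = M
  · simp only [hj, if_true]
    exact hasDerivAt_const _ _
  · simp only [hj, if_false]
    have h0 : (((j : ℤ) - M : ℤ) : ℂ) ≠ 0 := by
      have : (j : ℤ) - M ≠ 0 := by omega
      exact_mod_cast this
    have h1 : HasDerivAt (fun x : ℂ => x - v) 1 x := (hasDerivAt_id x).sub_const v
    have h2 := ((hasDerivAt_zpow ((j : ℤ) - M) (x - v) (Or.inl hx)).comp x h1).const_mul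
      ((hasseDeriv j N).eval v)
    have h3 := h2.div_const (((j : ℤ) - M : ℤ) : ℂ)
    refine h3.congr_deriv ?_
    field_simp

private theorem QFun_hasDerivAt (N : ℂ[X]) (M : ℕ) (v u : ℂ) {x : ℂ}
    (hx : u * (x - v) ∈ Complex.slitPlane) :
    HasDerivAt (fun x => RR N M v x + (hasseDeriv M N).eval v * Complex.log (u * (x - v)))
      (N.eval x / (x - v) ^ (M + 1)) x := by
  have hux : u * (x - v) ≠ 0 := Complex.slitPlane_ne_zero hx
  have hu : u ≠ 0 := left_ne_zero_of_mul hux
  have hxv : x - v ≠ 0 := right_ne_zero_of_mul hux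
  have h1 : HasDerivAt (fun x : ℂ => u * (x - v)) u x := by
    have := ((hasDerivAt_id x).sub_const v).const_mul u
    simpa using this
  have h2 := (h1.clog hx).const_mul ((hasseDeriv M N).eval v)
  refine ((QFun_hasDerivAt_RR N M v hxv).add h2).congr_deriv ?_
  rw [← QFun_taylor N v x, Finset.sum_div]
  have h3 : (hasseDeriv M N).eval v * (u / (u * (x - v))) =
      ∑ j ∈ Finset.range (N.natDegree + 1), if j = M then
        (hasseDeriv j N).eval v * (x - v) ^ ((j : ℤ) - M - 1) else 0 := by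
    rw [Finset.sum_ite_eq' (Finset.range (N.natDegree + 1)) M]
    split_ifs with h
    · rw [sub_self, zero_sub, zpow_neg_one]
      field_simp
    · rw [Finset.mem_range, not_lt] at h
      rw [Polynomial.hasseDeriv_eq_zero_of_lt_natDegree N M (by omega)]
      simp
  rw [h3, ← Finset.sum_add_distrib]
  refine Finset.sum_congr rfl fun j _ => ?_
  have h4 : (x - v) ^ ((j : ℤ) - M - 1) = (x - v) ^ j / (x - v) ^ (M + 1) := by
    rw [sub_sub, zpow_sub₀ hxv, zpow_natCast]
    norm_cast
  split_ifs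
  · rw [zero_add, h4, mul_div_assoc]
  · rw [add_zero, h4, mul_div_assoc]

theorem QB_sub_QA (N : ℂ[X]) (M : ℕ) {v : ℂ} (hv : v.im < 0) (h2 : 2 < v.re) (h3 : v.re < 3) :
    QB N M v - QA N M v = 2 * Real.pi * Complex.I * (hasseDeriv M N).eval v := by
  have e3 : Complex.log (Complex.I * (3 - v)) = Real.pi / 2 * Complex.I + Complex.log (3 - v) := by
    have h3r : 0 < (3 - v).re := by simp; linarith
    have h3n : (3 - v) ≠ 0 := fun h => by rw [h] at h3r; simp at h3r
    have h4 := (Complex.abs_arg_lt_pi_div_two_iff.2 (Or.inl h3r))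
    rw [abs_lt] at h4
    have h5 : Complex.log (Complex.I * (3 - v)) = Complex.log Complex.I + Complex.log (3 - v) := by
      apply (Complex.log_mul_eq_add_log_iff Complex.I_ne_zero h3n).2
      rw [Complex.arg_I]
      constructor <;> linarith [Real.pi_pos]
    rw [h5, Complex.log_I]
  have e2 : Complex.log (Complex.I * (2 - v)) =
      Complex.log (2 - v) - 3 / 2 * Real.pi * Complex.I := by
    have h2r : 0 < (v - 2).re := by simp; linarith
    have h2i : (v - 2).im < 0 := by simp; linarith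
    have h2n : (v - 2) ≠ 0 := fun h => by rw [h] at h2r; simp at h2r
    have h4 := (Complex.abs_arg_lt_pi_div_two_iff.2 (Or.inl h2r))
    rw [abs_lt] at h4
    have h5 : Complex.log (Complex.I * (2 - v)) = Complex.log (-Complex.I) + Complex.log (v - 2) := by
      have h6 : Complex.I * (2 - v) = (-Complex.I) * (v - 2) := by ring
      rw [h6]
      apply (Complex.log_mul_eq_add_log_iff (neg_ne_zero.2 Complex.I_ne_zero) h2n).2
      rw [Complex.arg_neg_I]
      constructor <;> linarith [Real.pi_pos]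
    have h7 : Complex.log (2 - v) = Complex.log (v - 2) + Real.pi * Complex.I := by
      have h8 : 2 - v = -(v - 2) := by ring
      rw [h8, Complex.log, Complex.log, norm_neg,
        Complex.arg_neg_eq_arg_add_pi_of_im_neg h2i]
      push_cast
      ring
    rw [h5, Complex.log_neg_I, h7]
    ring
  unfold QB QA
  rw [e3, e2]
  ring

private theorem QFun_diff_RR (N : ℂ[X]) (M : ℕ) (x : ℂ) {v : ℂ} (hv : x - v ≠ 0) :
    DifferentiableAt ℂ (fun v => RR N M v x) v := by
  unfold RR
  apply DifferentiableAt.fun_sum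
  intro j _
  by_cases hj : j = M
  · simp only [hj, if_true]
    exact differentiableAt_const _
  · simp only [hj, if_false]
    have h1 : DifferentiableAt ℂ (fun v : ℂ => x - v) v := by fun_prop
    exact (((hasseDeriv j N).differentiableAt).mul (h1.zpow (Or.inl hv))).div_const _

theorem QA_differentiableAt (N : ℂ[X]) (M : ℕ) {v : ℂ} (hv : v.im < 0) :
    DifferentiableAt ℂ (QA N M) v := by
  have hs : ∀ x : ℝ, ((x : ℂ) - v) ∈ Complex.slitPlane := by
    intro x
    rw [Complex.mem_slitPlane_iff]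
    right
    simp
    linarith
  have h3 : (3 - v) ∈ Complex.slitPlane := by exact_mod_cast hs 3
  have h2 : (2 - v) ∈ Complex.slitPlane := by exact_mod_cast hs 2
  have h3' : DifferentiableAt ℂ (fun v : ℂ => 3 - v) v := by fun_prop
  have h2' : DifferentiableAt ℂ (fun v : ℂ => 2 - v) v := by fun_prop
  unfold QA
  exact ((QFun_diff_RR N M 3 (Complex.slitPlane_ne_zero h3)).sub
    (QFun_diff_RR N M 2 (Complex.slitPlane_ne_zero h2))).add
    (((hasseDeriv M N).differentiableAt).mul ((h3'.clog h3).sub (h2'.clog h2)))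

theorem QB_differentiableAt (N : ℂ[X]) (M : ℕ) {v : ℂ}
    (h2 : Complex.I * (2 - v) ∈ Complex.slitPlane) (h3 : Complex.I * (3 - v) ∈ Complex.slitPlane) :
    DifferentiableAt ℂ (QB N M) v := by
  have h3' : DifferentiableAt ℂ (fun v : ℂ => Complex.I * (3 - v)) v := by fun_prop
  have h2' : DifferentiableAt ℂ (fun v : ℂ => Complex.I * (2 - v)) v := by fun_prop
  unfold QB
  exact ((QFun_diff_RR N M 3 (right_ne_zero_of_mul (Complex.slitPlane_ne_zero h3))).sub
    (QFun_diff_RR N M 2 (right_ne_zero_of_mul (Complex.slitPlane_ne_zero h2)))).add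
    (((hasseDeriv M N).differentiableAt).mul ((h3'.clog h3).sub (h2'.clog h2)))

private theorem QFun_bound (N : ℂ[X]) (M : ℕ) (v u : ℂ) {a b : ℂ} {B : ℝ}
    (hv : ∀ x ∈ segment ℝ a b, u * (x - v) ∈ Complex.slitPlane)
    (h : ∀ x ∈ segment ℝ a b, ‖N.eval x‖ / ‖x - v‖ ^ (M + 1) ≤ B) :
    ‖(RR N M v b + (hasseDeriv M N).eval v * Complex.log (u * (b - v))) -
      (RR N M v a + (hasseDeriv M N).eval v * Complex.log (u * (a - v)))‖ ≤ B * ‖b - a‖ := by
  refine Convex.norm_image_sub_le_of_norm_hasDerivWithin_le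
    (f := fun x => RR N M v x + (hasseDeriv M N).eval v * Complex.log (u * (x - v)))
    (f' := fun x => N.eval x / (x - v) ^ (M + 1)) (s := segment ℝ a b)
    (fun x hx => (QFun_hasDerivAt N M v u (hv x hx)).hasDerivWithinAt) (fun x hx => ?_)
    (convex_segment a b) (left_mem_segment ℝ a b) (right_mem_segment ℝ a b)
  rw [norm_div, norm_pow]
  exact h x hx

theorem QA_bound (N : ℂ[X]) (M : ℕ) {v : ℂ} (hv : v.im < 0) {B : ℝ}
    (h : ∀ x ∈ segment ℝ (2 : ℂ) 3, ‖N.eval x‖ / ‖x - v‖ ^ (M + 1) ≤ B) :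
    ‖QA N M v‖ ≤ B := by
  have h1 := QFun_bound N M v 1 (a := 2) (b := 3) (B := B) (by
    intro x hx
    rw [one_mul, Complex.mem_slitPlane_iff]
    right
    have hxi : x.im = 0 := by
      obtain ⟨s, t, -, -, -, rfl⟩ := hx
      simp
    rw [Complex.sub_im, hxi]
    linarith) h
  have h2 : ‖(3 : ℂ) - 2‖ = 1 := by
    norm_num
  rw [h2, mul_one, one_mul, one_mul] at h1
  have h3 : QA N M v = (RR N M v 3 + (hasseDeriv M N).eval v * Complex.log (3 - v)) -
      (RR N M v 2 + (hasseDeriv M N).eval v * Complex.log (2 - v)) := by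
    unfold QA
    ring
  rw [h3]
  exact h1

theorem QB_bound (N : ℂ[X]) (M : ℕ) {v S : ℂ} {B : ℝ}
    (hv : ∀ x : ℂ, x ∈ segment ℝ 2 S ∨ x ∈ segment ℝ S 3 →
      Complex.I * (x - v) ∈ Complex.slitPlane)
    (h : ∀ x : ℂ, x ∈ segment ℝ 2 S ∨ x ∈ segment ℝ S 3 →
      ‖N.eval x‖ / ‖x - v‖ ^ (M + 1) ≤ B) :
    ‖QB N M v‖ ≤ B * (‖S - 2‖ + ‖3 - S‖) := by
  have h1 := QFun_bound N M v Complex.I (a := 2) (b := S) (B := B)
    (fun x hx => hv x (Or.inl hx)) (fun x hx => h x (Or.inl hx))
  have h2 := QFun_bound N M v Complex.I (a := S) (b := 3) (B := B)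
    (fun x hx => hv x (Or.inr hx)) (fun x hx => h x (Or.inr hx))
  have h3 : QB N M v =
      ((RR N M v S + (hasseDeriv M N).eval v * Complex.log (Complex.I * (S - v))) -
        (RR N M v 2 + (hasseDeriv M N).eval v * Complex.log (Complex.I * (2 - v)))) +
      ((RR N M v 3 + (hasseDeriv M N).eval v * Complex.log (Complex.I * (3 - v))) -
        (RR N M v S + (hasseDeriv M N).eval v * Complex.log (Complex.I * (S - v)))) := by
    unfold QB
    ring
  rw [h3, mul_add]
  exact (norm_add_le _ _).trans (add_le_add h1 h2)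

end Vale.Agent.P021
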