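import Vale.Agent.Lib.P021.Analytic

/-!
# P021: the form as a function of `v`

`wv v = i √(8 - v²)` (principal root), `z = (v + wv v)/2`, so `z + 2/z = v`, `z - 2/z = wv v`,
`Im z > 0` when `8 - v² ∈ slitPlane`.  `z(2) = 1 + i`, and `z(v) → 1` when `v → 3`, `Im v < 0`.
-/

namespace Vale.Agent.P021

open Polynomial Filter Topology

/-- `w` as a function of `v`. -/
noncomputable def wv (v : ℂ) : ℂ := Complex.I * (8 - v ^ 2) ^ (1 / 2 : ℂ)

theorem wv_sq (v : ℂ) : wv v ^ 2 = v ^ 2 - 8 := by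
  have h : ((8 - v ^ 2) ^ (1 / 2 : ℂ)) ^ 2 = 8 - v ^ 2 := by
    rw [one_div]
    exact Complex.cpow_ofNat_inv_pow (8 - v ^ 2) 2
  rw [wv, mul_pow, h, Complex.I_sq]
  ring

theorem norm_wv_sq (v : ℂ) : ‖wv v‖ ^ 2 = ‖v ^ 2 - 8‖ := by
  rw [← norm_pow, wv_sq]

theorem wv_ne_zero {v : ℂ} (hv : 8 - v ^ 2 ∈ Complex.slitPlane) : wv v ≠ 0 := by
  intro h
  have h1 := wv_sq v
  rw [h] at h1
  have h2 : 8 - v ^ 2 = 0 := by linear_combination h1
  exact Complex.slitPlane_ne_zero hv h2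

theorem wv_differentiableAt {v : ℂ} (hv : 8 - v ^ 2 ∈ Complex.slitPlane) :
    DifferentiableAt ℂ wv v := by
  have h1 : DifferentiableAt ℂ (fun v : ℂ => 8 - v ^ 2) v := by fun_prop
  exact (h1.cpow (differentiableAt_const _) hv).const_mul Complex.I

theorem slit_of_im_ne {v : ℂ} (hv : v.im ≠ 0) : 8 - v ^ 2 ∈ Complex.slitPlane := by
  rw [Complex.mem_slitPlane_iff]
  by_cases h : v.re = 0
  · left
    have : (8 - v ^ 2 : ℂ).re = 8 - (v.re ^ 2 - v.im ^ 2) := by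
      simp [pow_two]
    rw [this, h]
    have := sq_nonneg v.im
    linarith
  · right
    have : (8 - v ^ 2 : ℂ).im = -(2 * v.re * v.im) := by
      simp [pow_two]
      ring
    rw [this]
    exact neg_ne_zero.2 (mul_ne_zero (mul_ne_zero two_ne_zero h) hv)

theorem slit_of_re {v : ℂ} (h1 : -(14 / 5) ≤ v.re) (h2 : v.re ≤ 2.82) :
    8 - v ^ 2 ∈ Complex.slitPlane := by
  rw [Complex.mem_slitPlane_iff]
  left
  have : (8 - v ^ 2 : ℂ).re = 8 - (v.re ^ 2 - v.im ^ 2) := by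
    simp [pow_two]
  rw [this]
  norm_num at h2
  have h3 := sq_nonneg v.im
  nlinarith

theorem sheet_root_re_pos {x : ℂ} (hx : x ∈ Complex.slitPlane) : 0 < (x ^ (1 / 2 : ℂ)).re := by
  rw [Complex.cpow_def_of_ne_zero (Complex.slitPlane_ne_zero hx), Complex.exp_re]
  refine mul_pos (Real.exp_pos _) ?_
  have h1 : (Complex.log x * (1 / 2 : ℂ)).im = x.arg / 2 := by
    simp [Complex.log_im, Complex.mul_im]
    ring
  rw [h1]
  have h2 := Complex.neg_pi_lt_arg x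
  have h3 : x.arg < Real.pi :=
    lt_of_le_of_ne (Complex.arg_le_pi x) (Complex.mem_slitPlane_iff_arg.1 hx).1
  exact Real.cos_pos_of_mem_Ioo ⟨by linarith, by linarith⟩

/-- `z` as a function of `v` -/
noncomputable def sheetZ (v : ℂ) : ℂ := (v + wv v) / 2

theorem sheetZ_mul (v : ℂ) : sheetZ v * ((v - wv v) / 2) = 2 := by
  have := wv_sq v
  unfold sheetZ
  linear_combination (-(1 / 4 : ℂ)) * this

theorem sheetZ_ne_zero (v : ℂ) : sheetZ v ≠ 0 := by
  intro h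
  have := sheetZ_mul v
  rw [h, zero_mul] at this
  norm_num at this

theorem sheetZ_inv (v : ℂ) : 2 / sheetZ v = (v - wv v) / 2 := by
  rw [div_eq_iff (sheetZ_ne_zero v), mul_comm, sheetZ_mul]

theorem sheetZ_add (v : ℂ) : sheetZ v + 2 / sheetZ v = v := by
  rw [sheetZ_inv, sheetZ]
  ring

theorem sheetZ_sub (v : ℂ) : sheetZ v - 2 / sheetZ v = wv v := by
  rw [sheetZ_inv, sheetZ]
  ring

theorem sheetZ_im_pos {v : ℂ} (hv : 8 - v ^ 2 ∈ Complex.slitPlane) : 0 < (sheetZ v).im := by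
  have h1 : (wv v).im = ((8 - v ^ 2) ^ (1 / 2 : ℂ)).re := by
    unfold wv
    simp
  have h2 : 0 < (wv v).im := by
    rw [h1]
    exact sheet_root_re_pos hv
  rw [← sheetZ_sub] at h2
  have hz := sheetZ_ne_zero v
  have hn : 0 < Complex.normSq (sheetZ v) := Complex.normSq_pos.2 hz
  have h3 : (sheetZ v - 2 / sheetZ v).im =
      (sheetZ v).im * (1 + 2 / Complex.normSq (sheetZ v)) := by
    rw [Complex.sub_im, Complex.div_im]
    simp
    ring
  rw [h3] at h2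
  have h4 : 0 < 1 + 2 / Complex.normSq (sheetZ v) := by positivity
  exact (pos_iff_pos_of_mul_pos h2).2 h4

theorem sheetZ_slit {v : ℂ} (hv : 8 - v ^ 2 ∈ Complex.slitPlane) :
    sheetZ v ∈ Complex.slitPlane :=
  Complex.mem_slitPlane_iff.2 (Or.inr (sheetZ_im_pos hv).ne')

theorem sheetZ_sq_ne {v : ℂ} (hv : 8 - v ^ 2 ∈ Complex.slitPlane) : sheetZ v ^ 2 ≠ 2 := by
  intro h
  apply wv_ne_zero hv
  rw [← sheetZ_sub, ← h]
  have := sheetZ_ne_zero v
  field_simp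
  ring

theorem sheetZ_hasDerivAt {v : ℂ} (hv : 8 - v ^ 2 ∈ Complex.slitPlane) :
    HasDerivAt sheetZ (sheetZ v / wv v) v := by
  have h1 := (wv_differentiableAt hv).hasDerivAt
  have h2 : HasDerivAt (fun v => wv v ^ 2) (2 * wv v * deriv wv v) v := by
    have := h1.pow 2
    refine this.congr_deriv ?_
    ring
  have h3 : HasDerivAt (fun v : ℂ => wv v ^ 2) (2 * v) v := by
    have h4 : (fun v : ℂ => wv v ^ 2) = fun v => v ^ 2 - 8 := funext wv_sq
    rw [h4]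
    have := (hasDerivAt_pow 2 v).sub_const 8
    refine this.congr_deriv ?_
    ring
  have h4 := h2.unique h3
  have hw := wv_ne_zero hv
  have h5 : deriv wv v = v / wv v := by
    rw [eq_div_iff hw]
    linear_combination (1 / 2 : ℂ) * h4
  have h6 := ((hasDerivAt_id v).add h1).div_const 2
  refine h6.congr_deriv ?_
  rw [h5, sheetZ]
  field_simp
  ring

theorem sheetZ_two : sheetZ 2 = 1 + Complex.I := by
  have hs : (8 - (2 : ℂ) ^ 2) ∈ Complex.slitPlane := by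
    rw [Complex.mem_slitPlane_iff]
    left
    norm_num
  have h1 := sheet_root_re_pos hs
  have h2 : ((8 - (2 : ℂ) ^ 2) ^ (1 / 2 : ℂ)) ^ 2 = 8 - (2 : ℂ) ^ 2 := by
    rw [one_div]
    exact Complex.cpow_ofNat_inv_pow (8 - (2 : ℂ) ^ 2) 2
  obtain ⟨s, hs'⟩ : ∃ s, s = (8 - (2 : ℂ) ^ 2) ^ (1 / 2 : ℂ) := ⟨_, rfl⟩
  have hw : wv 2 = Complex.I * s := by rw [hs']; rfl
  rw [← hs'] at h1 h2
  have h3 : (s - 2) * (s + 2) = 0 := by linear_combination h2
  have h4 : s = 2 := by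
    rcases mul_eq_zero.1 h3 with h | h
    · exact sub_eq_zero.1 h
    · exfalso
      have h5 : s = -2 := eq_neg_of_add_eq_zero_left h
      rw [h5] at h1
      norm_num at h1
  rw [sheetZ, hw, h4]
  ring

theorem sheetZ_bound {v : ℂ} (h1 : v.im < 0) (h2 : 0 < v.re) :
    ‖sheetZ v - 1‖ ≤ (‖v - 3‖ + ‖v ^ 2 - 9‖) / 2 := by
  have hv := slit_of_im_ne h1.ne
  have hre := sheet_root_re_pos hv
  have hsq : ((8 - v ^ 2) ^ (1 / 2 : ℂ)) ^ 2 = 8 - v ^ 2 := by
    rw [one_div]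
    exact Complex.cpow_ofNat_inv_pow (8 - v ^ 2) 2
  obtain ⟨s, hs'⟩ : ∃ s, s = (8 - v ^ 2) ^ (1 / 2 : ℂ) := ⟨_, rfl⟩
  have hw : wv v = Complex.I * s := by rw [hs']; rfl
  rw [← hs'] at hre hsq
  have him : 0 < s.im := by
    have h3 : (s ^ 2).im = 2 * s.re * s.im := by
      rw [pow_two, Complex.mul_im]
      ring
    have h4 : (8 - v ^ 2 : ℂ).im = -(2 * v.re * v.im) := by
      simp [pow_two]
      ring
    rw [hsq, h4] at h3
    have h5 : 0 < -(2 * v.re * v.im) := by nlinarith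
    rw [h3] at h5
    exact (pos_iff_pos_of_mul_pos h5).1 (by linarith)
  have h6 : 1 ≤ ‖s + Complex.I‖ := by
    have h7 : (s + Complex.I).im ≤ ‖s + Complex.I‖ := (le_abs_self _).trans
      (Complex.abs_im_le_norm _)
    have h8 : (s + Complex.I).im = s.im + 1 := by simp
    linarith
  have h9 : ‖s - Complex.I‖ ≤ ‖v ^ 2 - 9‖ := by
    have h10 : (s - Complex.I) * (s + Complex.I) = -(v ^ 2 - 9) := by
      have : (s - Complex.I) * (s + Complex.I) = s ^ 2 - Complex.I ^ 2 := by ring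
      rw [this, hsq, Complex.I_sq]
      ring
    calc ‖s - Complex.I‖ ≤ ‖s - Complex.I‖ * ‖s + Complex.I‖ :=
          le_mul_of_one_le_right (norm_nonneg _) h6
      _ = ‖v ^ 2 - 9‖ := by rw [← norm_mul, h10, norm_neg]
  have h11 : sheetZ v - 1 = ((v - 3) + Complex.I * (s - Complex.I)) / 2 := by
    rw [sheetZ, hw]
    have := Complex.I_sq
    linear_combination (1 / 2 : ℂ) * this
  rw [h11, norm_div, Complex.norm_ofNat]
  have h12 : ‖(v - 3) + Complex.I * (s - Complex.I)‖ ≤ ‖v - 3‖ + ‖v ^ 2 - 9‖ := by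
    refine (norm_add_le _ _).trans ?_
    rw [norm_mul, Complex.norm_I, one_mul]
    linarith
  linarith

theorem sheetZ_tendsto : Tendsto sheetZ (𝓝[{v : ℂ | v.im < 0}] 3) (𝓝 1) := by
  rw [tendsto_iff_norm_sub_tendsto_zero]
  have h1 : Tendsto (fun v : ℂ => (‖v - 3‖ + ‖v ^ 2 - 9‖) / 2) (𝓝[{v : ℂ | v.im < 0}] 3)
      (𝓝 0) := by
    have h2 : Continuous (fun v : ℂ => (‖v - 3‖ + ‖v ^ 2 - 9‖) / 2) := by fun_prop
    have h3 := h2.tendsto (3 : ℂ)
    have h4 : (‖(3 : ℂ) - 3‖ + ‖(3 : ℂ) ^ 2 - 9‖) / 2 = 0 := by norm_num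
    rw [h4] at h3
    exact h3.mono_left nhdsWithin_le_nhds
  refine squeeze_zero' (Eventually.of_forall fun _ => norm_nonneg _) ?_ h1
  have h5 : ∀ᶠ v : ℂ in 𝓝[{v : ℂ | v.im < 0}] 3, 0 < v.re := by
    have h6 : ∀ᶠ v : ℂ in 𝓝 (3 : ℂ), 0 < v.re :=
      (Complex.continuous_re.tendsto (3 : ℂ)).eventually (lt_mem_nhds (by norm_num))
    exact h6.filter_mono nhdsWithin_le_nhds
  filter_upwards [h5, self_mem_nhdsWithin] with v hv1 hv2
  exact sheetZ_bound hv2 hv1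

/-- the primitive of `exists_primitive` composed with `z(v)`. -/
theorem exists_G0 (H : ℤ) (N : ℚ[X]) : ∃ G0 : ℂ → ℂ,
    (∀ v : ℂ, 8 - v ^ 2 ∈ Complex.slitPlane →
      HasDerivAt G0 ((N.map (algebraMap ℚ ℂ)).eval v * (wv v) ^ (-2 * H - 1)) v) ∧
    (G0 2).im = (LA H N : ℝ) + (LB H N : ℝ) * (Real.pi / 4) ∧
    Tendsto (fun v => (G0 v).im) (𝓝[{v : ℂ | v.im < 0}] 3) (𝓝 0) := by
  obtain ⟨G, hG, hG1, hG2⟩ := exists_primitive H N
  refine ⟨fun v => G (sheetZ v), fun v hv => ?_, ?_, ?_⟩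
  · have h1 := hG (sheetZ v) (sheetZ_slit hv) (sheetZ_sq_ne hv)
    rw [sheetZ_add, sheetZ_sub] at h1
    have h2 := h1.comp v (sheetZ_hasDerivAt hv)
    refine h2.congr_deriv ?_
    have hw := wv_ne_zero hv
    have hz := sheetZ_ne_zero v
    rw [zpow_sub_one₀ hw]
    field_simp
  · change (G (sheetZ 2)).im = _
    rw [sheetZ_two]
    exact hG1
  · have h1 : HasDerivAt G _ (1 : ℂ) := hG 1 Complex.one_mem_slitPlane (by norm_num)
    have h2 : Tendsto (fun v => (G (sheetZ v)).im) (𝓝[{v : ℂ | v.im < 0}] 3) (𝓝 (G 1).im) :=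
      (Complex.continuous_im.tendsto (G 1)).comp (h1.continuousAt.tendsto.comp sheetZ_tendsto)
    rw [hG2] at h2
    exact h2

end Vale.Agent.P021
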