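import Mathlib

/-!
# Holomorphic functions on star-shaped open sets have primitives
-/

namespace Vale.Agent.P021

open MeasureTheory Set Metric

theorem exists_primitive_starConvex {U : Set ℂ} (hU : IsOpen U) {c : ℂ} (hc : StarConvex ℝ c U)
    {f : ℂ → ℂ} (hf : DifferentiableOn ℂ f U) :
    ∃ F : ℂ → ℂ, ∀ z ∈ U, HasDerivAt F (f z) z := by
  refine ⟨fun z => (z - c) * ∫ t in (0 : ℝ)..1, f (c + (t : ℂ) * (z - c)), ?_⟩
  intro z0 hz0
  have hmem : ∀ t ∈ Icc (0 : ℝ) 1, ∀ z ∈ U, c + (t : ℂ) * (z - c) ∈ U := by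
    intro t ht z hz
    have h1 := hc hz (a := 1 - t) (b := t) (by linarith [ht.2]) ht.1 (by ring)
    have h2 : c + (t : ℂ) * (z - c) = (1 - t) • c + t • z := by
      simp only [Complex.real_smul, Complex.ofReal_sub, Complex.ofReal_one]
      ring
    rw [h2]
    exact h1
  obtain ⟨ε, hε, hball⟩ := nhds_basis_closedBall.mem_iff.mp (hU.mem_nhds hz0)
  have hK : IsCompact ((fun p : ℝ × ℂ => c + (p.1 : ℂ) * (p.2 - c)) ''
      (Icc (0 : ℝ) 1 ×ˢ closedBall z0 ε)) :=
    (isCompact_Icc.prod (isCompact_closedBall _ _)).image (by fun_prop)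
  have hKU : ((fun p : ℝ × ℂ => c + (p.1 : ℂ) * (p.2 - c)) ''
      (Icc (0 : ℝ) 1 ×ˢ closedBall z0 ε)) ⊆ U := by
    rintro _ ⟨p, hp, rfl⟩
    exact hmem p.1 hp.1 p.2 (hball hp.2)
  have hd : ContinuousOn (deriv f) U := (hf.deriv hU).continuousOn
  obtain ⟨C, hC⟩ := hK.exists_bound_of_continuousOn (hd.mono hKU)
  have hcont : ∀ (u : ℂ → ℂ), ContinuousOn u U → ∀ z ∈ U,
      ContinuousOn (fun t : ℝ => u (c + (t : ℂ) * (z - c))) (Icc (0 : ℝ) 1) := by
    intro u hu z hz
    exact hu.comp (by fun_prop) (fun t ht => hmem t ht z hz)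
  have hdz : ∀ t ∈ Icc (0 : ℝ) 1, ∀ z ∈ U,
      HasDerivAt f (deriv f (c + (t : ℂ) * (z - c))) (c + (t : ℂ) * (z - c)) := by
    intro t ht z hz
    exact (hf.differentiableAt (hU.mem_nhds (hmem t ht z hz))).hasDerivAt
  have hIoc : ∀ t ∈ uIoc (0 : ℝ) 1, t ∈ Icc (0 : ℝ) 1 := by
    intro t ht
    rw [uIoc_of_le zero_le_one] at ht
    exact Ioc_subset_Icc_self ht
  have hmeas : ∀ u : ℝ → ℂ, ContinuousOn u (Icc (0 : ℝ) 1) →
      AEStronglyMeasurable u (volume.restrict (uIoc (0 : ℝ) 1)) := by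
    intro u hu
    refine (hu.mono hIoc).aestronglyMeasurable measurableSet_uIoc
  have main := intervalIntegral.hasDerivAt_integral_of_dominated_loc_of_deriv_le
    (μ := volume) (a := 0) (b := 1) (F := fun z (t : ℝ) => f (c + (t : ℂ) * (z - c)))
    (F' := fun z (t : ℝ) => (t : ℂ) * deriv f (c + (t : ℂ) * (z - c))) (x₀ := z0)
    (s := ball z0 ε) (bound := fun _ => C) (ball_mem_nhds _ hε)
    (by
      filter_upwards [ball_mem_nhds z0 hε] with z hz
      exact hmeas _ (hcont f hf.continuousOn z (hball (ball_subset_closedBall hz))))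
    (by
      apply ContinuousOn.intervalIntegrable
      rw [uIcc_of_le zero_le_one]
      exact hcont f hf.continuousOn z0 hz0)
    (hmeas _ ((by fun_prop : ContinuousOn (fun t : ℝ => (t : ℂ)) (Icc (0 : ℝ) 1)).mul
      (hcont (deriv f) hd z0 hz0)))
    (by
      refine Filter.Eventually.of_forall (fun t ht z hz => ?_)
      have ht' := hIoc t ht
      have h1 := hC (c + (t : ℂ) * (z - c)) ⟨(t, z), ⟨ht', ball_subset_closedBall hz⟩, rfl⟩
      rw [norm_mul, Complex.norm_real, Real.norm_eq_abs, abs_of_nonneg ht'.1]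
      calc t * ‖deriv f (c + (t : ℂ) * (z - c))‖ ≤ 1 * ‖deriv f (c + (t : ℂ) * (z - c))‖ :=
            mul_le_mul_of_nonneg_right ht'.2 (norm_nonneg _)
        _ ≤ C := by rw [one_mul]; exact h1)
    intervalIntegrable_const
    (by
      refine Filter.Eventually.of_forall (fun t ht z hz => ?_)
      have ht' := hIoc t ht
      have h1 := hdz t ht' z (hball (ball_subset_closedBall hz))
      have h2 : HasDerivAt (fun z : ℂ => c + (t : ℂ) * (z - c)) (t : ℂ) z := by
        have h3 := (((hasDerivAt_id z).sub_const c).const_mul (t : ℂ)).const_add c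
        simpa using h3
      have h4 := h1.comp z h2
      rw [mul_comm]
      exact h4)
  have h1 := ((hasDerivAt_id z0).sub_const c).mul main.2
  have h2 : f z0 = 1 * (∫ t in (0 : ℝ)..1, f (c + (t : ℂ) * (z0 - c))) +
      (z0 - c) * ∫ t in (0 : ℝ)..1, (t : ℂ) * deriv f (c + (t : ℂ) * (z0 - c)) := by
    have hint1 : IntervalIntegrable (fun t : ℝ => f (c + (t : ℂ) * (z0 - c))) volume 0 1 := by
      apply ContinuousOn.intervalIntegrable
      rw [uIcc_of_le zero_le_one]
      exact hcont f hf.continuousOn z0 hz0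
    have hint2 : IntervalIntegrable (fun t : ℝ => (z0 - c) * ((t : ℂ) *
        deriv f (c + (t : ℂ) * (z0 - c)))) volume 0 1 := by
      apply ContinuousOn.intervalIntegrable
      rw [uIcc_of_le zero_le_one]
      exact continuousOn_const.mul
        ((by fun_prop : ContinuousOn (fun t : ℝ => (t : ℂ)) (Icc (0 : ℝ) 1)).mul
          (hcont (deriv f) hd z0 hz0))
    rw [one_mul, ← intervalIntegral.integral_const_mul, ← intervalIntegral.integral_add hint1 hint2]
    have hder : ∀ t ∈ uIcc (0 : ℝ) 1, HasDerivAt (fun t : ℝ => (t : ℂ) * f (c + (t : ℂ) * (z0 - c)))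
        (f (c + (t : ℂ) * (z0 - c)) + (z0 - c) * ((t : ℂ) * deriv f (c + (t : ℂ) * (z0 - c)))) t := by
      intro t ht
      rw [uIcc_of_le zero_le_one] at ht
      have h3 : HasDerivAt (fun t : ℝ => (t : ℂ)) 1 t := by
        have := (hasDerivAt_id t).ofReal_comp
        simpa using this
      have h4 : HasDerivAt (fun t : ℝ => c + (t : ℂ) * (z0 - c)) (z0 - c) t := by
        have := (h3.mul_const (z0 - c)).const_add c
        simpa using this
      have h5 := (hdz t ht z0 hz0).comp t h4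
      have h6 := h3.mul h5
      have h7 : (1 : ℂ) * f (c + (t : ℂ) * (z0 - c)) + (t : ℂ) *
          (deriv f (c + (t : ℂ) * (z0 - c)) * (z0 - c)) =
          f (c + (t : ℂ) * (z0 - c)) + (z0 - c) * ((t : ℂ) * deriv f (c + (t : ℂ) * (z0 - c))) := by
        ring
      rw [← h7]
      exact h6
    rw [intervalIntegral.integral_eq_sub_of_hasDerivAt hder (hint1.add hint2)]
    simp
  rw [h2]
  exact h1

end Vale.Agent.P021
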