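import Vale.Agent.Lib.P021V.Defs
import Vale.Agent.Lib.P021V.Sheet
import Vale.Agent.Lib.P021V.StarPrim
import Vale.Agent.Lib.P021V.QFun
import Vale.Agent.Lib.P021V.Paths

/-!
# P021: bound of the form by the supremum over the eight products of segments
-/

namespace Vale.Agent.P021

open Polynomial Filter Topology

/-! ### elementary geometry -/

theorem deform_comb_lt {a b p q c : ℝ} (ha : 0 ≤ a) (hb : 0 ≤ b) (hab : a + b = 1) (hp : p < c)
    (hq : q < c) : a * p + b * q < c := by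
  rcases ha.eq_or_lt with h | h
  · subst h
    have : b = 1 := by linarith
    subst this
    linarith
  · have h1 : 0 < a * (c - p) := mul_pos h (by linarith)
    have h2 : 0 ≤ b * (c - q) := mul_nonneg hb (by linarith)
    have h3 : a * c + b * c = c := by rw [← add_mul, hab, one_mul]
    nlinarith

theorem deform_comb_le {a b p q c : ℝ} (ha : 0 ≤ a) (hb : 0 ≤ b) (hab : a + b = 1) (hp : p ≤ c)
    (hq : q ≤ c) : a * p + b * q ≤ c := by
  have h1 : 0 ≤ a * (c - p) := mul_nonneg ha (by linarith)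
  have h2 : 0 ≤ b * (c - q) := mul_nonneg hb (by linarith)
  have h3 : a * c + b * c = c := by rw [← add_mul, hab, one_mul]
  nlinarith

/-- the domain of the primitive `G_b` -/
def deformDb : Set ℂ :=
  {v | -(3 / 7) * (v.re - 2) < v.im ∧ (v.re < 2.82 ∨ (v.im < 0 ∧ 3 * (v.re - 3) < v.im))}

theorem deform_isOpen : IsOpen deformDb := by
  have h1 : IsOpen {v : ℂ | -(3 / 7) * (v.re - 2) < v.im} :=
    isOpen_lt (by fun_prop) Complex.continuous_im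
  have h2 : IsOpen {v : ℂ | v.re < 2.82} := isOpen_lt Complex.continuous_re continuous_const
  have h3 : IsOpen {v : ℂ | v.im < 0} := isOpen_lt Complex.continuous_im continuous_const
  have h4 : IsOpen {v : ℂ | 3 * (v.re - 3) < v.im} :=
    isOpen_lt (by fun_prop) Complex.continuous_im
  exact h1.inter (h2.union (h3.inter h4))

theorem deform_re (a b : ℝ) (p q : ℂ) : (a • p + b • q).re = a * p.re + b * q.re := by
  simp

theorem deform_im (a b : ℝ) (p q : ℂ) : (a • p + b • q).im = a * p.im + b * q.im := by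
  simp

theorem deform_star : StarConvex ℝ pA deformDb := by
  intro y hy a b ha hb hab
  obtain ⟨h1, h2⟩ := hy
  refine ⟨?_, ?_⟩
  · rw [deform_re, deform_im]
    have h3 := deform_comb_lt (p := -(3 / 7) * (pA.re - 2) - pA.im)
      (q := -(3 / 7) * (y.re - 2) - y.im) (c := 0) ha hb hab (by norm_num [pA]) (by linarith)
    have h4 : a * 2 + b * 2 = 2 := by rw [← add_mul, hab, one_mul]
    nlinarith
  · rcases h2 with h2 | ⟨h2, h3⟩
    · left
      rw [deform_re]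
      exact deform_comb_lt ha hb hab (by norm_num [pA]) h2
    · right
      rw [deform_re, deform_im]
      refine ⟨deform_comb_lt ha hb hab (by norm_num [pA]) h2, ?_⟩
      have h5 := deform_comb_lt (p := 3 * (pA.re - 3) - pA.im)
        (q := 3 * (y.re - 3) - y.im) (c := 0) ha hb hab (by norm_num [pA]) (by linarith)
      have h4 : a * 3 + b * 3 = 3 := by rw [← add_mul, hab, one_mul]
      nlinarith

theorem deform_slit {v : ℂ} (hv : v ∈ deformDb) : 8 - v ^ 2 ∈ Complex.slitPlane := by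
  by_cases h : v.im = 0
  · obtain ⟨h1, h2⟩ := hv
    rw [h] at h1
    have h3 : v.re < 2.82 := by
      rcases h2 with h2 | ⟨h2, -⟩
      · exact h2
      · exact absurd h2 (by rw [h]; exact lt_irrefl _)
    exact slit_of_re (by linarith) h3.le
  · exact slit_of_im_ne h

theorem deform_seg1 {x : ℂ} (hx : x ∈ segment ℝ 2 pS) :
    x.im = -(3 / 7) * (x.re - 2) ∧ 2 ≤ x.re ∧ x.re ≤ 23 / 8 := by
  obtain ⟨a, b, ha, hb, hab, rfl⟩ := hx
  rw [deform_re, deform_im]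
  simp only [pS, Complex.re_ofNat, Complex.im_ofNat]
  have : a = 1 - b := by linarith
  subst this
  refine ⟨by ring, by linarith, by linarith⟩

theorem deform_seg2 {x : ℂ} (hx : x ∈ segment ℝ pS 3) :
    x.im = 3 * (x.re - 3) ∧ 23 / 8 ≤ x.re ∧ x.re ≤ 3 := by
  obtain ⟨a, b, ha, hb, hab, rfl⟩ := hx
  rw [deform_re, deform_im]
  simp only [pS, Complex.re_ofNat, Complex.im_ofNat]
  have : a = 1 - b := by linarith
  subst this
  refine ⟨by ring, by linarith, by linarith⟩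

theorem deform_seg3 {x : ℂ} (hx : x ∈ segment ℝ (2 : ℂ) 3) :
    x.im = 0 ∧ 2 ≤ x.re ∧ x.re ≤ 3 := by
  obtain ⟨a, b, ha, hb, hab, rfl⟩ := hx
  rw [deform_re, deform_im]
  simp only [Complex.re_ofNat, Complex.im_ofNat]
  have : a = 1 - b := by linarith
  subst this
  refine ⟨by ring, by linarith, by linarith⟩

theorem deform_path_slit {x v : ℂ} (hv : v ∈ deformDb)
    (hx : x ∈ segment ℝ 2 pS ∨ x ∈ segment ℝ pS 3) : Complex.I * (x - v) ∈ Complex.slitPlane := by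
  rw [Complex.mem_slitPlane_iff]
  have e1 : (Complex.I * (x - v)).re = v.im - x.im := by simp
  have e2 : (Complex.I * (x - v)).im = x.re - v.re := by simp
  rw [e1, e2]
  by_cases h : x.re = v.re
  · left
    obtain ⟨h1, h2⟩ := hv
    rcases hx with hx | hx
    · obtain ⟨h3, -, -⟩ := deform_seg1 hx
      rw [h3, h]
      linarith
    · obtain ⟨h3, h4, -⟩ := deform_seg2 hx
      rcases h2 with h2 | ⟨-, h2⟩
      · rw [h] at h4
        norm_num at h2 h4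
        linarith
      · rw [h3, h]
        linarith
  · right
    exact sub_ne_zero.mpr h

/-! ### norms on the paths -/

theorem deform_norm_le (z : ℂ) : ‖z‖ ≤ |z.re| + |z.im| := Complex.norm_le_abs_re_add_abs_im z

theorem deform_one_le {x : ℂ} (hx : x ∈ segment ℝ 2 pS ∨ x ∈ segment ℝ pS 3) :
    ‖x - 2‖ ≤ 1 ∧ ‖x - 3‖ ≤ 1 := by
  have h2 : ‖pS - 2‖ ≤ 1 := by
    rw [Complex.norm_def, Real.sqrt_le_one]
    norm_num [Complex.normSq_apply, pS]
  have h3 : ‖pS - 3‖ ≤ 1 := by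
    rw [Complex.norm_def, Real.sqrt_le_one]
    norm_num [Complex.normSq_apply, pS]
  have hc2 : Convex ℝ (Metric.closedBall (2 : ℂ) 1) := convex_closedBall _ _
  have hc3 : Convex ℝ (Metric.closedBall (3 : ℂ) 1) := convex_closedBall _ _
  have m2 : (2 : ℂ) ∈ Metric.closedBall (2 : ℂ) 1 := by simp
  have m3 : (3 : ℂ) ∈ Metric.closedBall (3 : ℂ) 1 := by simp
  have m23 : (3 : ℂ) ∈ Metric.closedBall (2 : ℂ) 1 := by
    rw [mem_closedBall_iff_norm]; norm_num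
  have m32 : (2 : ℂ) ∈ Metric.closedBall (3 : ℂ) 1 := by
    rw [mem_closedBall_iff_norm]; norm_num
  have s2 : pS ∈ Metric.closedBall (2 : ℂ) 1 := by rw [mem_closedBall_iff_norm]; exact h2
  have s3 : pS ∈ Metric.closedBall (3 : ℂ) 1 := by rw [mem_closedBall_iff_norm]; exact h3
  rcases hx with hx | hx
  · exact ⟨mem_closedBall_iff_norm.mp (hc2.segment_subset m2 s2 hx),
      mem_closedBall_iff_norm.mp (hc3.segment_subset m32 s3 hx)⟩
  · exact ⟨mem_closedBall_iff_norm.mp (hc2.segment_subset s2 m23 hx),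
      mem_closedBall_iff_norm.mp (hc3.segment_subset s3 m3 hx)⟩

theorem deform_one_le' {x : ℂ} (hx : x ∈ segment ℝ (2 : ℂ) 3) :
    ‖x - 2‖ ≤ 1 ∧ ‖x - 3‖ ≤ 1 := by
  have hc2 : Convex ℝ (Metric.closedBall (2 : ℂ) 1) := convex_closedBall _ _
  have hc3 : Convex ℝ (Metric.closedBall (3 : ℂ) 1) := convex_closedBall _ _
  have m2 : (2 : ℂ) ∈ Metric.closedBall (2 : ℂ) 1 := by simp
  have m3 : (3 : ℂ) ∈ Metric.closedBall (3 : ℂ) 1 := by simp
  have m23 : (3 : ℂ) ∈ Metric.closedBall (2 : ℂ) 1 := by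
    rw [mem_closedBall_iff_norm]; norm_num
  have m32 : (2 : ℂ) ∈ Metric.closedBall (3 : ℂ) 1 := by
    rw [mem_closedBall_iff_norm]; norm_num
  exact ⟨mem_closedBall_iff_norm.mp (hc2.segment_subset m2 m23 hx),
      mem_closedBall_iff_norm.mp (hc3.segment_subset m32 m3 hx)⟩

/-! ### points near `2` and `3` -/

/-- homothety with centre `c` -/
noncomputable def dpt (c : ℂ) (ε : ℝ) (q : ℂ) : ℂ := c + ε * (q - c)

theorem dpt_re (c : ℂ) (ε : ℝ) (q : ℂ) : (dpt c ε q).re = c.re + ε * (q.re - c.re) := by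
  simp [dpt]

theorem dpt_im (c : ℂ) (ε : ℝ) (q : ℂ) : (dpt c ε q).im = c.im + ε * (q.im - c.im) := by
  simp [dpt]

theorem dpt_seg {c q z : ℂ} {ε : ℝ} (h1 : ε ≤ 1)
    (hz : z ∈ segment ℝ (dpt c ε q) q) : ∃ s : ℝ, ε ≤ s ∧ s ≤ 1 ∧ z = dpt c s q := by
  obtain ⟨a, b, ha, hb, hab, rfl⟩ := hz
  refine ⟨a * ε + b, ?_, ?_, ?_⟩
  · nlinarith
  · nlinarith
  · have : a = 1 - b := by linarith
    subst this
    simp only [dpt, Complex.real_smul]
    push_cast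
    ring

theorem dpt_seg2 {c q1 q2 z : ℂ} {ε : ℝ}
    (hz : z ∈ segment ℝ (dpt c ε q1) (dpt c ε q2)) : ∃ q ∈ segment ℝ q1 q2, z = dpt c ε q := by
  obtain ⟨a, b, ha, hb, hab, rfl⟩ := hz
  refine ⟨a • q1 + b • q2, ⟨a, b, ha, hb, hab, rfl⟩, ?_⟩
  have : a = 1 - b := by linarith
  subst this
  simp only [dpt, Complex.real_smul]
  push_cast
  ring

theorem dpt_mem_segment {c q : ℂ} {s : ℝ} (h0 : 0 ≤ s) (h1 : s ≤ 1) : dpt c s q ∈ segment ℝ c q := by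
  refine ⟨1 - s, s, by linarith, h0, by ring, ?_⟩
  simp only [dpt, Complex.real_smul]
  push_cast
  ring

theorem dpt_sub_norm (c : ℂ) {ε : ℝ} (h : 0 ≤ ε) (q : ℂ) : ‖dpt c ε q - c‖ = ε * ‖q - c‖ := by
  simp [dpt, abs_of_nonneg h]

theorem dpt_sub_dpt (c : ℂ) {ε : ℝ} (h : 0 ≤ ε) (q q' : ℂ) :
    ‖dpt c ε q - dpt c ε q'‖ = ε * ‖q - q'‖ := by
  have : dpt c ε q - dpt c ε q' = ε * (q - q') := by simp only [dpt]; ring
  rw [this, norm_mul, Complex.norm_real, Real.norm_of_nonneg h]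

theorem deform_seg_bound {F G : ℂ → ℂ} {a b : ℂ} {M : ℝ}
    (hF : ∀ z ∈ segment ℝ a b, HasDerivAt F (G z) z)
    (hG : ∀ z ∈ segment ℝ a b, ‖G z‖ ≤ M) : ‖F b - F a‖ ≤ M * ‖b - a‖ := by
  apply Convex.norm_image_sub_le_of_norm_hasDerivWithin_le (f := F) (f' := G)
    (s := segment ℝ a b) (𝕜 := ℂ)
  · intro x hx
    exact (hF x hx).hasDerivWithinAt
  · exact hG
  · exact convex_segment a b
  · exact left_mem_segment ℝ a b
  · exact right_mem_segment ℝ a b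

theorem deform_near_a {c q x : ℂ} {ε : ℝ} (hε : 0 ≤ ε) (hc : c.im = 0) (hq : q.im ≤ -(3 / 32))
    (hqn : ‖q - c‖ ≤ 2) (hx : x ∈ segment ℝ (2 : ℂ) 3) :
    ‖x - c‖ ≤ 25 * ‖x - dpt c ε q‖ := by
  have h1 : ε * (3 / 32) ≤ ‖x - dpt c ε q‖ := by
    refine le_trans ?_ (Complex.abs_im_le_norm _)
    rw [Complex.sub_im, dpt_im, (deform_seg3 hx).1, hc]
    refine le_trans ?_ (le_abs_self _)
    nlinarith
  have h2 : ‖dpt c ε q - c‖ ≤ ε * 2 := by
    rw [dpt_sub_norm c hε]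
    exact mul_le_mul_of_nonneg_left hqn hε
  have h3 : ‖x - c‖ ≤ ‖x - dpt c ε q‖ + ‖dpt c ε q - c‖ := by
    have : x - c = (x - dpt c ε q) + (dpt c ε q - c) := by ring
    rw [this]
    exact norm_add_le _ _
  linarith

theorem deform_near_b {q x : ℂ} {ε : ℝ} (hε : 0 ≤ ε) (hε1 : ε ≤ 1 / 100)
    (hq : 1 / 4 ≤ q.im + 3 / 7 * (q.re - 2)) (hqn : ‖q - 2‖ ≤ 2)
    (hx : x ∈ segment ℝ 2 pS ∨ x ∈ segment ℝ pS 3) :
    ‖x - 2‖ ≤ 25 * ‖x - dpt 2 ε q‖ := by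
  have h2 : ‖dpt 2 ε q - 2‖ ≤ ε * 2 := by
    rw [dpt_sub_norm 2 hε]
    exact mul_le_mul_of_nonneg_left hqn hε
  have h3 : ‖x - 2‖ ≤ ‖x - dpt 2 ε q‖ + ‖dpt 2 ε q - 2‖ := by
    have : x - 2 = (x - dpt 2 ε q) + (dpt 2 ε q - 2) := by ring
    rw [this]
    exact norm_add_le _ _
  rcases hx with hx | hx
  · obtain ⟨h4, -, -⟩ := deform_seg1 hx
    have h5 := Complex.abs_im_le_norm (x - dpt 2 ε q)
    have h6 := Complex.abs_re_le_norm (x - dpt 2 ε q)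
    rw [Complex.sub_im, dpt_im, h4] at h5
    rw [Complex.sub_re, dpt_re] at h6
    simp only [Complex.re_ofNat, Complex.im_ofNat] at h5 h6
    have h7 := (abs_le.mp h5).1
    have h8 := (abs_le.mp h6).1
    have h9 : ε * (1 / 4) ≤ ε * (q.im + 3 / 7 * (q.re - 2)) := mul_le_mul_of_nonneg_left hq hε
    nlinarith
  · obtain ⟨-, h4, -⟩ := deform_seg2 hx
    have h6 := Complex.abs_re_le_norm (x - 2)
    rw [Complex.sub_re] at h6
    simp only [Complex.re_ofNat] at h6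
    have h7 := (abs_le.mp h6).2
    linarith

theorem deform_w_bound {c q : ℂ} {ε : ℝ} (hc : c = 2 ∨ c = 3) (hε : 0 ≤ ε) (hε1 : ε ≤ 1 / 100)
    (hqn : ‖q - c‖ ≤ 2) (a2 b2 H : ℕ) :
    ‖dpt c ε q - 2‖ ^ a2 * ‖dpt c ε q - 3‖ ^ b2 * (‖wv (dpt c ε q)‖ ^ (2 * H + 1))⁻¹ ≤
      2 ^ a2 * 2 ^ b2 * 2 ^ (2 * H + 1) := by
  set v := dpt c ε q with hv
  have h2 : ‖v - c‖ ≤ 1 / 50 := by
    rw [hv, dpt_sub_norm c hε]
    nlinarith [norm_nonneg (q - c)]
  have hc2 : ‖c - 2‖ ≤ 1 := by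
    rcases hc with rfl | rfl <;> norm_num
  have hc3 : ‖c - 3‖ ≤ 1 := by
    rcases hc with rfl | rfl <;> norm_num
  have hv2 : ‖v - 2‖ ≤ 2 := by
    have h : v - 2 = (v - c) + (c - 2) := by ring
    rw [h]
    exact (norm_add_le _ _).trans (by linarith)
  have hv3 : ‖v - 3‖ ≤ 2 := by
    have h : v - 3 = (v - c) + (c - 3) := by ring
    rw [h]
    exact (norm_add_le _ _).trans (by linarith)
  have hw : 1 / 2 ≤ ‖wv v‖ := by
    have h5 : 1 ≤ ‖c ^ 2 - 8‖ := by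
      rcases hc with rfl | rfl <;> norm_num
    have h6 : ‖v + c‖ ≤ 7 := by
      have h : v + c = (v - c) + 2 * c := by ring
      have h7 : ‖2 * c‖ ≤ 6 := by
        rcases hc with rfl | rfl <;> norm_num
      rw [h]
      exact (norm_add_le _ _).trans (by linarith)
    have h8 : ‖c ^ 2 - 8‖ ≤ ‖v ^ 2 - 8‖ + ‖v - c‖ * ‖v + c‖ := by
      have h : c ^ 2 - 8 = (v ^ 2 - 8) - (v - c) * (v + c) := by ring
      rw [h, ← norm_mul]
      exact norm_sub_le _ _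
    have h9 : ‖v - c‖ * ‖v + c‖ ≤ 1 / 50 * 7 :=
      mul_le_mul h2 h6 (norm_nonneg _) (by norm_num)
    have h10 := norm_wv_sq v
    by_contra hcon
    push Not at hcon
    nlinarith [norm_nonneg (wv v)]
  have hwi : (‖wv v‖ ^ (2 * H + 1))⁻¹ ≤ 2 ^ (2 * H + 1) := by
    rw [← inv_pow]
    refine pow_le_pow_left₀ (inv_nonneg.mpr (norm_nonneg _)) ?_ _
    rw [inv_le_comm₀ (by linarith) (by norm_num)]
    linarith
  have e2 := pow_le_pow_left₀ (norm_nonneg _) hv2 a2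
  have e3 := pow_le_pow_left₀ (norm_nonneg _) hv3 b2
  exact mul_le_mul (mul_le_mul e2 e3 (by positivity) (by positivity)) hwi (by positivity)
    (by positivity)

theorem deform_P_bound {x v c : ℂ} {a1 b1 M : ℕ} (hc : c = 2 ∨ c = 3) (h2 : ‖x - 2‖ ≤ 1)
    (h3 : ‖x - 3‖ ≤ 1) (hK : ‖x - c‖ ≤ 25 * ‖x - v‖) (h1 : M + 1 ≤ a1) (h1' : M + 1 ≤ b1) :
    ‖x - 2‖ ^ a1 * ‖x - 3‖ ^ b1 / ‖x - v‖ ^ (M + 1) ≤ 25 ^ (M + 1) := by
  refine div_le_of_le_mul₀ (by positivity) (by positivity) ?_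
  rw [← mul_pow]
  have g2 : ‖x - 2‖ ^ a1 ≤ 1 := pow_le_one₀ (norm_nonneg _) h2
  have g3 : ‖x - 3‖ ^ b1 ≤ 1 := pow_le_one₀ (norm_nonneg _) h3
  rcases hc with rfl | rfl
  · calc ‖x - 2‖ ^ a1 * ‖x - 3‖ ^ b1 ≤ ‖x - 2‖ ^ (M + 1) * 1 :=
          mul_le_mul (pow_le_pow_of_le_one (norm_nonneg _) h2 h1) g3 (by positivity)
            (by positivity)
      _ ≤ _ := by
          rw [mul_one]
          exact pow_le_pow_left₀ (norm_nonneg _) hK _
  · calc ‖x - 2‖ ^ a1 * ‖x - 3‖ ^ b1 ≤ 1 * ‖x - 3‖ ^ (M + 1) :=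
          mul_le_mul g2 (pow_le_pow_of_le_one (norm_nonneg _) h3 h1') (by positivity)
            (by positivity)
      _ ≤ _ := by
          rw [one_mul]
          exact pow_le_pow_left₀ (norm_nonneg _) hK _

theorem deform_hasse_map (M : ℕ) (P : ℤ[X]) :
    hasseDeriv M (P.map (Int.castRingHom ℂ)) = (hasseDeriv M P).map (Int.castRingHom ℂ) := by
  ext n
  rw [hasseDeriv_coeff, coeff_map, coeff_map, hasseDeriv_coeff]
  simp

theorem deform_PZ_eval (a b : ℕ) (x : ℂ) :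
    ((PZ a b).map (Int.castRingHom ℂ)).eval x = (x - 2) ^ a * (x - 3) ^ b := by
  simp [PZ]

theorem deform_NV_eval (a1 b1 a2 b2 M : ℕ) (v : ℂ) :
    (((NV a1 b1 a2 b2 M).map (Int.castRingHom ℚ)).map (algebraMap ℚ ℂ)).eval v =
      (v - 2) ^ a2 * (v - 3) ^ b2 *
        (hasseDeriv M ((PZ a1 b1).map (Int.castRingHom ℂ))).eval v := by
  have e : (algebraMap ℚ ℂ).comp (Int.castRingHom ℚ) = Int.castRingHom ℂ := RingHom.ext_int _ _
  rw [Polynomial.map_map, e, NV, Polynomial.map_mul, eval_mul, deform_PZ_eval, deform_hasse_map]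

/-! ### the kernel and the primitives -/

/-- the factor in front of `Q` -/
noncomputable def dker (a2 b2 H : ℕ) (v : ℂ) : ℂ :=
  (v - 2) ^ a2 * (v - 3) ^ b2 * (wv v) ^ (-2 * (H : ℤ) - 1)

theorem dker_norm (a2 b2 H : ℕ) (v : ℂ) :
    ‖dker a2 b2 H v‖ = ‖v - 2‖ ^ a2 * ‖v - 3‖ ^ b2 * (‖wv v‖ ^ (2 * H + 1))⁻¹ := by
  have e : -2 * (H : ℤ) - 1 = -((2 * H + 1 : ℕ) : ℤ) := by push_cast; ring
  rw [dker, e, zpow_neg, zpow_natCast, norm_mul, norm_mul, norm_pow, norm_pow, norm_inv, norm_pow]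

theorem dker_diff (a2 b2 H : ℕ) {v : ℂ} (hv : 8 - v ^ 2 ∈ Complex.slitPlane) :
    DifferentiableAt ℂ (dker a2 b2 H) v := by
  unfold dker
  refine DifferentiableAt.mul (by fun_prop) ?_
  exact (wv_differentiableAt hv).zpow (Or.inl (wv_ne_zero hv))

theorem deform_Gb (a2 b2 H M : ℕ) (P : ℂ[X]) : ∃ F : ℂ → ℂ, ∀ z ∈ deformDb,
    HasDerivAt F (dker a2 b2 H z * QB P M z) z := by
  refine exists_primitive_starConvex deform_isOpen deform_star (fun z hz => ?_)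
  exact ((dker_diff a2 b2 H (deform_slit hz)).mul (QB_differentiableAt P M
    (deform_path_slit hz (Or.inl (left_mem_segment ℝ _ _)))
    (deform_path_slit hz (Or.inr (right_mem_segment ℝ _ _))))).differentiableWithinAt

theorem deform_Ga (a2 b2 H M : ℕ) (P : ℂ[X]) : ∃ F : ℂ → ℂ, ∀ z ∈ {v : ℂ | v.im < 0},
    HasDerivAt F (dker a2 b2 H z * QA P M z) z := by
  have hopen : IsOpen {v : ℂ | v.im < 0} := isOpen_lt Complex.continuous_im continuous_const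
  have hstar : StarConvex ℝ pC {v : ℂ | v.im < 0} := by
    intro y hy a b ha hb hab
    change (a • pC + b • y).im < 0
    rw [deform_im]
    exact deform_comb_lt ha hb hab (by norm_num [pC]) hy
  refine exists_primitive_starConvex hopen hstar (fun z hz => ?_)
  exact ((dker_diff a2 b2 H (slit_of_im_ne (ne_of_lt hz))).mul
    (QA_differentiableAt P M hz)).differentiableWithinAt

/-- the open triangle -/
def deformT : Set ℂ :=
  {v | -(3 / 7) * (v.re - 2) < v.im ∧ v.im < 0 ∧ 3 * (v.re - 3) < v.im}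

theorem deformT_sub {v : ℂ} (hv : v ∈ deformT) : v ∈ deformDb :=
  ⟨hv.1, Or.inr hv.2⟩

theorem deformT_re {v : ℂ} (hv : v ∈ deformT) : 2 < v.re ∧ v.re < 3 := by
  obtain ⟨h1, h2, h3⟩ := hv
  constructor <;> linarith

theorem deformT_convex : Convex ℝ deformT := by
  intro x hx y hy a b ha hb hab
  obtain ⟨h1, h2, h3⟩ := hx
  obtain ⟨g1, g2, g3⟩ := hy
  have h4 : a * 2 + b * 2 = 2 := by rw [← add_mul, hab, one_mul]
  refine ⟨?_, ?_, ?_⟩
  · rw [deform_re, deform_im]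
    have h3 := deform_comb_lt (p := -(3 / 7) * (x.re - 2) - x.im)
      (q := -(3 / 7) * (y.re - 2) - y.im) (c := 0) ha hb hab (by linarith) (by linarith)
    nlinarith
  · rw [deform_im]
    exact deform_comb_lt ha hb hab h2 g2
  · rw [deform_re, deform_im]
    have h5 := deform_comb_lt (p := 3 * (x.re - 3) - x.im)
      (q := 3 * (y.re - 3) - y.im) (c := 0) ha hb hab (by linarith) (by linarith)
    nlinarith

/-- the key identity -/
theorem deform_const (a1 b1 a2 b2 M H : ℕ) {G0 Ga Gb : ℂ → ℂ}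
    (hG0 : ∀ v : ℂ, 8 - v ^ 2 ∈ Complex.slitPlane → HasDerivAt G0
      ((((NV a1 b1 a2 b2 M).map (Int.castRingHom ℚ)).map (algebraMap ℚ ℂ)).eval v *
        (wv v) ^ (-2 * (H : ℤ) - 1)) v)
    (hGb : ∀ z ∈ deformDb, HasDerivAt Gb
      (dker a2 b2 H z * QB ((PZ a1 b1).map (Int.castRingHom ℂ)) M z) z)
    (hGa : ∀ z ∈ {v : ℂ | v.im < 0}, HasDerivAt Ga
      (dker a2 b2 H z * QA ((PZ a1 b1).map (Int.castRingHom ℂ)) M z) z)
    {u v : ℂ} (hu : u ∈ deformT) (hv : v ∈ deformT) :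
    2 * Real.pi * Complex.I * (G0 u - G0 v) = (Gb u - Gb v) - (Ga u - Ga v) := by
  have h := deform_seg_bound (F := fun z => Gb z - Ga z - 2 * Real.pi * Complex.I * G0 z)
    (G := fun _ => 0) (a := u) (b := v) (M := 0) (fun z hz => ?_) (fun z _ => by simp)
  · rw [zero_mul] at h
    have h2 := norm_le_zero_iff.mp h
    linear_combination h2
  · have hzT : z ∈ deformT := deformT_convex.segment_subset hu hv hz
    have h1 := hGb z (deformT_sub hzT)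
    have h2 := hGa z hzT.2.1
    have h3 := (hG0 z (slit_of_im_ne (ne_of_lt hzT.2.1))).const_mul (2 * Real.pi * Complex.I)
    have h4 := (h1.sub h2).sub h3
    have h5 := QB_sub_QA ((PZ a1 b1).map (Int.castRingHom ℂ)) M hzT.2.1 (deformT_re hzT).1
      (deformT_re hzT).2
    have h6 : dker a2 b2 H z * QB ((PZ a1 b1).map (Int.castRingHom ℂ)) M z -
        dker a2 b2 H z * QA ((PZ a1 b1).map (Int.castRingHom ℂ)) M z -
        2 * Real.pi * Complex.I *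
          ((((NV a1 b1 a2 b2 M).map (Int.castRingHom ℚ)).map (algebraMap ℚ ℂ)).eval z *
            (wv z) ^ (-2 * (H : ℤ) - 1)) = 0 := by
      rw [deform_NV_eval, dker]
      linear_combination (z - 2) ^ a2 * (z - 3) ^ b2 * (wv z) ^ (-2 * (H : ℤ) - 1) * h5
    rw [h6] at h4
    exact h4

/-- bound of `f_b` on the paths -/
theorem deform_fb_path {a1 b1 a2 b2 M H : ℕ} {B : ℝ}
    (hB : ∀ x v : ℂ, OnPaths x v → v ≠ 2 → v ≠ 3 →
      ‖x - 2‖ ^ a1 * ‖x - 3‖ ^ b1 / ‖x - v‖ ^ (M + 1) *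
        (‖v - 2‖ ^ a2 * ‖v - 3‖ ^ b2 * (‖wv v‖ ^ (2 * H + 1))⁻¹) ≤ B)
    {v : ℂ} (hv : v ∈ segment ℝ 3 pA ∨ v ∈ segment ℝ pA pB ∨ v ∈ segment ℝ pB 2)
    (hvD : v ∈ deformDb) (h2 : v ≠ 2) (h3 : v ≠ 3) :
    ‖dker a2 b2 H v * QB ((PZ a1 b1).map (Int.castRingHom ℂ)) M v‖ ≤ B * 2 := by
  have hk : 0 < ‖dker a2 b2 H v‖ := by
    rw [dker_norm]
    have e1 : 0 < ‖v - 2‖ := norm_pos_iff.mpr (sub_ne_zero.mpr h2)
    have e2 : 0 < ‖v - 3‖ := norm_pos_iff.mpr (sub_ne_zero.mpr h3)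
    have e3 : 0 < ‖wv v‖ := norm_pos_iff.mpr (wv_ne_zero (deform_slit hvD))
    positivity
  have h := QB_bound ((PZ a1 b1).map (Int.castRingHom ℂ)) M (v := v) (S := pS)
    (B := B / ‖dker a2 b2 H v‖) (fun x hx => deform_path_slit hvD hx) (fun x hx => ?_)
  · have hB0 : 0 ≤ B / ‖dker a2 b2 H v‖ := by
      refine le_trans ?_ (?_ : ‖(2 : ℂ) - 2‖ ^ a1 * ‖(2 : ℂ) - 3‖ ^ b1 / ‖(2 : ℂ) - v‖ ^ (M + 1) ≤ _)
      · positivity
      · rw [le_div_iff₀ hk, dker_norm]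
        exact hB 2 v (Or.inl ⟨Or.inl (left_mem_segment ℝ _ _), hv⟩) h2 h3
    have e4 : ‖pS - 2‖ + ‖3 - pS‖ ≤ 2 := by
      have h5 := deform_one_le (x := pS) (Or.inl (right_mem_segment ℝ _ _))
      rw [norm_sub_rev 3 pS]
      linarith [h5.1, h5.2]
    rw [norm_mul]
    calc ‖dker a2 b2 H v‖ * ‖QB ((PZ a1 b1).map (Int.castRingHom ℂ)) M v‖
        ≤ ‖dker a2 b2 H v‖ * (B / ‖dker a2 b2 H v‖ * 2) :=
          mul_le_mul_of_nonneg_left (h.trans (mul_le_mul_of_nonneg_left e4 hB0)) hk.le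
      _ = B * 2 := by field_simp
  · rw [le_div_iff₀ hk, dker_norm, deform_PZ_eval, norm_mul, norm_pow, norm_pow]
    exact hB x v (Or.inl ⟨hx, hv⟩) h2 h3

/-- bound of `f_a` on the paths -/
theorem deform_fa_path {a1 b1 a2 b2 M H : ℕ} {B : ℝ}
    (hB : ∀ x v : ℂ, OnPaths x v → v ≠ 2 → v ≠ 3 →
      ‖x - 2‖ ^ a1 * ‖x - 3‖ ^ b1 / ‖x - v‖ ^ (M + 1) *
        (‖v - 2‖ ^ a2 * ‖v - 3‖ ^ b2 * (‖wv v‖ ^ (2 * H + 1))⁻¹) ≤ B)
    {v : ℂ} (hv : v ∈ segment ℝ 3 pC ∨ v ∈ segment ℝ pC 2) (hvim : v.im < 0) :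
    ‖dker a2 b2 H v * QA ((PZ a1 b1).map (Int.castRingHom ℂ)) M v‖ ≤ B := by
  have h2 : v ≠ 2 := fun h => by rw [h] at hvim; simp at hvim
  have h3 : v ≠ 3 := fun h => by rw [h] at hvim; simp at hvim
  have hk : 0 < ‖dker a2 b2 H v‖ := by
    rw [dker_norm]
    have e1 : 0 < ‖v - 2‖ := norm_pos_iff.mpr (sub_ne_zero.mpr h2)
    have e2 : 0 < ‖v - 3‖ := norm_pos_iff.mpr (sub_ne_zero.mpr h3)
    have e3 : 0 < ‖wv v‖ := norm_pos_iff.mpr (wv_ne_zero (slit_of_im_ne (ne_of_lt hvim)))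
    positivity
  have h := QA_bound ((PZ a1 b1).map (Int.castRingHom ℂ)) M (v := v) hvim
    (B := B / ‖dker a2 b2 H v‖) (fun x hx => ?_)
  · rw [norm_mul]
    calc ‖dker a2 b2 H v‖ * ‖QA ((PZ a1 b1).map (Int.castRingHom ℂ)) M v‖
        ≤ ‖dker a2 b2 H v‖ * (B / ‖dker a2 b2 H v‖) :=
          mul_le_mul_of_nonneg_left h hk.le
      _ = B := by field_simp
  · rw [le_div_iff₀ hk, dker_norm, deform_PZ_eval, norm_mul, norm_pow, norm_pow]
    exact hB x v (Or.inr ⟨hx, hv⟩) h2 h3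

/-! ### memberships -/

theorem deform_m1 {s : ℝ} (h0 : 0 < s) (h1 : s ≤ 1) : dpt 3 s pA ∈ deformT := by
  refine ⟨?_, ?_, ?_⟩ <;> rw [dpt_im] <;> (try rw [dpt_re]) <;>
    simp only [pA, Complex.re_ofNat, Complex.im_ofNat] <;> linarith

theorem deform_m3 {s : ℝ} (h0 : 0 < s) (h1 : s ≤ 1) : dpt 2 s pB ∈ deformDb := by
  refine ⟨?_, Or.inl ?_⟩
  · rw [dpt_im, dpt_re]
    simp only [pB, Complex.re_ofNat, Complex.im_ofNat]
    linarith
  · rw [dpt_re]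
    simp only [pB, Complex.re_ofNat]
    norm_num
    linarith

theorem deform_m5 {s : ℝ} (h0 : 0 < s) (h1 : s ≤ 1) : dpt 2 s pA ∈ deformT := by
  refine ⟨?_, ?_, ?_⟩ <;> rw [dpt_im] <;> (try rw [dpt_re]) <;>
    simp only [pA, Complex.re_ofNat, Complex.im_ofNat] <;> linarith

theorem deform_q1 {q : ℂ} (hq : q ∈ segment ℝ pB pA) :
    1 / 4 ≤ q.im + 3 / 7 * (q.re - 2) ∧ ‖q - 2‖ ≤ 2 ∧ q.re ≤ 45 / 16 := by
  obtain ⟨a, b, ha, hb, hab, rfl⟩ := hq
  have hb1 : a = 1 - b := by linarith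
  subst hb1
  have e1 : ((1 - b) • pB + b • pA).re = 9 / 4 + b * (9 / 16) := by
    rw [deform_re]; simp only [pA, pB]; ring
  have e2 : ((1 - b) • pB + b • pA).im = 9 / 16 - b * (21 / 32) := by
    rw [deform_im]; simp only [pA, pB]; ring
  refine ⟨?_, ?_, ?_⟩
  · rw [e1, e2]; linarith
  · refine (deform_norm_le _).trans ?_
    rw [Complex.sub_re, Complex.sub_im, e1, e2]
    simp only [Complex.re_ofNat, Complex.im_ofNat]
    have h1 : |9 / 4 + b * (9 / 16) - 2| ≤ 13 / 16 := by rw [abs_le]; constructor <;> linarith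
    have h2 : |9 / 16 - b * (21 / 32) - 0| ≤ 9 / 16 := by rw [abs_le]; constructor <;> linarith
    linarith
  · rw [e1]; linarith

theorem deform_q2 {q : ℂ} (hq : q ∈ segment ℝ pA pC) :
    q.im ≤ -(3 / 32) ∧ ‖q - 2‖ ≤ 2 ∧ ‖q - 3‖ ≤ 2 := by
  obtain ⟨a, b, ha, hb, hab, rfl⟩ := hq
  have hb1 : a = 1 - b := by linarith
  subst hb1
  have e1 : ((1 - b) • pA + b • pC).re = 45 / 16 - b * (12 / 16) := by
    rw [deform_re]; simp only [pA, pC]; ring
  have e2 : ((1 - b) • pA + b • pC).im = -(3 / 32) - b * (23 / 32) := by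
    rw [deform_im]; simp only [pA, pC]; ring
  refine ⟨?_, ?_, ?_⟩
  · rw [e2]; linarith
  · refine (deform_norm_le _).trans ?_
    rw [Complex.sub_re, Complex.sub_im, e1, e2]
    simp only [Complex.re_ofNat, Complex.im_ofNat]
    have h1 : |45 / 16 - b * (12 / 16) - 2| ≤ 13 / 16 := by rw [abs_le]; constructor <;> linarith
    have h2 : |-(3 / 32) - b * (23 / 32) - 0| ≤ 13 / 16 := by rw [abs_le]; constructor <;> linarith
    linarith
  · refine (deform_norm_le _).trans ?_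
    rw [Complex.sub_re, Complex.sub_im, e1, e2]
    simp only [Complex.re_ofNat, Complex.im_ofNat]
    have h1 : |45 / 16 - b * (12 / 16) - 3| ≤ 15 / 16 := by rw [abs_le]; constructor <;> linarith
    have h2 : |-(3 / 32) - b * (23 / 32) - 0| ≤ 13 / 16 := by rw [abs_le]; constructor <;> linarith
    linarith

theorem deform_m4 {ε : ℝ} (h0 : 0 < ε) (h1 : ε ≤ 1 / 100) {q : ℂ} (hq : q ∈ segment ℝ pB pA) :
    dpt 2 ε q ∈ deformDb := by
  obtain ⟨g1, g2, g3⟩ := deform_q1 hq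
  refine ⟨?_, Or.inl ?_⟩
  · rw [dpt_im, dpt_re]
    simp only [Complex.re_ofNat, Complex.im_ofNat]
    have h : 0 < ε * (q.im + 3 / 7 * (q.re - 2)) := mul_pos h0 (by linarith)
    linarith
  · rw [dpt_re]
    simp only [Complex.re_ofNat]
    have h : ε * (q.re - 2) ≤ ε * (13 / 16) := mul_le_mul_of_nonneg_left (by linarith) h0.le
    norm_num
    linarith

theorem dpt_sub_self (c : ℂ) {ε : ℝ} (h0 : 0 ≤ ε) (h1 : ε ≤ 1) (q : ℂ) :
    ‖q - dpt c ε q‖ ≤ ‖q - c‖ := by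
  have e : q - dpt c ε q = ((1 - ε : ℝ) : ℂ) * (q - c) := by
    simp only [dpt]; push_cast; ring
  rw [e, norm_mul, Complex.norm_real, Real.norm_of_nonneg (by linarith)]
  exact mul_le_of_le_one_left (norm_nonneg _) (by linarith)

theorem deform_len (z : ℂ) {c : ℝ} (hc : 0 ≤ c) (h : z.re ^ 2 + z.im ^ 2 ≤ c ^ 2) : ‖z‖ ≤ c := by
  rw [Complex.norm_def, Real.sqrt_le_left hc, Complex.normSq_apply]
  nlinarith

theorem deform_lens : ‖pA - 3‖ ≤ 1 ∧ ‖pB - pA‖ ≤ 1 ∧ ‖pB - 2‖ ≤ 1 ∧ ‖pC - 3‖ ≤ 2 ∧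
    ‖pC - 2‖ ≤ 1 ∧ ‖pC - pA‖ ≤ 2 := by
  refine ⟨deform_len _ (by norm_num) ?_, deform_len _ (by norm_num) ?_,
    deform_len _ (by norm_num) ?_, deform_len _ (by norm_num) ?_,
    deform_len _ (by norm_num) ?_, deform_len _ (by norm_num) ?_⟩ <;>
  norm_num [pA, pB, pC]

/-- bound for a fixed `ε` -/
theorem deform_key {a1 b1 a2 b2 M H : ℕ} (h1 : M + 1 ≤ a1) (h2 : M + 1 ≤ b1) {B : ℝ}
    (hB : ∀ x v : ℂ, OnPaths x v → v ≠ 2 → v ≠ 3 →
      ‖x - 2‖ ^ a1 * ‖x - 3‖ ^ b1 / ‖x - v‖ ^ (M + 1) *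
        (‖v - 2‖ ^ a2 * ‖v - 3‖ ^ b2 * (‖wv v‖ ^ (2 * H + 1))⁻¹) ≤ B) (hB0 : 0 ≤ B)
    {Ga Gb : ℂ → ℂ}
    (hGb : ∀ z ∈ deformDb, HasDerivAt Gb
      (dker a2 b2 H z * QB ((PZ a1 b1).map (Int.castRingHom ℂ)) M z) z)
    (hGa : ∀ z ∈ {v : ℂ | v.im < 0}, HasDerivAt Ga
      (dker a2 b2 H z * QA ((PZ a1 b1).map (Int.castRingHom ℂ)) M z) z)
    {ε : ℝ} (h0 : 0 < ε) (h100 : ε ≤ 1 / 100) :
    ‖(Gb (dpt 2 ε pA) - Gb (dpt 3 ε pA)) - (Ga (dpt 2 ε pA) - Ga (dpt 3 ε pA))‖ ≤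
      9 * B + 6 * (2 ^ a2 * 2 ^ b2 * 2 ^ (2 * H + 1) * 25 ^ (M + 1)) * ε := by
  obtain ⟨l1, l2, l3, l4, l5, l6⟩ := deform_lens
  have hε1 : ε ≤ 1 := by linarith
  set W : ℝ := 2 ^ a2 * 2 ^ b2 * 2 ^ (2 * H + 1) with hW
  have hW0 : 0 ≤ W := by positivity
  set K : ℝ := 25 ^ (M + 1) with hK
  have hK0 : 0 ≤ K := by positivity
  -- first leg of b
  have b1' : ‖Gb pA - Gb (dpt 3 ε pA)‖ ≤ B * 2 * ‖pA - dpt 3 ε pA‖ := by
    refine deform_seg_bound (G := fun z => dker a2 b2 H z *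
      QB ((PZ a1 b1).map (Int.castRingHom ℂ)) M z) (fun z hz => ?_) (fun z hz => ?_)
    · obtain ⟨s, hs, hs1, rfl⟩ := dpt_seg hε1 hz
      exact hGb _ (deformT_sub (deform_m1 (by linarith) hs1))
    · obtain ⟨s, hs, hs1, rfl⟩ := dpt_seg hε1 hz
      have hT := deform_m1 (s := s) (by linarith) hs1
      refine deform_fb_path hB (Or.inl (dpt_mem_segment (by linarith) hs1)) (deformT_sub hT) ?_ ?_
      · intro h
        have := (deformT_re hT).1
        rw [h] at this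
        norm_num at this
      · intro h
        have := (deformT_re hT).2
        rw [h] at this
        norm_num at this
  have hpA : pA ∈ deformT := by
    have := deform_m1 (s := 1) one_pos le_rfl
    simpa [dpt] using this
  have hpB : pB ∈ deformDb := by
    have := deform_m3 (s := 1) one_pos le_rfl
    simpa [dpt] using this
  have hne : ∀ z ∈ deformDb, z ≠ 2 ∧ z ≠ 3 := by
    intro z hz
    constructor
    · rintro rfl
      have := hz.1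
      norm_num at this
    · rintro rfl
      have := hz.2
      norm_num at this
  have b2' : ‖Gb pB - Gb pA‖ ≤ B * 2 * ‖pB - pA‖ := by
    refine deform_seg_bound (G := fun z => dker a2 b2 H z *
      QB ((PZ a1 b1).map (Int.castRingHom ℂ)) M z) (fun z hz => ?_) (fun z hz => ?_)
    · exact hGb _ (deform_star.segment_subset hpB hz)
    · have hD := deform_star.segment_subset hpB hz
      exact deform_fb_path hB (Or.inr (Or.inl hz)) hD (hne z hD).1 (hne z hD).2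
  have b3' : ‖Gb pB - Gb (dpt 2 ε pB)‖ ≤ B * 2 * ‖pB - dpt 2 ε pB‖ := by
    refine deform_seg_bound (G := fun z => dker a2 b2 H z *
      QB ((PZ a1 b1).map (Int.castRingHom ℂ)) M z) (fun z hz => ?_) (fun z hz => ?_)
    · obtain ⟨s, hs, hs1, rfl⟩ := dpt_seg hε1 hz
      exact hGb _ (deform_m3 (by linarith) hs1)
    · obtain ⟨s, hs, hs1, rfl⟩ := dpt_seg hε1 hz
      have hD := deform_m3 (s := s) (by linarith) hs1
      refine deform_fb_path hB (Or.inr (Or.inr ?_)) hD (hne _ hD).1 (hne _ hD).2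
      rw [segment_symm]
      exact dpt_mem_segment (by linarith) hs1
  have b4' : ‖Gb (dpt 2 ε pA) - Gb (dpt 2 ε pB)‖ ≤ W * (K * 2) * ‖dpt 2 ε pA - dpt 2 ε pB‖ := by
    refine deform_seg_bound (G := fun z => dker a2 b2 H z *
      QB ((PZ a1 b1).map (Int.castRingHom ℂ)) M z) (fun z hz => ?_) (fun z hz => ?_)
    · obtain ⟨q, hq, rfl⟩ := dpt_seg2 hz
      exact hGb _ (deform_m4 h0 h100 hq)
    · obtain ⟨q, hq, rfl⟩ := dpt_seg2 hz
      obtain ⟨g1, g2, g3⟩ := deform_q1 hq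
      have hD := deform_m4 h0 h100 hq
      rw [norm_mul]
      refine mul_le_mul ?_ ?_ (norm_nonneg _) hW0
      · rw [dker_norm]
        exact deform_w_bound (Or.inl rfl) h0.le h100 g2 a2 b2 H
      · have h := QB_bound ((PZ a1 b1).map (Int.castRingHom ℂ)) M (v := dpt 2 ε q) (S := pS)
          (B := K) (fun x hx => deform_path_slit hD hx) (fun x hx => ?_)
        · refine h.trans (mul_le_mul_of_nonneg_left ?_ hK0)
          have h5 := deform_one_le (x := pS) (Or.inl (right_mem_segment ℝ _ _))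
          rw [norm_sub_rev 3 pS]
          linarith [h5.1, h5.2]
        · rw [deform_PZ_eval, norm_mul, norm_pow, norm_pow]
          obtain ⟨h6, h7⟩ := deform_one_le hx
          exact deform_P_bound (Or.inl rfl) h6 h7 (deform_near_b h0.le h100 g1 g2 hx) h1 h2
  -- a
  have hshort : ∀ c : ℂ, c = 2 ∨ c = 3 → ∀ q : ℂ, q.im ≤ -(3 / 32) → ‖q - c‖ ≤ 2 →
      (dpt c ε q).im < 0 ∧ ‖dker a2 b2 H (dpt c ε q) *
        QA ((PZ a1 b1).map (Int.castRingHom ℂ)) M (dpt c ε q)‖ ≤ W * K := by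
    intro c hc q hq hqn
    have hcim : c.im = 0 := by rcases hc with rfl | rfl <;> simp
    have him : (dpt c ε q).im < 0 := by
      rw [dpt_im, hcim]
      nlinarith
    refine ⟨him, ?_⟩
    rw [norm_mul]
    refine mul_le_mul ?_ ?_ (norm_nonneg _) hW0
    · rw [dker_norm]
      exact deform_w_bound hc h0.le h100 hqn a2 b2 H
    · refine QA_bound ((PZ a1 b1).map (Int.castRingHom ℂ)) M him (fun x hx => ?_)
      rw [deform_PZ_eval, norm_mul, norm_pow, norm_pow]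
      obtain ⟨h6, h7⟩ := deform_one_le' hx
      exact deform_P_bound hc h6 h7 (deform_near_a h0.le hcim hq hqn hx) h1 h2
  have a1' : ‖Ga (dpt 3 ε pC) - Ga (dpt 3 ε pA)‖ ≤ W * K * ‖dpt 3 ε pC - dpt 3 ε pA‖ := by
    refine deform_seg_bound (G := fun z => dker a2 b2 H z *
      QA ((PZ a1 b1).map (Int.castRingHom ℂ)) M z) (fun z hz => ?_) (fun z hz => ?_)
    · obtain ⟨q, hq, rfl⟩ := dpt_seg2 hz
      obtain ⟨g1, g2, g3⟩ := deform_q2 hq
      exact hGa _ (hshort 3 (Or.inr rfl) q g1 g3).1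
    · obtain ⟨q, hq, rfl⟩ := dpt_seg2 hz
      obtain ⟨g1, g2, g3⟩ := deform_q2 hq
      exact (hshort 3 (Or.inr rfl) q g1 g3).2
  have a2' : ‖Ga (dpt 2 ε pC) - Ga (dpt 2 ε pA)‖ ≤ W * K * ‖dpt 2 ε pC - dpt 2 ε pA‖ := by
    refine deform_seg_bound (G := fun z => dker a2 b2 H z *
      QA ((PZ a1 b1).map (Int.castRingHom ℂ)) M z) (fun z hz => ?_) (fun z hz => ?_)
    · obtain ⟨q, hq, rfl⟩ := dpt_seg2 hz
      obtain ⟨g1, g2, g3⟩ := deform_q2 hq
      exact hGa _ (hshort 2 (Or.inl rfl) q g1 g2).1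
    · obtain ⟨q, hq, rfl⟩ := dpt_seg2 hz
      obtain ⟨g1, g2, g3⟩ := deform_q2 hq
      exact (hshort 2 (Or.inl rfl) q g1 g2).2
  have a3' : ‖Ga pC - Ga (dpt 3 ε pC)‖ ≤ B * ‖pC - dpt 3 ε pC‖ := by
    refine deform_seg_bound (G := fun z => dker a2 b2 H z *
      QA ((PZ a1 b1).map (Int.castRingHom ℂ)) M z) (fun z hz => ?_) (fun z hz => ?_)
    · obtain ⟨s, hs, hs1, rfl⟩ := dpt_seg hε1 hz
      refine hGa _ ?_
      change (dpt 3 s pC).im < 0
      rw [dpt_im]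
      simp only [pC, Complex.im_ofNat]
      linarith
    · obtain ⟨s, hs, hs1, rfl⟩ := dpt_seg hε1 hz
      refine deform_fa_path hB (Or.inl (dpt_mem_segment (by linarith) hs1)) ?_
      rw [dpt_im]
      simp only [pC, Complex.im_ofNat]
      linarith
  have a4' : ‖Ga pC - Ga (dpt 2 ε pC)‖ ≤ B * ‖pC - dpt 2 ε pC‖ := by
    refine deform_seg_bound (G := fun z => dker a2 b2 H z *
      QA ((PZ a1 b1).map (Int.castRingHom ℂ)) M z) (fun z hz => ?_) (fun z hz => ?_)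
    · obtain ⟨s, hs, hs1, rfl⟩ := dpt_seg hε1 hz
      refine hGa _ ?_
      change (dpt 2 s pC).im < 0
      rw [dpt_im]
      simp only [pC, Complex.im_ofNat]
      linarith
    · obtain ⟨s, hs, hs1, rfl⟩ := dpt_seg hε1 hz
      refine deform_fa_path hB (Or.inr ?_) ?_
      · rw [segment_symm]
        exact dpt_mem_segment (by linarith) hs1
      · rw [dpt_im]
        simp only [pC, Complex.im_ofNat]
        linarith
  -- lengths
  have e1 := (dpt_sub_self 3 h0.le hε1 pA).trans l1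
  have e3 := (dpt_sub_self 2 h0.le hε1 pB).trans l3
  have e5 := (dpt_sub_self 3 h0.le hε1 pC).trans l4
  have e6 := (dpt_sub_self 2 h0.le hε1 pC).trans l5
  have e4 : ‖dpt 2 ε pA - dpt 2 ε pB‖ ≤ ε := by
    rw [dpt_sub_dpt 2 h0.le, norm_sub_rev]
    exact mul_le_of_le_one_right h0.le l2
  have e7 : ‖dpt 3 ε pC - dpt 3 ε pA‖ ≤ ε * 2 := by
    rw [dpt_sub_dpt 3 h0.le]
    exact mul_le_mul_of_nonneg_left l6 h0.le
  have e8 : ‖dpt 2 ε pC - dpt 2 ε pA‖ ≤ ε * 2 := by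
    rw [dpt_sub_dpt 2 h0.le]
    exact mul_le_mul_of_nonneg_left l6 h0.le
  have hWK : 0 ≤ W * K := mul_nonneg hW0 hK0
  have f1 := b1'.trans (mul_le_mul_of_nonneg_left e1 (by linarith : 0 ≤ B * 2))
  have f2 := b2'.trans (mul_le_mul_of_nonneg_left l2 (by linarith : 0 ≤ B * 2))
  have f3 := b3'.trans (mul_le_mul_of_nonneg_left e3 (by linarith : 0 ≤ B * 2))
  have f4 := b4'.trans (mul_le_mul_of_nonneg_left e4 (by positivity : 0 ≤ W * (K * 2)))
  have f5 := a1'.trans (mul_le_mul_of_nonneg_left e7 hWK)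
  have f6 := a2'.trans (mul_le_mul_of_nonneg_left e8 hWK)
  have f7 := a3'.trans (mul_le_mul_of_nonneg_left e5 hB0)
  have f8 := a4'.trans (mul_le_mul_of_nonneg_left e6 hB0)
  have hsplit : (Gb (dpt 2 ε pA) - Gb (dpt 3 ε pA)) - (Ga (dpt 2 ε pA) - Ga (dpt 3 ε pA)) =
      (Gb pA - Gb (dpt 3 ε pA)) + (Gb pB - Gb pA) - (Gb pB - Gb (dpt 2 ε pB)) +
        (Gb (dpt 2 ε pA) - Gb (dpt 2 ε pB)) - ((Ga (dpt 3 ε pC) - Ga (dpt 3 ε pA)) +
        (Ga pC - Ga (dpt 3 ε pC)) - (Ga pC - Ga (dpt 2 ε pC)) -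
        (Ga (dpt 2 ε pC) - Ga (dpt 2 ε pA))) := by ring
  rw [hsplit]
  refine (norm_sub_le _ _).trans ?_
  have g1 := norm_add_le ((Gb pA - Gb (dpt 3 ε pA)) + (Gb pB - Gb pA) - (Gb pB - Gb (dpt 2 ε pB)))
    (Gb (dpt 2 ε pA) - Gb (dpt 2 ε pB))
  have g2 := norm_sub_le ((Gb pA - Gb (dpt 3 ε pA)) + (Gb pB - Gb pA)) (Gb pB - Gb (dpt 2 ε pB))
  have g3 := norm_add_le (Gb pA - Gb (dpt 3 ε pA)) (Gb pB - Gb pA)
  have g4 := norm_sub_le ((Ga (dpt 3 ε pC) - Ga (dpt 3 ε pA)) +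
        (Ga pC - Ga (dpt 3 ε pC)) - (Ga pC - Ga (dpt 2 ε pC))) (Ga (dpt 2 ε pC) - Ga (dpt 2 ε pA))
  have g5 := norm_sub_le ((Ga (dpt 3 ε pC) - Ga (dpt 3 ε pA)) +
        (Ga pC - Ga (dpt 3 ε pC))) (Ga pC - Ga (dpt 2 ε pC))
  have g6 := norm_add_le (Ga (dpt 3 ε pC) - Ga (dpt 3 ε pA)) (Ga pC - Ga (dpt 3 ε pC))
  linarith

theorem dpt_tendsto (c q : ℂ) : Tendsto (fun ε : ℝ => dpt c ε q) (𝓝[>] 0) (𝓝 c) := by
  have h : Continuous (fun ε : ℝ => dpt c ε q) := by unfold dpt; fun_prop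
  have h2 := (h.tendsto 0).mono_left (nhdsWithin_le_nhds (s := Set.Ioi 0))
  simpa [dpt] using h2

theorem form_le_V (a1 b1 a2 b2 M H : ℕ) (h1 : M + 1 ≤ a1) (h2 : M + 1 ≤ b1) (B : ℝ)
    (hB : ∀ x v : ℂ, OnPaths x v → v ≠ 2 → v ≠ 3 →
      ‖x - 2‖ ^ a1 * ‖x - 3‖ ^ b1 / ‖x - v‖ ^ (M + 1) *
        (‖v - 2‖ ^ a2 * ‖v - 3‖ ^ b2 * (‖wv v‖ ^ (2 * H + 1))⁻¹) ≤ B) :
    |(LA (H : ℤ) ((NV a1 b1 a2 b2 M).map (Int.castRingHom ℚ)) : ℝ) +
      (LB (H : ℤ) ((NV a1 b1 a2 b2 M).map (Int.castRingHom ℚ)) : ℝ) * (Real.pi / 4)| ≤ 5 * B := by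
  obtain ⟨G0, hG0, hG02, hG03⟩ := exists_G0 (H : ℤ) ((NV a1 b1 a2 b2 M).map (Int.castRingHom ℚ))
  obtain ⟨Gb, hGb⟩ := deform_Gb a2 b2 H M ((PZ a1 b1).map (Int.castRingHom ℂ))
  obtain ⟨Ga, hGa⟩ := deform_Ga a2 b2 H M ((PZ a1 b1).map (Int.castRingHom ℂ))
  have hB0 : 0 ≤ B := by
    refine le_trans ?_ (hB 2 pC (Or.inr ⟨left_mem_segment ℝ _ _,
      Or.inl (right_mem_segment ℝ _ _)⟩) ?_ ?_)
    · positivity
    · intro h
      have := congrArg Complex.im h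
      norm_num [pC] at this
    · intro h
      have := congrArg Complex.im h
      norm_num [pC] at this
  rw [← hG02]
  have hpi := Real.pi_gt_three
  have key : ∀ ε : ℝ, 0 < ε → ε ≤ 1 / 100 →
      2 * Real.pi * |(G0 (dpt 2 ε pA)).im - (G0 (dpt 3 ε pA)).im| ≤
        9 * B + 6 * (2 ^ a2 * 2 ^ b2 * 2 ^ (2 * H + 1) * 25 ^ (M + 1)) * ε := by
    intro ε h0 h100
    have e := deform_const a1 b1 a2 b2 M H hG0 hGb hGa (deform_m5 h0 (by linarith))
      (deform_m1 h0 (by linarith))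
    have k := deform_key h1 h2 hB hB0 hGb hGa h0 h100
    rw [← e, norm_mul] at k
    have n1 : ‖2 * (Real.pi : ℂ) * Complex.I‖ = 2 * Real.pi := by
      simp [abs_of_pos Real.pi_pos]
    rw [n1] at k
    refine le_trans (mul_le_mul_of_nonneg_left ?_ (by positivity)) k
    rw [← Complex.sub_im]
    exact Complex.abs_im_le_norm _
  have hT2 : Tendsto (fun ε : ℝ => (G0 (dpt 2 ε pA)).im) (𝓝[>] 0) (𝓝 (G0 2).im) := by
    have hc : ContinuousAt G0 2 := by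
      refine (hG0 2 ?_).continuousAt
      rw [Complex.mem_slitPlane_iff]
      left
      norm_num
    exact (Complex.continuous_im.tendsto _).comp (hc.tendsto.comp (dpt_tendsto 2 pA))
  have hT3 : Tendsto (fun ε : ℝ => (G0 (dpt 3 ε pA)).im) (𝓝[>] 0) (𝓝 0) := by
    refine hG03.comp (tendsto_nhdsWithin_iff.mpr ⟨dpt_tendsto 3 pA, ?_⟩)
    filter_upwards [self_mem_nhdsWithin] with ε hε
    have hε' : 0 < ε := hε
    change (dpt 3 ε pA).im < 0
    rw [dpt_im]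
    simp only [pA, Complex.im_ofNat]
    linarith
  have hL : Tendsto (fun ε : ℝ => 2 * Real.pi * |(G0 (dpt 2 ε pA)).im - (G0 (dpt 3 ε pA)).im|)
      (𝓝[>] 0) (𝓝 (2 * Real.pi * |(G0 2).im - 0|)) :=
    ((hT2.sub hT3).abs).const_mul _
  have hR : Tendsto (fun ε : ℝ => 9 * B +
      6 * (2 ^ a2 * 2 ^ b2 * 2 ^ (2 * H + 1) * 25 ^ (M + 1)) * ε) (𝓝[>] 0) (𝓝 (9 * B + 0)) := by
    refine tendsto_const_nhds.add ?_
    have h : Tendsto (fun ε : ℝ => 6 * (2 ^ a2 * 2 ^ b2 * 2 ^ (2 * H + 1) * 25 ^ (M + 1)) * ε)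
        (𝓝 0) (𝓝 (6 * (2 ^ a2 * 2 ^ b2 * 2 ^ (2 * H + 1) * 25 ^ (M + 1)) * 0)) :=
      tendsto_id.const_mul _
    rw [mul_zero] at h
    exact h.mono_left nhdsWithin_le_nhds
  have hev : ∀ᶠ ε : ℝ in 𝓝[>] 0,
      2 * Real.pi * |(G0 (dpt 2 ε pA)).im - (G0 (dpt 3 ε pA)).im| ≤
        9 * B + 6 * (2 ^ a2 * 2 ^ b2 * 2 ^ (2 * H + 1) * 25 ^ (M + 1)) * ε := by
    filter_upwards [Ioc_mem_nhdsGT (show (0 : ℝ) < 1 / 100 by norm_num)] with ε hε
    exact key ε hε.1 hε.2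
  have hfin := le_of_tendsto_of_tendsto hL hR hev
  rw [sub_zero, add_zero] at hfin
  have : 6 * |(G0 2).im| ≤ 2 * Real.pi * |(G0 2).im| :=
    mul_le_mul_of_nonneg_right (by linarith) (abs_nonneg _)
  linarith

end Vale.Agent.P021
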