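import Vale.Agent.Lib.P021.Rec

/-!
# P021, two-fold family

`NV a1 b1 a2 b2 M = (v-2)^a2 (v-3)^b2 D^[M]((v-2)^a1 (v-3)^b1)`, `D^[M]` the Hasse derivative.
The family used: `a1 = b1 = 26k`, `a2 = 6k`, `b2 = 36k`, `M = 16k`, `H = 13k`.
-/

namespace Vale.Agent.P021

open Polynomial

/-- `(X-2)^a (X-3)^b`, integer coefficients. -/
noncomputable def PZ (a b : ℕ) : ℤ[X] := (X - C 2) ^ a * (X - C 3) ^ b

/-- two-fold numerators. -/
noncomputable def NV (a1 b1 a2 b2 M : ℕ) : ℤ[X] := PZ a2 b2 * hasseDeriv M (PZ a1 b1)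

/-- the family -/
noncomputable def NK (k : ℕ) : ℤ[X] := NV (26 * k) (26 * k) (6 * k) (36 * k) (16 * k)

/-- rational part of the `k`-th form -/
noncomputable def AK (k : ℕ) : ℚ := LA ((13 * k : ℕ) : ℤ) ((NK k).map (Int.castRingHom ℚ))

/-- coefficient of `π/4` in the `k`-th form -/
noncomputable def BK (k : ℕ) : ℚ := LB ((13 * k : ℕ) : ℤ) ((NK k).map (Int.castRingHom ℚ))

end Vale.Agent.P021
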