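import Vale.Agent.Lib.P021V.AssemblyV

/-!
# P021: the exponent 5.5997, and passage to rational numbers and to an explicit inequality
-/

namespace Vale.Agent.P021

open Polynomial Filter Topology

/-- the proof of `irrationalityExponent_pi_le_V`, with the constant it gives -/
theorem irrationalityExponent_pi_le_V_exact :
    irrationalityExponent Real.pi ≤ ((55997 / 10000 : ℝ) : EReal) := by
  obtain ⟨c, D, hD, hDA, hDsize⟩ := AK_denom_main
  obtain ⟨C, hC, hform⟩ := form_K
  obtain ⟨c4, hc4, hBu⟩ := BK_upper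
  have hk1 := kapV_lt
  have hk0 := kapV_pos
  -- the size of the form
  have hF : ∀ n : ℕ, 1 ≤ n → |((4 * AK (5 * n) : ℚ) : ℝ) + (BK (5 * n) : ℝ) * Real.pi| ≤
      4 * C * Real.exp (-(250875 / 1000) * n) := by
    intro n hn
    have h1 := hform (5 * n) (by omega)
    have e : ((4 * AK (5 * n) : ℚ) : ℝ) + (BK (5 * n) : ℝ) * Real.pi =
        4 * ((AK (5 * n) : ℝ) + (BK (5 * n) : ℝ) * (Real.pi / 4)) := by
      push_cast; ring
    rw [e, abs_mul, abs_of_pos (by norm_num : (0:ℝ) < 4)]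
    have e2 : -(50175 / 1000 * ((5 * n : ℕ) : ℝ)) = -(250875 / 1000) * n := by
      push_cast; ring
    rw [e2] at h1
    linarith
  have hBu' : ∀ n : ℕ, |(BK (5 * n) : ℝ)| ≤ c4 * Real.exp (7653025 / 10000 * n) := by
    intro n
    refine (hBu (5 * n)).trans (le_of_eq ?_)
    congr 2
    push_cast; ring
  have hfin := exponent_le_of_forms2 Real.pi (18147 / 100) (8347 / 10) (by norm_num) (by norm_num)
    irrational_pi (fun n => 4 * AK (5 * n)) (fun n => BK (5 * n)) D hD ?_ ?_ ?_ ?_ ?_ ?_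
  · refine hfin.trans (EReal.coe_le_coe_iff.2 ?_)
    norm_num
  · intro n
    obtain ⟨z, hz⟩ := hDA n
    exact ⟨4 * z, by push_cast; rw [← hz]; ring⟩
  · intro n
    obtain ⟨z, hz⟩ := LB_int ((13 * (5 * n) : ℕ) : ℤ) (NK (5 * n))
    refine ⟨D n * z, ?_⟩
    have : BK (5 * n) = z := hz
    rw [this]; push_cast; ring
  · filter_upwards [BK_lower] with n hn h0
    simp only [h0, Rat.cast_zero, abs_zero] at hn
    exact absurd (Real.exp_pos _) (not_lt.2 hn)
  · -- small
    have hr : Real.exp (kapV - 69405 / 1000) < 1 := by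
      rw [Real.exp_lt_one_iff]; linarith
    filter_upwards [hDsize, eventually_lin_mul_pow_le (Real.exp (kapV - 69405 / 1000)) (8 * C) c 5
      (Real.exp_pos _).le hr, eventually_ge_atTop 1] with n h1 h2 h3
    have h4 := hF n h3
    calc (D n : ℝ) * |((4 * AK (5 * n) : ℚ) : ℝ) + (BK (5 * n) : ℝ) * Real.pi|
        ≤ (2 * (c * (5 * n + 1) + 1) * Real.exp (kapV * n)) *
          (4 * C * Real.exp (-(250875 / 1000) * n)) :=
          mul_le_mul h1 h4 (abs_nonneg _) (by positivity)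
      _ = (8 * C * (c * (5 * n + 1) + 1) * Real.exp (kapV - 69405 / 1000) ^ n) *
          Real.exp (-(18147 / 100 * n)) := by
          rw [← exp_mul_nat]
          have : Real.exp (kapV * n) * Real.exp (-(250875 / 1000) * n) =
              Real.exp ((kapV - 69405 / 1000) * n) * Real.exp (-(18147 / 100 * n)) := by
            rw [← Real.exp_add, ← Real.exp_add]; congr 1; ring
          calc _ = 8 * C * (c * (5 * n + 1) + 1) *
              (Real.exp (kapV * n) * Real.exp (-(250875 / 1000) * n)) := by ring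
            _ = _ := by rw [this]; ring
      _ ≤ 1 * Real.exp (-(18147 / 100 * n)) :=
          mul_le_mul_of_nonneg_right h2 (Real.exp_pos _).le
      _ = _ := one_mul _
  · -- big
    have hr : Real.exp (kapV - 693975 / 10000) < 1 := by
      rw [Real.exp_lt_one_iff]; linarith
    filter_upwards [hDsize, eventually_lin_mul_pow_le (Real.exp (kapV - 693975 / 10000)) (2 * c4) c 5
      (Real.exp_pos _).le hr] with n h1 h2
    calc (D n : ℝ) * |(BK (5 * n) : ℝ)|
        ≤ (2 * (c * (5 * n + 1) + 1) * Real.exp (kapV * n)) *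
          (c4 * Real.exp (7653025 / 10000 * n)) :=
          mul_le_mul h1 (hBu' n) (abs_nonneg _) (by positivity)
      _ = (2 * c4 * (c * (5 * n + 1) + 1) * Real.exp (kapV - 693975 / 10000) ^ n) *
          Real.exp (8347 / 10 * n) := by
          rw [← exp_mul_nat]
          have : Real.exp (kapV * n) * Real.exp (7653025 / 10000 * n) =
              Real.exp ((kapV - 693975 / 10000) * n) * Real.exp (8347 / 10 * n) := by
            rw [← Real.exp_add, ← Real.exp_add]; congr 1; ring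
          calc _ = 2 * c4 * (c * (5 * n + 1) + 1) *
              (Real.exp (kapV * n) * Real.exp (7653025 / 10000 * n)) := by ring
            _ = _ := by rw [this]; ring
      _ ≤ 1 * Real.exp (8347 / 10 * n) :=
          mul_le_mul_of_nonneg_right h2 (Real.exp_pos _).le
      _ = _ := one_mul _
  · -- ratio
    have hr : Real.exp (kapV - 693925 / 10000) < 1 := by
      rw [Real.exp_lt_one_iff]; linarith
    have h5 : Tendsto (fun n : ℕ => n + 1) atTop atTop := tendsto_add_atTop_nat 1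
    set K0 : ℝ := 48 * C * c4 * Real.exp (kapV + 7653025 / 10000) with hK0
    filter_upwards [h5.eventually hDsize, eventually_lin_mul_pow_le
      (Real.exp (kapV - 693925 / 10000)) K0 c 5 (Real.exp_pos _).le hr, BK_lower,
      eventually_ge_atTop 1] with n h1 h2 h3 h4
    have hb := hBu' (n + 1)
    have hf := hF n h4
    push_cast at h1 hb
    have hm : 2 * ((c : ℝ) * (5 * (n + 1) + 1) + 1) ≤ 12 * (c * (5 * n + 1) + 1) := by
      have : (0 : ℝ) ≤ c := Nat.cast_nonneg c
      have : (0 : ℝ) ≤ (c : ℝ) * n := by positivity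
      nlinarith
    calc (D (n + 1) : ℝ) * |(BK (5 * (n + 1)) : ℝ)| *
          |((4 * AK (5 * n) : ℚ) : ℝ) + (BK (5 * n) : ℝ) * Real.pi|
        ≤ (12 * (c * (5 * n + 1) + 1) * Real.exp (kapV * (n + 1))) *
          (c4 * Real.exp (7653025 / 10000 * (n + 1))) *
          (4 * C * Real.exp (-(250875 / 1000) * n)) := by
          refine mul_le_mul (mul_le_mul (h1.trans ?_) hb (abs_nonneg _) (by positivity)) hf
            (abs_nonneg _) (by positivity)
          exact mul_le_mul_of_nonneg_right hm (Real.exp_pos _).le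
      _ = (K0 * (c * (5 * n + 1) + 1) * Real.exp (kapV - 693925 / 10000) ^ n) *
          (Real.exp (-(18147 / 100 * n)) * Real.exp (76529 / 100 * n)) := by
          rw [← exp_mul_nat, hK0]
          have : Real.exp (kapV * (n + 1)) * Real.exp (7653025 / 10000 * (n + 1)) *
              Real.exp (-(250875 / 1000) * n) =
              Real.exp (kapV + 7653025 / 10000) * Real.exp ((kapV - 693925 / 10000) * n) *
              (Real.exp (-(18147 / 100 * n)) * Real.exp (76529 / 100 * n)) := by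
            simp only [← Real.exp_add]; congr 1; ring
          calc _ = 48 * C * c4 * (c * (5 * n + 1) + 1) *
              (Real.exp (kapV * (n + 1)) * Real.exp (7653025 / 10000 * (n + 1)) *
              Real.exp (-(250875 / 1000) * n)) := by ring
            _ = _ := by rw [this]; ring
      _ ≤ 1 * (Real.exp (-(18147 / 100 * n)) * |(BK (5 * n) : ℝ)|) := by
          refine mul_le_mul h2 ?_ (by positivity) zero_le_one
          exact mul_le_mul_of_nonneg_left h3 (Real.exp_pos _).le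
      _ = _ := one_mul _


/-- exponents `ν` such that `0 < |x - r| < (den r) ^ (-ν)` for infinitely many rational numbers `r`
with denominator at least two -/
theorem mem_exponentSet_of_rat {x ν : ℝ} (h0 : 0 < ν)
    (h : {r : ℚ | 2 ≤ r.den ∧ 0 < |x - r| ∧ |x - r| < (r.den : ℝ) ^ (-ν)}.Infinite) :
    ν ∈ exponentSet x := by
  refine ⟨h0, ?_⟩
  have hinj : Set.InjOn (fun r : ℚ => (r.num, (r.den : ℤ)))
      {r : ℚ | 2 ≤ r.den ∧ 0 < |x - r| ∧ |x - r| < (r.den : ℝ) ^ (-ν)} := by
    intro r _ s _ hrs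
    simp only [Prod.mk.injEq, Nat.cast_inj] at hrs
    exact Rat.ext hrs.1 hrs.2
  refine (h.image hinj).mono ?_
  rintro _ ⟨r, ⟨h1, h2, h3⟩, rfl⟩
  have h4 : (r : ℝ) = (r.num : ℝ) / ((r.den : ℤ) : ℝ) := by
    rw [Int.cast_natCast]
    exact Rat.cast_def r
  have h5 : (2 : ℤ) ≤ (r.den : ℤ) := by exact_mod_cast h1
  refine ⟨?_, h5, ?_, ?_⟩
  · rw [Int.isCoprime_iff_gcd_eq_one]
    exact r.reduced
  · rw [← h4]; exact h2
  · rw [← h4, Int.cast_natCast]; exact h3

/-- if only finitely many rational numbers are closer to `x` than `den ^ (-ν)` then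
`1 / q ^ ν ≤ |x - p / q|` for all large `q` -/
theorem explicit_of_finite {x ν : ℝ} (hx : Irrational x) (hν : 0 < ν)
    (h : {r : ℚ | 2 ≤ r.den ∧ 0 < |x - r| ∧ |x - r| < (r.den : ℝ) ^ (-ν)}.Finite) :
    ∃ Q : ℕ, ∀ p : ℤ, ∀ q : ℕ, Q ≤ q → 1 / (q : ℝ) ^ ν ≤ |x - p / q| := by
  have hpos : ∀ r : ℚ, 0 < |x - r| := fun r =>
    abs_pos.2 (sub_ne_zero.2 (hx.ne_rat r))
  have hlim : Tendsto (fun q : ℕ => 1 / (q : ℝ) ^ ν) atTop (𝓝 0) := by
    have h1 : Tendsto (fun q : ℕ => ((q : ℝ) ^ ν)⁻¹) atTop (𝓝 0) :=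
      ((tendsto_rpow_atTop hν).comp tendsto_natCast_atTop_atTop).inv_tendsto_atTop
    simpa only [one_div] using h1
  have h1 : ∀ᶠ q : ℕ in atTop,
      ∀ r ∈ {r : ℚ | 2 ≤ r.den ∧ 0 < |x - r| ∧ |x - r| < (r.den : ℝ) ^ (-ν)},
        1 / (q : ℝ) ^ ν ≤ |x - r| :=
    (eventually_all_finite h).2 fun r _ => hlim.eventually_le_const (hpos r)
  have h2 : ∀ᶠ q : ℕ in atTop, 1 / (q : ℝ) ^ ν ≤ |x - ((round x : ℤ) : ℚ)| :=
    hlim.eventually_le_const (hpos _)
  obtain ⟨Q, hQ⟩ := eventually_atTop.1 (h1.and (h2.and (eventually_ge_atTop 1)))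
  refine ⟨Q, fun p q hq => ?_⟩
  obtain ⟨h3, h4, h5⟩ := hQ q hq
  have hq0 : (0 : ℝ) < q := by exact_mod_cast h5
  set r : ℚ := (p : ℚ) / ((q : ℤ) : ℚ) with hr
  have hrc : (r : ℝ) = (p : ℝ) / q := by rw [hr]; push_cast; rfl
  rw [← hrc]
  have hden : r.den ∣ q := by
    have h6 : ((Rat.divInt p (q : ℤ)).den : ℤ) ∣ (q : ℤ) := Rat.den_dvd p q
    rw [Rat.divInt_eq_div] at h6
    exact Int.natCast_dvd_natCast.1 h6
  have hle : r.den ≤ q := Nat.le_of_dvd h5 hden
  by_cases hd : 2 ≤ r.den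
  · by_cases hF : |x - r| < (r.den : ℝ) ^ (-ν)
    · exact h3 r ⟨hd, hpos r, hF⟩
    · refine le_trans ?_ (not_lt.1 hF)
      rw [one_div, ← Real.rpow_neg hq0.le]
      have hd0 : (0 : ℝ) < r.den := by exact_mod_cast r.den_pos
      exact Real.rpow_le_rpow_of_nonpos hd0 (by exact_mod_cast hle) (by linarith)
  · have hd1 : r.den = 1 := by
      have := r.den_pos
      omega
    have h6 : (r : ℝ) = (r.num : ℝ) := by
      conv_lhs => rw [Rat.cast_def, hd1, Nat.cast_one, div_one]
    rw [h6]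
    refine h4.trans ?_
    rw [Rat.cast_intCast]
    exact round_le x r.num

/-- Dirichlet: `2` is an admissible exponent of every irrational number -/
theorem two_mem_rat {x : ℝ} (hx : Irrational x) :
    {r : ℚ | 2 ≤ r.den ∧ 0 < |x - r| ∧ |x - r| < (r.den : ℝ) ^ (-(2 : ℝ))}.Infinite := by
  have hpos : ∀ r : ℚ, 0 < |x - r| := fun r =>
    abs_pos.2 (sub_ne_zero.2 (hx.ne_rat r))
  have h1 := Real.infinite_rat_abs_sub_lt_one_div_den_sq_of_irrational hx
  have h2 : (((Set.Icc (⌊x⌋ - 1) (⌊x⌋ + 2)).image (fun m : ℤ => (m : ℚ)))).Finite :=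
    (Set.finite_Icc _ _).image _
  refine (h1.sdiff h2).mono ?_
  rintro r ⟨h3, h4⟩
  have h5 : (r.den : ℝ) ^ (-(2 : ℝ)) = 1 / (r.den : ℝ) ^ 2 := by
    rw [Real.rpow_neg (by positivity), one_div, ← Real.rpow_natCast]
    norm_num
  refine ⟨?_, hpos r, by rw [h5]; exact h3⟩
  by_contra hd
  have hd1 : r.den = 1 := by
    have := r.den_pos
    omega
  apply h4
  have h6 : (r : ℝ) = (r.num : ℝ) := by
    conv_lhs => rw [Rat.cast_def, hd1, Nat.cast_one, div_one]
  have h7 : |x - r| < 1 := by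
    have := h3
    simp only [Set.mem_ofPred_eq, hd1] at this
    simpa using this
  rw [h6, abs_lt] at h7
  refine ⟨r.num, ⟨?_, ?_⟩, ?_⟩
  · have h8 := Int.floor_le x
    have h9 : ((⌊x⌋ - 1 : ℤ) : ℝ) < ((r.num : ℤ) : ℝ) + 1 := by push_cast; linarith
    have h10 : (⌊x⌋ - 1 : ℤ) < r.num + 1 := by exact_mod_cast h9
    omega
  · have h8 := Int.lt_floor_add_one x
    have h9 : ((r.num : ℤ) : ℝ) < ((⌊x⌋ + 2 : ℤ) : ℝ) := by push_cast; linarith
    have h10 : r.num < ⌊x⌋ + 2 := by exact_mod_cast h9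
    omega
  · exact Rat.ext (by simp) (by simp [hd1])

end Vale.Agent.P021
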