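import Vale.Agent.Lib.P021.Savings
import Vale.Agent.Lib.P021V.Defs

/-!
# P021: prime savings, general criteria
-/

namespace Vale.Agent.P021

open Polynomial

private theorem sav0_mul {p : ℕ} [Fact p.Prime] {x y : ℚ} (hx : padicNorm p x ≤ 1)
    (hy : padicNorm p y ≤ 1) : padicNorm p (x * y) ≤ 1 := by
  rw [padicNorm.mul]
  exact mul_le_one₀ hx (padicNorm.nonneg _) hy

private theorem sav0_add {p : ℕ} [Fact p.Prime] {x y : ℚ} (hx : padicNorm p x ≤ 1)
    (hy : padicNorm p y ≤ 1) : padicNorm p (x + y) ≤ 1 :=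
  padicNorm.nonarchimedean.trans (max_le hx hy)

private theorem sav0_nat_unit {p : ℕ} [Fact p.Prime] (n : ℕ) (h : ¬ p ∣ n) :
    padicNorm p (n : ℚ) = 1 := by
  rw [padicNorm.nat_eq_one_iff]
  exact h

private theorem sav0_two_pow (p : ℕ) [Fact p.Prime] (hp2 : p ≠ 2) (k : ℕ) :
    padicNorm p ((2 : ℚ) ^ k) = 1 := by
  have hp : p.Prime := Fact.out
  have : ((2 : ℚ) ^ k) = ((2 ^ k : ℕ) : ℚ) := by push_cast; rfl
  rw [this]
  refine sav0_nat_unit _ ?_
  intro hd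
  have := hp.dvd_of_dvd_pow hd
  exact hp2 ((Nat.prime_dvd_prime_iff_eq hp Nat.prime_two).1 this)

/-- `p * muA k H` is `p`-integral in the range of the size conditions. -/
private theorem sav0_p_muA (p : ℕ) [Fact p.Prime] (hp2 : p ≠ 2) (H k : ℕ)
    (h1 : 2 * H + 1 ≤ p ^ 2) (h2 : k + 1 ≤ p ^ 2 + 2 * H) :
    padicNorm p ((p : ℚ) * muA k (H : ℤ)) ≤ 1 := by
  have hp : p.Prime := Fact.out
  obtain ⟨s, z, hz⟩ := LA_odd_denom H (p ^ 2 - 1) (X ^ k) (by omega) (by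
    rw [natDegree_X_pow]; omega)
  rw [Polynomial.map_pow, Polynomial.map_X, LA_X_pow] at hz
  have hlog : Nat.log p (p ^ 2 - 1) = 1 := by
    have h2 := hp.two_le
    rw [Nat.log_eq_iff (Or.inl one_ne_zero)]
    have h3 : p * 2 ≤ p ^ 2 := by nlinarith
    constructor
    · rw [pow_one]; omega
    · have : 0 < p ^ 2 := by positivity
      simp only [Nat.reduceAdd]
      omega
  have hlcm : padicNorm p (Nat.lcmUpto (p ^ 2 - 1) : ℚ) = (p : ℚ)⁻¹ := by
    have h1 : (Nat.lcmUpto (p ^ 2 - 1) : ℚ) ≠ 0 := by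
      exact_mod_cast Nat.lcmUpto_ne_zero _
    rw [padicNorm.eq_zpow_of_nonzero h1, padicValRat.of_nat, ← Nat.factorization_def _ hp,
      Nat.factorization_lcmUpto _ hp, hlog]
    simp
  have h3 := congrArg (padicNorm p) hz
  rw [padicNorm.mul, padicNorm.mul, sav0_two_pow p hp2, hlcm, one_mul] at h3
  have h4 := padicNorm.of_int (p := p) z
  rw [padicNorm.mul, padicNorm.padicNorm_p_of_prime, h3]
  exact h4

/-- `p * LA H R` is `p`-integral for `R` with `p`-integral coefficients. -/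
private theorem sav0_p_LA (p : ℕ) [Fact p.Prime] (hp2 : p ≠ 2) (H n : ℕ) (a : ℕ → ℚ)
    (ha : ∀ l, padicNorm p (a l) ≤ 1)
    (h1 : 2 * H + 1 ≤ p ^ 2) (h2 : n ≤ p ^ 2 + 2 * H) :
    padicNorm p ((p : ℚ) * LA (H : ℤ) (∑ l ∈ Finset.range n, monomial l (a l))) ≤ 1 := by
  rw [map_sum, Finset.mul_sum]
  refine padicNorm.sum_le' (fun l hl => ?_) zero_le_one
  rw [LA_monomial]
  have e : (p : ℚ) * (a l * muA l (H : ℤ)) = a l * ((p : ℚ) * muA l (H : ℤ)) := by ring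
  rw [e]
  refine sav0_mul (ha l) (sav0_p_muA p hp2 H l h1 ?_)
  have := Finset.mem_range.1 hl
  omega

/-- the coefficients of the primitive. -/
private noncomputable def sav0_b (p : ℕ) (M : ℤ[X]) (l : ℕ) : ℚ :=
  if p ∣ l + 1 then 0 else (M.coeff l : ℚ) / ((l : ℚ) + 1)

private theorem sav0_b_le (p : ℕ) [Fact p.Prime] (M : ℤ[X]) (l : ℕ) :
    padicNorm p (sav0_b p M l) ≤ 1 := by
  unfold sav0_b
  split_ifs with h
  · simp
  · have h1 : padicNorm p ((l : ℚ) + 1) = 1 := by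
      have := sav0_nat_unit (p := p) (l + 1) h
      push_cast at this
      exact this
    rw [padicNorm.div, h1, div_one]
    exact padicNorm.of_int _

/-- the general reduction: only the indices `≡ -1 mod p` matter. -/
private theorem sav0_core (p : ℕ) [Fact p.Prime] (hp2 : p ≠ 2) (H r₃ γ : ℕ) (N : ℤ[X])
    (hγ : 2 * H + 2 * r₃ + 1 = p * (2 * γ + 1))
    (hsize1 : 2 * H + 2 * r₃ + 3 ≤ p ^ 2) (hsize2 : N.natDegree + 4 ≤ p ^ 2 + 2 * H)
    (hterm : ∀ l, p ∣ l + 1 → l ≤ N.natDegree + 2 * r₃ →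
      padicNorm p (((N * (X ^ 2 - C 8) ^ r₃).coeff l : ℚ) * muA l ((H + r₃ : ℕ) : ℤ)) ≤ 1) :
    padicNorm p (LA H (N.map (Int.castRingHom ℚ))) ≤ 1 := by
  set M : ℤ[X] := N * (X ^ 2 - C 8) ^ r₃ with hM
  set n : ℕ := N.natDegree + 2 * r₃ + 1 with hn
  have hMdeg : M.natDegree < n := by
    have e4 : ((X ^ 2 - C 8 : ℤ[X]) ^ r₃).natDegree ≤ 2 * r₃ := by
      refine natDegree_pow_le.trans ?_
      rw [natDegree_X_pow_sub_C, mul_comm]
    have : M.natDegree ≤ N.natDegree + 2 * r₃ := natDegree_mul_le.trans (Nat.add_le_add_left e4 _)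
    omega
  set W : ℚ[X] := X ^ 2 - C 8 with hW
  -- the primitive
  set H₁ : ℚ[X] := ∑ l ∈ Finset.range n, monomial (l + 1) (sav0_b p M l) with hH₁
  set R : ℚ[X] := ∑ l ∈ Finset.range n,
    monomial l (if p ∣ l + 1 then (M.coeff l : ℚ) else 0) with hR
  have hdec : M.map (Int.castRingHom ℚ) = derivative H₁ + R := by
    rw [hH₁, hR, derivative_sum, ← Finset.sum_add_distrib, M.as_sum_range' n hMdeg,
      Polynomial.map_sum]
    refine Finset.sum_congr rfl fun l _ => ?_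
    rw [Polynomial.map_monomial, derivative_monomial, Nat.add_sub_cancel, ← map_add]
    congr 1
    have hs : (∑ i ∈ Finset.range n, monomial i (M.coeff i) : ℤ[X]) = M :=
      (M.as_sum_range' n hMdeg).symm
    rw [hs]
    unfold sav0_b
    have hl : ((l : ℚ) + 1) ≠ 0 := by positivity
    split_ifs with h
    · simp
    · push_cast
      rw [div_mul_cancel₀ _ hl]
      simp
  set Ht : ℤ := (H : ℤ) + ((r₃ + 1 : ℕ) : ℤ) with hHt
  have hMW : M.map (Int.castRingHom ℚ) * W = W ^ (r₃ + 1) * N.map (Int.castRingHom ℚ) := by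
    rw [hM, Polynomial.map_mul, Polynomial.map_pow, map_W, ← hW]
    ring
  have hex : exNum Ht H₁ = derivative H₁ * W - C ((p : ℚ) * (2 * γ + 1)) * (X * H₁) := by
    have hcoef : (1 - 2 * (Ht : ℚ)) = -((p : ℚ) * (2 * γ + 1)) := by
      have : ((2 * H + 2 * r₃ + 1 : ℕ) : ℚ) = ((p * (2 * γ + 1) : ℕ) : ℚ) := by rw [hγ]
      rw [hHt]
      push_cast at this ⊢
      linarith
    unfold exNum
    rw [hcoef, C_neg, ← hW]
    ring
  have hsplit : W ^ (r₃ + 1) * N.map (Int.castRingHom ℚ)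
      = exNum Ht H₁ + ((p : ℚ) * (2 * γ + 1)) • (X * H₁) + W * R := by
    rw [← hMW, hdec, hex, smul_eq_C_mul]
    ring
  have happ := congrArg (LA Ht) hsplit
  have hLA1 : LA Ht (W ^ (r₃ + 1) * N.map (Int.castRingHom ℚ)) =
      LA H (N.map (Int.castRingHom ℚ)) := by
    rw [hHt, hW]
    exact LA_W_pow_mul (H : ℤ) (r₃ + 1) _
  rw [hLA1, map_add, map_add, map_smul, LA_exact, hW, LA_W_mul, smul_eq_mul] at happ
  have hHt1 : Ht - 1 = ((H + r₃ : ℕ) : ℤ) := by rw [hHt]; push_cast; ring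
  have hHt2 : Ht = ((H + r₃ + 1 : ℕ) : ℤ) := by rw [hHt]; push_cast; ring
  rw [hHt1] at happ
  rw [happ]
  refine sav0_add (sav0_add ?_ ?_) ?_
  · -- the exact part
    have h2 : (-4 : ℚ) ^ (-Ht) = ((((-4 : ℤ) ^ (H + r₃ + 1) : ℤ)) : ℚ)⁻¹ := by
      rw [hHt2, zpow_neg, zpow_natCast]
      push_cast
      rfl
    have hp : p.Prime := Fact.out
    have h3 : padicNorm p ((((-4 : ℤ) ^ (H + r₃ + 1) : ℤ)) : ℚ) = 1 := by
      rw [padicNorm.int_eq_one_iff]
      intro hd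
      have h4 : (p : ℤ) ∣ -4 := (Nat.prime_iff_prime_int.1 hp).dvd_of_dvd_pow hd
      have h5 : p ∣ 4 := by
        have : (p : ℤ) ∣ 4 := by rwa [← dvd_neg]
        exact_mod_cast this
      have h6 : p ∣ 2 ^ 2 := by simpa using h5
      exact hp2 ((Nat.prime_dvd_prime_iff_eq hp Nat.prime_two).1 (hp.dvd_of_dvd_pow h6))
    rw [h2, ← div_eq_mul_inv, padicNorm.div, h3, div_one]
    refine sav0_mul ?_ ?_
    · have := padicNorm.of_int (p := p) 2
      exact_mod_cast this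
    · rw [hH₁, eval_finsetSum]
      refine padicNorm.sum_le' (fun l _ => ?_) zero_le_one
      rw [eval_monomial]
      refine sav0_mul (sav0_b_le p M l) ?_
      rw [sav0_two_pow p hp2]
  · -- the part divisible by `p`
    have e : (p : ℚ) * (2 * γ + 1) * LA Ht (X * H₁) =
        ((2 * γ + 1 : ℕ) : ℚ) * ((p : ℚ) * LA Ht (X * H₁)) := by
      push_cast; ring
    rw [e]
    refine sav0_mul (padicNorm.of_nat _) ?_
    have hXH : X * H₁ = ∑ l ∈ Finset.range (n + 2),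
        monomial l (if 2 ≤ l then sav0_b p M (l - 2) else 0) := by
      rw [Finset.sum_range_succ', Finset.sum_range_succ', hH₁, Finset.mul_sum]
      have z1 : (monomial 0 (if 2 ≤ 0 then sav0_b p M (0 - 2) else 0) : ℚ[X]) = 0 := by simp
      have z2 : (monomial (0 + 1) (if 2 ≤ 0 + 1 then sav0_b p M (0 + 1 - 2) else 0) : ℚ[X]) = 0 := by
        simp
      rw [z1, z2, add_zero, add_zero]
      refine Finset.sum_congr rfl fun l _ => ?_
      rw [if_pos (by omega), X_mul_monomial]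
      rfl
    rw [hXH, hHt2]
    refine sav0_p_LA p hp2 (H + r₃ + 1) (n + 2) _ (fun l => ?_) (by omega) (by omega)
    split_ifs
    · exact sav0_b_le p M _
    · simp
  · -- the terms with `p ∣ l + 1`
    rw [hR, map_sum]
    refine padicNorm.sum_le' (fun l hl => ?_) zero_le_one
    rw [LA_monomial]
    split_ifs with h
    · refine hterm l h ?_
      have := Finset.mem_range.1 hl
      omega
    · simp

/-- all coefficients divisible by `p`. -/
theorem savings_zero (p : ℕ) [Fact p.Prime] (hp2 : p ≠ 2) (H : ℕ) (N : ℤ[X])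
    (hcoef : ∀ l, (p : ℤ) ∣ N.coeff l)
    (hsize1 : 2 * H + 1 ≤ p ^ 2) (hsize2 : N.natDegree + 1 ≤ p ^ 2 + 2 * H) :
    padicNorm p (LA H (N.map (Int.castRingHom ℚ))) ≤ 1 := by
  rw [N.as_sum_range, Polynomial.map_sum, map_sum]
  refine padicNorm.sum_le' (fun l hl => ?_) zero_le_one
  rw [Polynomial.map_monomial, LA_monomial]
  obtain ⟨c, hc⟩ := hcoef l
  have e : (Int.castRingHom ℚ) (N.coeff l) * muA l (H : ℤ) =
      (c : ℚ) * ((p : ℚ) * muA l (H : ℤ)) := by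
    rw [hc]
    simp only [eq_intCast]
    push_cast
    ring
  rw [e]
  refine sav0_mul (padicNorm.of_int _) (sav0_p_muA p hp2 H l hsize1 ?_)
  have := Finset.mem_range.1 hl
  omega

/-- the coefficients of `N W^r₃` at indices `≡ -1 mod p` are divisible by `p`. -/
theorem savings_coef (p : ℕ) [Fact p.Prime] (hp2 : p ≠ 2) (H r₃ γ : ℕ) (N : ℤ[X])
    (hγ : 2 * H + 2 * r₃ + 1 = p * (2 * γ + 1))
    (hcoef : ∀ l, p ∣ l + 1 → (p : ℤ) ∣ (N * (X ^ 2 - C 8) ^ r₃).coeff l)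
    (hsize1 : 2 * H + 2 * r₃ + 3 ≤ p ^ 2) (hsize2 : N.natDegree + 4 ≤ p ^ 2 + 2 * H) :
    padicNorm p (LA H (N.map (Int.castRingHom ℚ))) ≤ 1 := by
  refine sav0_core p hp2 H r₃ γ N hγ hsize1 hsize2 (fun l hl hl2 => ?_)
  obtain ⟨c, hc⟩ := hcoef l hl
  rw [hc]
  have e : (((p : ℤ) * c : ℤ) : ℚ) * muA l ((H + r₃ : ℕ) : ℤ) =
      (c : ℚ) * ((p : ℚ) * muA l ((H + r₃ : ℕ) : ℤ)) := by
    push_cast
    ring
  rw [e]
  exact sav0_mul (padicNorm.of_int _) (sav0_p_muA p hp2 (H + r₃) l (by omega) (by omega))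

/-- `muA (2m) (m+1) = (-1)^m / (8 (2m+1))`. -/
private theorem sav0_muA_diag (m : ℕ) :
    muA (2 * m) ((m : ℤ) + 1) = (-1) ^ m / (8 * (2 * m + 1)) := by
  have h := LA_exact ((m : ℤ) + 1) (X ^ (2 * m + 1))
  have hex : exNum ((m : ℤ) + 1) (X ^ (2 * m + 1) : ℚ[X]) =
      (-(8 * (2 * m + 1)) : ℚ) • (X ^ (2 * m)) := by
    unfold exNum
    have h8 : (C (8 : ℚ)) = 8 := rfl
    rw [derivative_X_pow, Nat.add_sub_cancel, smul_eq_C_mul]
    simp only [h8, C_mul, C_add, C_sub, C_neg, Nat.cast_add, Nat.cast_mul, Nat.cast_ofNat,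
      Nat.cast_one, map_natCast, map_ofNat, map_one, Int.cast_add, Int.cast_natCast, Int.cast_one]
    ring
  rw [hex, map_smul, LA_X_pow, smul_eq_mul, eval_pow, eval_X] at h
  have h1 : (2 * (m : ℚ) + 1) ≠ 0 := by positivity
  have h2 : (2 : ℚ) * 2 ^ (2 * m + 1) * (-4) ^ (-((m : ℤ) + 1)) = -(-1) ^ m := by
    have e1 : (-((m : ℤ) + 1)) = -((m + 1 : ℕ) : ℤ) := by push_cast; ring
    rw [e1, zpow_neg, zpow_natCast, mul_inv_eq_iff_eq_mul₀ (pow_ne_zero _ (by norm_num))]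
    have e2 : (-4 : ℚ) ^ (m + 1) = (-1) ^ (m + 1) * 4 ^ (m + 1) := by
      rw [← mul_pow]; norm_num
    have e3 : (2 : ℚ) * 2 ^ (2 * m + 1) = 4 ^ (m + 1) := by
      rw [← pow_succ', show 2 * m + 1 + 1 = 2 * (m + 1) by ring, pow_mul]
      norm_num
    have e4 : ((-1 : ℚ) ^ m) * (-1) ^ m = 1 := by
      rw [← mul_pow]; norm_num
    rw [e2, e3, pow_succ (-1 : ℚ) m]
    linear_combination (-(4 : ℚ) ^ (m + 1)) * e4
  rw [h2] at h
  rw [eq_div_iff (by positivity)]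
  linarith

/-- `muA (2m) m` is `p`-integral for `2m ≤ p`. -/
private theorem sav0_muA_log (p : ℕ) [Fact p.Prime] (m : ℕ) (hm : 2 * m ≤ p) :
    padicNorm p (muA (2 * m) (m : ℤ)) ≤ 1 := by
  have hp : p.Prime := Fact.out
  induction m with
  | zero =>
    have : muA (2 * 0) ((0 : ℕ) : ℤ) = 0 := rfl
    rw [this]
    simp
  | succ m ih =>
    have h1 : muA (2 * (m + 1)) ((m + 1 : ℕ) : ℤ) =
        (-1) ^ m / ((2 * m + 1 : ℕ) : ℚ) + muA (2 * m) (m : ℤ) := by
      have e1 : 2 * (m + 1) = 2 * m + 2 := by ring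
      rw [e1, muA]
      have e2 : ((m + 1 : ℕ) : ℤ) - 1 = (m : ℤ) := by push_cast; ring
      have e3 : ((m + 1 : ℕ) : ℤ) = (m : ℤ) + 1 := by push_cast; ring
      rw [e2, e3, sav0_muA_diag]
      have h1 : (2 * (m : ℚ) + 1) ≠ 0 := by positivity
      push_cast
      field_simp
    rw [h1]
    refine sav0_add ?_ (ih (by omega))
    have h2 : padicNorm p (((2 * m + 1 : ℕ) : ℚ)) = 1 := by
      refine sav0_nat_unit _ ?_
      intro hd
      have := Nat.le_of_dvd (by omega) hd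
      omega
    rw [padicNorm.div, h2, div_one]
    have := padicNorm.of_int (p := p) ((-1) ^ m)
    push_cast at this
    exact this

/-- the same except for the index `p - 1`, in the case `γ = 0`. -/
theorem savings_log (p : ℕ) [Fact p.Prime] (hp2 : p ≠ 2) (H r₃ : ℕ) (N : ℤ[X])
    (hγ : 2 * H + 2 * r₃ + 1 = p)
    (hcoef : ∀ l, p ∣ l + 1 → l ≠ p - 1 → (p : ℤ) ∣ (N * (X ^ 2 - C 8) ^ r₃).coeff l)
    (hsize2 : N.natDegree + 4 ≤ p ^ 2 + 2 * H) :
    padicNorm p (LA H (N.map (Int.castRingHom ℚ))) ≤ 1 := by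
  have hp : p.Prime := Fact.out
  have hp3 : p + 2 ≤ p ^ 2 := by
    have := hp.two_le
    nlinarith
  refine sav0_core p hp2 H r₃ 0 N (by rw [hγ]; ring) (by omega) hsize2 (fun l hl hl2 => ?_)
  by_cases hlp : l = p - 1
  · refine sav0_mul (padicNorm.of_int _) ?_
    have h1 : l = 2 * (H + r₃) := by omega
    rw [h1]
    exact sav0_muA_log p (H + r₃) (by omega)
  · obtain ⟨c, hc⟩ := hcoef l hl hlp
    rw [hc]
    have e : (((p : ℤ) * c : ℤ) : ℚ) * muA l ((H + r₃ : ℕ) : ℤ) =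
        (c : ℚ) * ((p : ℚ) * muA l ((H + r₃ : ℕ) : ℤ)) := by
      push_cast
      ring
    rw [e]
    exact sav0_mul (padicNorm.of_int _) (sav0_p_muA p hp2 (H + r₃) l (by omega) (by omega))

end Vale.Agent.P021
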